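import Vale.Agent.P155.NT733.XE
import Vale.Agent.P155.K.Final

/-!
# P155, literal Q1, necessity of `Outer`: block (D4)
-/

namespace Vale.Agent.P155.NT733

open Finset J Filter Topology

/-- the height of the first `k` levels tested against `φ` -/
noncomputable def XX (φ : Pt → ℝ) (k : ℕ) (ω : Conf) : ℝ :=
  ∑ᶠ x : Pt, φ x * ((hk k ω x : ℝ) - hk 0 ω x)

theorem XX_zero (φ : Pt → ℝ) (ω : Conf) : XX φ 0 ω = 0 := by
  unfold XX
  simp

theorem XX_succ {φ : Pt → ℝ} (hφ : FS φ) (k : ℕ) (ω : Conf) :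
    XX φ (k + 1) ω = XX φ k ω + ∑ᶠ x : Pt, φ x * ((hk (k + 1) ω x : ℝ) - hk k ω x) := by
  unfold XX
  rw [← finsum_add_distrib (hφ.mul_right _) (hφ.mul_right _)]
  exact finsum_congr fun x => by ring

/-- the telescoped martingale identity -/
theorem tele (C0 : ℝ) (k : ℕ) : ∀ δ : ℝ, 0 < δ → ∃ R0 : ℕ, ∀ R : ℕ, R0 ≤ R → ∀ (T : Temp)
    (φ : Pt → ℝ), 1 ≤ R → Skel.Fits T R → IsBump (0, 0) R (C0 / (R : ℝ) ^ 2) φ →
    (∀ y, φ y ≠ 0 → (R : ℝ) ≤ C0 * dF T.faceSet y) → ∀ U : ℕ → Conf → Pt → ℝ,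
    (∀ j, ∀ ω ∈ DD T.V, IsGreen (Ok T j ω) φ (U j ω)) →
    ‖Ex T.V (fun ω => Complex.exp (Complex.I * (XX φ k ω : ℝ)) *
        (Real.exp (-(1 : ℝ) ^ 2 / Real.pi * pair φ (U k ω)) : ℝ)) -
      Ex T.V (fun ω => ((Real.exp (-(1 : ℝ) ^ 2 / Real.pi * pair φ (U 0 ω)) : ℝ) : ℂ))‖ ≤ δ := by
  induction k with
  | zero =>
    intro δ hδ
    refine ⟨0, fun R _ T φ _ _ _ _ U _ => ?_⟩
    simp only [XX_zero, Complex.ofReal_zero, mul_zero, Complex.exp_zero, one_mul, sub_self,
      norm_zero]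
    exact hδ.le
  | succ k ih =>
    intro δ hδ
    obtain ⟨R1, h1⟩ := ih (δ / 2) (by positivity)
    obtain ⟨c, hc, C, hC⟩ := K.j_star' k 1 C0
    have hlim : Tendsto (fun n : ℕ => C * (n : ℝ) ^ (-c)) atTop (𝓝 0) := by
      have := ((tendsto_rpow_neg_atTop hc).comp tendsto_natCast_atTop_atTop).const_mul C
      simpa using this
    obtain ⟨R2, h2⟩ := eventually_atTop.1 ((tendsto_order.1 hlim).2 (δ / 2) (by positivity))
    refine ⟨max R1 R2, fun R hR T φ hR1 hT hφ hsupp U hU => ?_⟩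
    have a1 := h1 R ((le_max_left _ _).trans hR) T φ hR1 hT hφ hsupp U hU
    have a2 := h2 R ((le_max_right _ _).trans hR)
    have hfs : FS φ := IsBump.fs hφ
    have a3 := hC R T φ hR1 hT hφ hsupp 1 (by simp) (U k) (U (k + 1)) (hU k) (hU (k + 1))
      (fun ω => Complex.exp (Complex.I * (XX φ k ω : ℝ)))
      (fun ω _ => by
        rw [mul_comm]
        exact (Complex.norm_exp_ofReal_mul_I _).le)
      (fun ω hω ω' hω' hag => by
        have e1 := (L.l_hk T k ω hω ω' hω' hag).2.1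
        have e2 : hk 0 ω' = hk 0 ω := by rw [L.hk_zero_eq hω, L.hk_zero_eq hω']
        unfold XX
        rw [e1, e2])
    have e : ∀ ω : Conf, Complex.exp (Complex.I * (XX φ (k + 1) ω : ℝ)) =
        Complex.exp (Complex.I * (XX φ k ω : ℝ)) * Complex.exp (Complex.I * ((1 : ℝ) : ℂ) *
          (∑ᶠ x : Pt, φ x * ((hk (k + 1) ω x : ℝ) - hk k ω x) : ℝ)) := by
      intro ω
      rw [XX_succ hfs, ← Complex.exp_add]
      congr 1
      push_cast
      ring
    simp only [e]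
    calc _ ≤ _ := norm_sub_le_norm_sub_add_norm_sub _ _ _
      _ ≤ δ / 2 + δ / 2 := add_le_add (a3.trans a2.le) a1
      _ = δ := by ring

theorem ex_re (V : Finset Pt) (g : Conf → ℂ) : (Ex V g).re = Ex V (fun ω => (g ω).re) := by
  unfold Ex
  rw [Complex.real_smul, Complex.re_ofReal_mul, Complex.re_sum, smul_eq_mul]

theorem one_sub_cos_exp {X p : ℝ} (hp : 0 ≤ p) :
    1 - Real.cos X * Real.exp (-p) ≤ X ^ 2 / 2 + p := by
  have h1 := Real.one_sub_sq_div_two_le_cos (x := X)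
  have h2 : Real.exp (-p) ≤ 1 := by
    rw [Real.exp_le_one_iff]; linarith
  have h3 : 1 - p ≤ Real.exp (-p) := by
    have := Real.add_one_le_exp (-p)
    linarith
  have h4 := Real.exp_pos (-p)
  have h5 : 0 ≤ 1 - Real.cos X := by linarith [Real.cos_le_one X]
  nlinarith

open Classical in
/-- **(D4)** -/
theorem d4_of (hD1 : NO801.D1) : NO801.D4 := by
  intro κ hκ hκ1
  obtain ⟨C0, hC0, c0, hc0, R1, h1⟩ := hD1 κ hκ hκ1
  have hpi := Real.pi_pos
  set q : ℝ := 1 - Real.exp (-(c0 / Real.pi)) with hq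
  have hq0 : 0 < q := by
    have : Real.exp (-(c0 / Real.pi)) < 1 := by
      rw [Real.exp_lt_one_iff]
      have : 0 < c0 / Real.pi := by positivity
      linarith
    linarith
  have hq1 : q < 1 := by
    have := Real.exp_pos (-(c0 / Real.pi))
    linarith
  refine ⟨q / 4, by positivity, fun k => ?_⟩
  set C1 : ℝ := max C0 (1 / κ) with hC1
  have hC10 : 0 ≤ C1 := hC0.trans (le_max_left _ _)
  obtain ⟨R2, h2⟩ := tele C1 k (q / 4) (by positivity)
  set M : ℝ := 9 * C0 ^ 2 + 144 * C0 ^ 2 * (k : ℝ) ^ 2 + 1 with hM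
  have hM0 : 0 < M := by positivity
  set ε : ℝ := min 1 (q / (16 * M)) with hε
  have hε0 : 0 < ε := lt_min one_pos (by positivity)
  have hε1 : ε ≤ 1 := min_le_left _ _
  have hεM : 4 * ε ^ 2 * M ≤ q / 4 := by
    have a1 : ε * (16 * M) ≤ q := by
      rw [← le_div_iff₀ (by positivity)]
      exact min_le_right _ _
    have a2 : ε ^ 2 ≤ ε := by nlinarith
    nlinarith
  refine ⟨ε, hε0, max (max R1 R2) (max 1 ⌈1 / ε⌉₊), ?_⟩
  intro R hR T hT z m e hm hz he
  have hR1 : R1 ≤ R := (le_max_left _ _).trans ((le_max_left _ _).trans hR)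
  have hR2 : R2 ≤ R := (le_max_right _ _).trans ((le_max_left _ _).trans hR)
  have hR3 : 1 ≤ R := (le_max_left _ _).trans ((le_max_right _ _).trans hR)
  have hR4 : 1 / ε ≤ R := (Nat.le_ceil _).trans (by
    exact_mod_cast (le_max_right _ _).trans ((le_max_right _ _).trans hR))
  have hRr : (1 : ℝ) ≤ R := by exact_mod_cast hR3
  have hR0 : (0 : ℝ) < R := by linarith
  obtain ⟨φ, hb, hsupp, hsum, hpair⟩ := h1 R hR1 T hT z m hm hz
  have hA : ∀ y, |φ y| ≤ C0 / (R : ℝ) ^ 2 := by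
    intro y
    have := hb.2 0 0 (by omega) y
    simpa using this
  have hexO : ∃ p, p ∉ T.faceSet := G45.exists_notMem ((box (0, 0) R).finite_toSet.subset hT)
  -- `m ≤ R`
  have hmpos : 0 < m := by
    have : (0 : ℝ) < m := lt_of_lt_of_le (by positivity) hm
    exact_mod_cast this
  have hmR : m ≤ R := by
    have hzO : z ∈ T.faceSet := G45.mem_of_dF_pos (by omega)
    have hzb := hT hzO
    rw [Finset.mem_coe, G45.mem_box, G45.dn_le_iff] at hzb
    simp only at hzb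
    have hout : ((R : ℤ) + 1, z.2) ∉ T.faceSet := by
      intro h
      have := hT h
      rw [Finset.mem_coe, G45.mem_box, G45.dn_le_iff] at this
      simp only at this
      omega
    have hd := G45.dF_le (x := z) hout
    have hd2 : dn z ((R : ℤ) + 1, z.2) ≤ 2 * R + 1 := by
      rw [G45.dn_le_iff]
      simp only
      push_cast
      omega
    omega
  have hdist : ∀ y, φ y ≠ 0 → (R : ℝ) ≤ C1 * dF T.faceSet y := by
    intro y hy
    have hyb : y ∈ box z m := by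
      by_contra h
      exact hy (hsupp y h)
    rw [G45.mem_box] at hyb
    have h3 := G45.dF_lip hexO z y
    have h4 : m ≤ dF T.faceSet y := by omega
    have h5 : (m : ℝ) ≤ dF T.faceSet y := by exact_mod_cast h4
    have h6 : 1 / κ ≤ C1 := le_max_right _ _
    calc (R : ℝ) = 1 / κ * (κ * R) := by field_simp
      _ ≤ 1 / κ * (dF T.faceSet y : ℝ) := by
          refine mul_le_mul_of_nonneg_left (hm.trans h5) (by positivity)
      _ ≤ C1 * dF T.faceSet y := mul_le_mul_of_nonneg_right h6 (Nat.cast_nonneg _)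
  have hb1 : IsBump (0, 0) R (C1 / (R : ℝ) ^ 2) φ := by
    refine ⟨hb.1, fun a b hab y => (hb.2 a b hab y).trans ?_⟩
    have : C0 / (R : ℝ) ^ 2 ≤ C1 / (R : ℝ) ^ 2 := by
      gcongr
      exact le_max_left _ _
    exact mul_le_mul_of_nonneg_right this (by positivity)
  -- Green functions
  choose U hU using fun (j : ℕ) (ω : Conf) => G45.exists_green (fits_fin hT j ω) φ
  have key := h2 R hR2 T φ hR3 hT hb1 hdist U (fun j ω _ => hU j ω)
  have hOk0 : ∀ ω, Ok T 0 ω = T.faceSet := by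
    intro ω
    ext x
    simp [Ok]
  have hne := K1.dd_nonempty T
  -- the right side
  have hright : ‖Ex T.V (fun ω => ((Real.exp (-(1 : ℝ) ^ 2 / Real.pi * pair φ (U 0 ω)) : ℝ) : ℂ))‖ ≤
      1 - q := by
    have e1 : ∀ ω : Conf, ‖((Real.exp (-(1 : ℝ) ^ 2 / Real.pi * pair φ (U 0 ω)) : ℝ) : ℂ)‖ ≤
        1 - q := by
      intro ω
      rw [Complex.norm_real, Real.norm_of_nonneg (Real.exp_pos _).le, hq, sub_sub_cancel]
      apply Real.exp_le_exp.2
      have h3 := hpair (U 0 ω) (by rw [← hOk0 ω]; exact hU 0 ω)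
      have e2 : -(1 : ℝ) ^ 2 / Real.pi * pair φ (U 0 ω) = - (pair φ (U 0 ω) / Real.pi) := by ring
      rw [e2]
      have : c0 / Real.pi ≤ pair φ (U 0 ω) / Real.pi := by gcongr
      linarith
    refine (norm_avg_le _ _).trans ?_
    exact avg_le_const (by linarith) (fun ω _ => e1 ω)
  -- the left side
  set A := Ex T.V (fun ω => Complex.exp (Complex.I * (XX φ k ω : ℝ)) *
        (Real.exp (-(1 : ℝ) ^ 2 / Real.pi * pair φ (U k ω)) : ℝ)) with hAdef
  have hAre : A.re = Ex T.V (fun ω => Real.cos (XX φ k ω) *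
      Real.exp (-(pair φ (U k ω) / Real.pi))) := by
    rw [hAdef, ex_re]
    congr 1
    funext ω
    rw [mul_comm Complex.I, Complex.re_mul_ofReal, Complex.exp_ofReal_mul_I_re]
    congr 2
    ring
  have hAle : A.re ≤ 1 - q + q / 4 := by
    have h3 : ‖A‖ ≤ 1 - q + q / 4 := by
      calc ‖A‖ = ‖(A - Ex T.V (fun ω =>
            ((Real.exp (-(1 : ℝ) ^ 2 / Real.pi * pair φ (U 0 ω)) : ℝ) : ℂ))) +
            Ex T.V (fun ω => ((Real.exp (-(1 : ℝ) ^ 2 / Real.pi * pair φ (U 0 ω)) : ℝ) : ℂ))‖ := by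
            rw [sub_add_cancel]
        _ ≤ q / 4 + (1 - q) := (norm_add_le _ _).trans (add_le_add key hright)
        _ = _ := by ring
    exact (Complex.re_le_norm A).trans h3
  -- the lower bound
  set B : ℝ := 9 * C0 ^ 2 * ((e : ℝ) + 1) ^ 2 / (R : ℝ) ^ 2 with hB
  set B' : ℝ := 144 * C0 ^ 2 * (k : ℝ) ^ 2 * ((e : ℝ) + 1) ^ 2 / (R : ℝ) ^ 2 with hB'
  have hB0 : 0 ≤ B := by positivity
  have hsq := sq_goodX (T := T) (k := k) (e := e) hR3 hA hmR hsupp (by
    rw [← hsum, finsum_eq_sum_of_support_subset]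
    intro x hx
    by_contra h
    exact hx (hsupp x h))
  have hpt : ∀ ω ∈ DD T.V, 1 - Real.cos (XX φ k ω) * Real.exp (-(pair φ (U k ω) / Real.pi)) ≤
      (if NO801.GoodX k z m e ω then (1 : ℝ) else 0) * XX φ k ω ^ 2 + B +
      2 * Set.indicator {ω | ¬ NO801.GoodX k z m e ω} (fun _ => (1 : ℝ)) ω := by
    intro ω hω
    have hp0 : 0 ≤ pair φ (U k ω) := pair_green_nonneg (fits_fin hT k ω) (hU k ω)
    by_cases hg : NO801.GoodX k z m e ω
    · rw [if_pos hg, Set.indicator_of_notMem (by simpa using hg), one_mul, mul_zero, add_zero]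
      have h3 := one_sub_cos_exp (X := XX φ k ω) (p := pair φ (U k ω) / Real.pi) (by positivity)
      have h4 := pair_goodX hR3 hT hA hmR hsupp hω hg (hU k ω)
      have h5 : pair φ (U k ω) / Real.pi ≤ pair φ (U k ω) := by
        apply div_le_self hp0
        linarith [Real.pi_gt_three]
      have h6 := le_abs_self (pair φ (U k ω))
      have h7 := sq_nonneg (XX φ k ω)
      linarith
    · rw [if_neg hg, Set.indicator_of_mem (by simpa using hg), zero_mul]
      have h3 : -1 ≤ Real.cos (XX φ k ω) * Real.exp (-(pair φ (U k ω) / Real.pi)) := by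
        have h4 : Real.exp (-(pair φ (U k ω) / Real.pi)) ≤ 1 := by
          rw [Real.exp_le_one_iff]
          have : 0 ≤ pair φ (U k ω) / Real.pi := by positivity
          linarith
        have h5 := Real.exp_pos (-(pair φ (U k ω) / Real.pi))
        have h6 := Real.neg_one_le_cos (XX φ k ω)
        nlinarith
      linarith
  have hcard : (0 : ℝ) < ((DD T.V).card : ℝ) := by exact_mod_cast Finset.card_pos.2 hne
  have hEx1 : Ex T.V (fun _ : Conf => (1 : ℝ)) = 1 := avg_const hne 1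
  have hint : Ex T.V (fun ω => 1 - Real.cos (XX φ k ω) *
      Real.exp (-(pair φ (U k ω) / Real.pi))) ≤
      Ex T.V (fun ω => (if NO801.GoodX k z m e ω then (1 : ℝ) else 0) * XX φ k ω ^ 2 + B +
      2 * Set.indicator {ω | ¬ NO801.GoodX k z m e ω} (fun _ => (1 : ℝ)) ω) := Ex_mono hpt
  have hl : Ex T.V (fun ω => 1 - Real.cos (XX φ k ω) *
      Real.exp (-(pair φ (U k ω) / Real.pi))) = 1 - A.re := by
    rw [hAre, Ex_eq_avg, avg_sub, Ex_eq_avg, avg_const hne]
  have hr : Ex T.V (fun ω => (if NO801.GoodX k z m e ω then (1 : ℝ) else 0) * XX φ k ω ^ 2 + B +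
      2 * Set.indicator {ω | ¬ NO801.GoodX k z m e ω} (fun _ => (1 : ℝ)) ω) =
      Ex T.V (fun ω => (if NO801.GoodX k z m e ω then (1 : ℝ) else 0) * XX φ k ω ^ 2) + B +
      2 * Pr T.V (fun ω => ¬ NO801.GoodX k z m e ω) := by
    unfold Pr
    rw [Ex_eq_avg, avg_add, avg_add, avg_const hne, avg_mul_left, Ex_eq_avg, Ex_eq_avg]
  have hsq' : Ex T.V (fun ω => (if NO801.GoodX k z m e ω then (1 : ℝ) else 0) * XX φ k ω ^ 2) ≤
      B' := hsq
  have hBB : B + B' ≤ q / 4 := by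
    have hee : ((e : ℝ) + 1) ^ 2 / (R : ℝ) ^ 2 ≤ 4 * ε ^ 2 := by
      rw [div_le_iff₀ (by positivity)]
      have h8 : 1 ≤ ε * R := by
        rw [div_le_iff₀ hε0] at hR4
        linarith
      have h9 : (e : ℝ) + 1 ≤ 2 * (ε * R) := by linarith
      calc ((e : ℝ) + 1) ^ 2 ≤ (2 * (ε * R)) ^ 2 := by gcongr
        _ = 4 * ε ^ 2 * (R : ℝ) ^ 2 := by ring
    calc B + B' = (9 * C0 ^ 2 + 144 * C0 ^ 2 * (k : ℝ) ^ 2) *
          (((e : ℝ) + 1) ^ 2 / (R : ℝ) ^ 2) := by rw [hB, hB']; ring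
      _ ≤ M * (4 * ε ^ 2) := by
          refine mul_le_mul ?_ hee (by positivity) hM0.le
          rw [hM]; linarith
      _ ≤ q / 4 := by linarith
  rw [hl, hr] at hint
  linarith

end Vale.Agent.P155.NT733
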