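import Vale.Agent.P155.NT733.Close
import Vale.Agent.P155.NT.Path
import Vale.Agent.P155.A.JCT2
import Vale.Agent.P155.A.InLoop

/-!
# P155, NT, block D (helper733): the explored set together with the outside is connected
-/

namespace Vale.Agent.P155.NT733

open Vale.Agent.P155 T802 Finset NT Relation LatCycle

/-- both ends in `SS` -/
def PS (T : Temp) (E : Set Pt) (u w : Pt) : Prop := u ∈ SS T E ∧ w ∈ SS T E

variable {T : Temp} {E : Set Pt}

theorem ps_edge {u w : Pt} (h : Adj u w) (hu : u ∈ SS T E) (hw : w ∈ SS T E) :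
    Linked (PS T E) u w := Linked.edge h ⟨hu, hw⟩ ⟨hw, hu⟩

theorem ps_edge' {u w : Pt} (h : u = w ∨ Adj u w) (hu : u ∈ SS T E) (hw : w ∈ SS T E) :
    Linked (PS T E) u w := by
  rcases h with rfl | h
  · exact Linked.refl _ _
  · exact ps_edge h hu hw

/-! ### the outside -/

/-- the centre of a coarse cell -/
def ctr (F : Pt) : Pt := (2 * F.1 + 1, 2 * F.2 + 1)

theorem ctr_notMem {F : Pt} (hF : ¬ T.γ.inside F) : ctr F ∉ T.closedVerts := by
  rintro ⟨G, hG, a1, a2, a3, a4⟩
  simp only [ctr] at a1 a2 a3 a4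
  have e : G = F := Prod.ext (by omega) (by omega)
  exact hF (e ▸ hG)

theorem cell_step {F G : Pt} (h : Adj F G) (hF : ¬ T.γ.inside F) (hG : ¬ T.γ.inside G) :
    Linked (PS T E) (ctr F) (ctr G) := by
  have hm : (F.1 + G.1 + 1, F.2 + G.2 + 1) ∉ T.closedVerts := by
    rintro ⟨H, hH, a1, a2, a3, a4⟩
    simp only at a1 a2 a3 a4
    have := mem_nbrs.2 h
    simp only [nbrs, mem_insert, mem_singleton] at this
    have e : H = F ∨ H = G := by
      obtain ⟨x, y⟩ := F
      obtain ⟨p, q⟩ := H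
      rcases this with rfl | rfl | rfl | rfl <;> simp only at a1 a2 a3 a4 <;>
        simp only [Prod.mk.injEq] <;> omega
    rcases e with rfl | rfl
    · exact hF hH
    · exact hG hH
  have h' := h
  unfold Adj at h'
  have e1 : Adj (ctr F) (F.1 + G.1 + 1, F.2 + G.2 + 1) := by
    unfold Adj ctr
    simp only
    rw [← h']
    congr 2 <;> ring
  have e2 : Adj (F.1 + G.1 + 1, F.2 + G.2 + 1) (ctr G) := by
    unfold Adj ctr
    simp only
    rw [← h']
    congr 2 <;> ring
  exact (ps_edge e1 (Or.inr (ctr_notMem hF)) (Or.inr hm)).trans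
    (ps_edge e2 (Or.inr hm) (Or.inr (ctr_notMem hG)))

theorem cell_conn {F G : Pt} (hF : ¬ T.γ.inside F) (hG : ¬ T.γ.inside G) :
    Linked (PS T E) (ctr F) (ctr G) := by
  have hr : T.γ.Reach F G := reach_of_inside_iff (by tauto)
  have key : ∀ H, T.γ.Reach F H → Linked (PS T E) (ctr F) (ctr H) := by
    intro H hH
    unfold Reach at hH
    induction hH with
    | refl => exact Linked.refl _ _
    | @tail b c hb hs ih =>
      have hb1 : ¬ T.γ.inside b := fun h => hF ((Reach.inside_iff hb).2 h)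
      have hc1 : ¬ T.γ.inside c := fun h => hb1 (hs.inside_iff.2 h)
      exact ih.trans (cell_step hs.adj hb1 hc1)
  exact key G hr

theorem ext_ctr {v : Pt} (hv : v ∉ T.closedVerts) :
    ¬ T.γ.inside (v.1 / 2, v.2 / 2) ∧ Linked (PS T E) v (ctr (v.1 / 2, v.2 / 2)) := by
  have hF : ¬ T.γ.inside (v.1 / 2, v.2 / 2) := by
    intro h
    exact hv ⟨_, h, by simp only; omega, by simp only; omega, by simp only; omega,
      by simp only; omega⟩
  refine ⟨hF, ?_⟩
  have hm : (2 * (v.1 / 2) + 1, v.2) ∉ T.closedVerts := by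
    rintro ⟨H, hH, a1, a2, a3, a4⟩
    simp only at a1 a2 a3 a4
    exact hv ⟨H, hH, by omega, by omega, by omega, by omega⟩
  have e1 : v = (2 * (v.1 / 2) + 1, v.2) ∨ Adj v (2 * (v.1 / 2) + 1, v.2) := by
    by_cases h : v.1 = 2 * (v.1 / 2) + 1
    · exact Or.inl (Prod.ext h rfl)
    · right
      unfold Adj
      simp only [sub_self, abs_zero, add_zero]
      rw [abs_of_nonpos (by omega)]
      omega
  have e2 : (2 * (v.1 / 2) + 1, v.2) = ctr (v.1 / 2, v.2 / 2) ∨
      Adj (2 * (v.1 / 2) + 1, v.2) (ctr (v.1 / 2, v.2 / 2)) := by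
    by_cases h : v.2 = 2 * (v.2 / 2) + 1
    · exact Or.inl (Prod.ext rfl h)
    · right
      unfold Adj ctr
      simp only [sub_self, abs_zero, zero_add]
      rw [abs_of_nonpos (by omega)]
      omega
  exact (ps_edge' e1 (Or.inr hv) (Or.inr hm)).trans
    (ps_edge' e2 (Or.inr hm) (Or.inr (ctr_notMem hF)))

/-- the outside of the closed polygon is connected -/
theorem ext_conn {u w : Pt} (hu : u ∉ T.closedVerts) (hw : w ∉ T.closedVerts) :
    Linked (PS T E) u w := by
  obtain ⟨h1, h2⟩ := ext_ctr (T := T) (E := E) hu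
  obtain ⟨h3, h4⟩ := ext_ctr (T := T) (E := E) hw
  exact (h2.trans (cell_conn h1 h3)).trans h4.symm

/-! ### the explored part -/

variable {ω : Conf} {V : Finset Pt} {xS t : ℤ} {i : ℕ}

theorem line_mem {y : ℤ} (hy : y < t) : (xS, y) ∈ Et xS ω t := ⟨y, hy, ReflTransGen.refl⟩

theorem step_eq_or_adj (hω : ω ∈ DD V) {b c : Pt} (h : c = ω.1 b ∨ c = ω.2 b) :
    b = c ∨ Adj b c := by
  by_cases hb : b ∈ V
  · rcases h with rfl | rfl
    · exact Or.inr (L.adj1 hω hb)
    · exact Or.inr (L.adj2 hω hb)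
  · rcases h with rfl | rfl
    · exact Or.inl (L.off1 hω hb).symm
    · exact Or.inl (L.off2 hω hb).symm

/-- the half line is connected -/
theorem line_conn {E : Set Pt} (hE : Et xS ω t ⊆ E) : ∀ (k : ℕ) (y : ℤ), y + k = t - 1 →
    Linked (PS T E) (xS, y) (xS, t - 1) := by
  intro k
  induction k with
  | zero =>
    intro y hy
    have : y = t - 1 := by push_cast at hy; omega
    rw [this]
    exact Linked.refl _ _
  | succ k ih =>
    intro y hy
    have h1 : (xS, y) ∈ SS T E := Or.inl (hE (line_mem (by push_cast at hy; omega)))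
    have h2 : (xS, y + 1) ∈ SS T E := Or.inl (hE (line_mem (by push_cast at hy; omega)))
    exact (ps_edge (by simp [Adj]) h1 h2).trans (ih (y + 1) (by push_cast at hy ⊢; omega))

theorem line_conn' {E : Set Pt} (hE : Et xS ω t ⊆ E) {y : ℤ} (hy : y < t) :
    Linked (PS T E) (xS, y) (xS, t - 1) :=
  line_conn hE (t - 1 - y).toNat y (by rw [Int.toNat_of_nonneg (by omega)]; ring)

/-- everything hit by the half line is connected -/
theorem Et_conn (hω : ω ∈ DD V) {E : Set Pt} (hE : Et xS ω t ⊆ E) {u : Pt}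
    (hu : u ∈ Et xS ω t) : Linked (PS T E) u (xS, t - 1) := by
  obtain ⟨y, hy, hu⟩ := hu
  refine Linked.trans (Linked.symm ?_) (line_conn' hE hy)
  have hu' : Same ω (xS, y) u := hu
  unfold Same at hu'
  clear hu
  have key : ∀ w, ReflTransGen (fun u v => v = ω.1 u ∨ v = ω.2 u) (xS, y) w →
      Linked (PS T E) (xS, y) w := by
    intro w hw
    induction hw with
    | refl => exact Linked.refl _ _
    | @tail b c hb hs ih =>
      have h1 : b ∈ SS T E := Or.inl (hE ⟨y, hy, hb⟩)
      have h2 : c ∈ SS T E := Or.inl (hE ⟨y, hy, hb.tail hs⟩)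
      exact ih.trans (ps_edge' (step_eq_or_adj hω hs) h1 h2)
  exact key u hu'

theorem go_conn (hω : ω ∈ DD V) {j : ℕ} (hj : j ≤ i) :
    Linked (PS T (Eti xS ω t i)) (go ω (xS, t) j) (xS, t - 1) := by
  induction j with
  | zero =>
    rw [Go.go_zero]
    refine ps_edge (by simp [Adj]) (Or.inl (Or.inr ⟨0, hj, (Go.go_zero _ _).symm⟩))
      (Or.inl (Or.inl (line_mem (by omega))))
  | succ j ih =>
    refine Linked.trans (Linked.symm ?_) (ih (by omega))
    have h1 : go ω (xS, t) j ∈ SS T (Eti xS ω t i) := Or.inl (Or.inr ⟨j, by omega, rfl⟩)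
    have h2 : go ω (xS, t) (j + 1) ∈ SS T (Eti xS ω t i) := Or.inl (Or.inr ⟨j + 1, hj, rfl⟩)
    exact ps_edge' (step_eq_or_adj hω (Go.go_step ω (xS, t) j)) h1 h2

theorem exists_line_outside (T : Temp) (xS t : ℤ) : ∃ y < t, (xS, y) ∉ T.closedVerts := by
  have hfin := A1.closedVerts_finite T
  by_contra hcon
  push Not at hcon
  have : Set.InjOn (fun k : ℕ => ((xS, t - 1 - k) : Pt)) Set.univ := by
    intro a _ b _ h
    simp only [Prod.mk.injEq, true_and] at h
    omega
  have hinf : (Set.univ : Set ℕ).Infinite := Set.infinite_univ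
  refine hinf ?_
  refine Set.Finite.of_finite_image (hfin.subset ?_) this
  rintro _ ⟨k, _, rfl⟩
  exact hcon _ (by omega)

/-- **the explored set and the outside of the polygon together are connected** -/
theorem conn (hω : ω ∈ DD V) {u : Pt} (hu : u ∈ SS T (Eti xS ω t i)) :
    Linked (PS T (Eti xS ω t i)) u (xS, t - 1) := by
  rcases hu with (hu | ⟨j, hj, rfl⟩) | hu
  · exact Et_conn hω (fun _ h => Or.inl h) hu
  · exact go_conn hω hj
  · obtain ⟨y, hy, h⟩ := exists_line_outside T xS t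
    exact (ext_conn hu h).trans (line_conn' (fun _ h => Or.inl h) hy)

/-! ### the new path -/

theorem go_notMem_Et (hω : ω ∈ DD V) (hs : (xS, t) ∉ Et xS ω t) (j : ℕ) :
    go ω (xS, t) j ∉ Et xS ω t := by
  rintro ⟨y, hy, h⟩
  refine hs ⟨y, hy, ?_⟩
  have h1 := Go.go_mem ω (xS, t) j
  change Same ω _ _ at h h1 ⊢
  exact L.same_trans h (L.same_symm hω h1)

theorem go_notMem_Eti (hω : ω ∈ DD V) (hn : ω.1 (xS, t) ≠ ω.2 (xS, t))
    (hs : (xS, t) ∉ Et xS ω t) {j : ℕ} (hij : i < j) (hj : j < (comp ω (xS, t)).ncard) :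
    go ω (xS, t) j ∉ Eti xS ω t i := by
  rintro (h | ⟨k, hk, h⟩)
  · exact go_notMem_Et hω hs j h
  · have := Go.go_inj hω hn hj (by omega) h
    omega

end Vale.Agent.P155.NT733
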