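import Vale.Agent.P155.NT924.YDef
import Vale.Agent.P155.U.P1

/-!
# P155 (R), block R4: bumps near a connected set have bounded Green energy (helper733)
-/

namespace Vale.Agent.P155.NT733

open MeasureTheory Set TopologicalSpace Filter Topology

theorem r4 : YD.R4 := by
  intro C
  refine ⟨160 * (4 * C) ^ 2 * (1 + Real.log (1 : ℝ)) * 1 * 1, ?_⟩
  intro O K z ε φ hO hK hKc hOK hz hε hfar hφ
  have hK' : ∃ w ∈ K, 2 * (2 * ε) ≤ dist w z := by
    rw [not_subset] at hfar
    obtain ⟨w, hw, hw2⟩ := hfar
    refine ⟨w, hw, ?_⟩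
    rw [Metric.mem_ball, not_lt] at hw2
    linarith
  have h := U.green_near (ι := Unit) O (A := K) hKc.isPreconnected Finset.univ (fun _ => z)
    (fun _ => 1) (fun _ => φ) (r := 2 * ε) (s := 2 * ε) (M := 4 * C) (B := 1) (by positivity) le_rfl
    (fun _ _ => zero_le_one) (fun _ _ => hφ.smooth.continuous.aestronglyMeasurable)
    (fun _ _ x => by
      rw [abs_of_nonneg (hφ.nonneg x)]
      refine (hφ.le x).trans (le_of_eq ?_)
      field_simp
      norm_num)
    (fun _ _ x hx => by
      by_contra h0
      apply hx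
      have := hφ.supp (subset_tsupport φ h0)
      rw [Metric.mem_closedBall] at this
      rw [Metric.mem_ball]
      linarith)
    (fun _ _ => ⟨z, hz, by rw [dist_self]; positivity⟩)
    (fun _ _ => hK')
    (fun x => by
      refine (Finset.sum_le_sum_of_subset_of_nonneg (Finset.filter_subset _ _)
        fun _ _ _ => zero_le_one).trans ?_
      simp)
  rw [div_self (by positivity)] at h
  have e1 : O \ K = O := sdiff_eq_left.2 hOK
  rw [e1] at h
  simpa using h

end Vale.Agent.P155.NT733
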