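import Vale.Agent.P155.T802.Own
import Vale.Agent.P155.H924.Geom

/-!
# P155, NT, block D (helper733): chains of edges mod 2

A chain from `x` to `y` is an edge set mod 2 with boundary `x + y`.
-/

namespace Vale.Agent.P155.NT733

open Vale.Agent.P155 T802 Finset

/-- An edge set mod 2 (`a`: vertical edges `{v, v + e₂}`, `b`: horizontal edges `{v, v + e₁}`)
with boundary `x + y`, all of whose edges are in the relation `P`. -/
structure Chain (P : Pt → Pt → Prop) (x y : Pt) (a b : Pt → ZMod 2) : Prop where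
  bd : ∃ M : ℤ, ∀ v : Pt, v.1 < M → a v = 0 ∧ b v = 0
  bdr : ∀ v : Pt, a v + a (v.1, v.2 - 1) + b v + b (v.1 - 1, v.2) = ind (v = x) + ind (v = y)
  av : ∀ v : Pt, a v ≠ 0 → P v (v.1, v.2 + 1)
  bv : ∀ v : Pt, b v ≠ 0 → P v (v.1 + 1, v.2)

/-- `x` and `y` are joined by a chain -/
def Linked (P : Pt → Pt → Prop) (x y : Pt) : Prop := ∃ a b, Chain P x y a b

theorem z2_ne_add {p q : ZMod 2} (h : p + q ≠ 0) : p ≠ 0 ∨ q ≠ 0 := by
  revert p q
  decide

theorem z2_ne : ∀ {p q : ZMod 2}, p ≠ q ↔ p = q + 1 := by decide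

variable {P Q : Pt → Pt → Prop} {x y z : Pt} {a b a' b' : Pt → ZMod 2}

theorem Chain.zero (P : Pt → Pt → Prop) (x : Pt) : Chain P x x (fun _ => 0) (fun _ => 0) where
  bd := ⟨0, fun _ _ => ⟨rfl, rfl⟩⟩
  bdr v := by rw [z2 (ind (v = x))]; simp
  av v h := absurd rfl h
  bv v h := absurd rfl h

theorem Chain.symm (h : Chain P x y a b) : Chain P y x a b where
  bd := h.bd
  bdr v := by rw [h.bdr, add_comm]
  av := h.av
  bv := h.bv

theorem Chain.mono (h : Chain P x y a b) (hPQ : ∀ u w, P u w → Q u w) : Chain Q x y a b where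
  bd := h.bd
  bdr := h.bdr
  av v hv := hPQ _ _ (h.av v hv)
  bv v hv := hPQ _ _ (h.bv v hv)

theorem Chain.add (h : Chain P x y a b) (h' : Chain P y z a' b') :
    Chain P x z (fun v => a v + a' v) (fun v => b v + b' v) where
  bd := by
    obtain ⟨M, hM⟩ := h.bd
    obtain ⟨M', hM'⟩ := h'.bd
    refine ⟨min M M', fun v hv => ?_⟩
    have h1 := hM v (hv.trans_le (min_le_left _ _))
    have h2 := hM' v (hv.trans_le (min_le_right _ _))
    rw [h1.1, h1.2, h2.1, h2.2]
    simp
  bdr v := by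
    have h1 := h.bdr v
    have h2 := h'.bdr v
    have key : ∀ a1 a2 b1 b2 c1 c2 d1 d2 p q r : ZMod 2, a1 + a2 + b1 + b2 = p + q →
        c1 + c2 + d1 + d2 = q + r → (a1 + c1) + (a2 + c2) + (b1 + d1) + (b2 + d2) = p + r := by
      intro a1 a2 b1 b2 c1 c2 d1 d2 p q r e1 e2
      have : (a1 + c1) + (a2 + c2) + (b1 + d1) + (b2 + d2) =
        (a1 + a2 + b1 + b2) + (c1 + c2 + d1 + d2) := by ring
      rw [this, e1, e2, show p + q + (q + r) = p + r + (q + q) by ring, z2, add_zero]
    exact key _ _ _ _ _ _ _ _ _ _ _ h1 h2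
  av v hv := (z2_ne_add hv).elim (h.av v) (h'.av v)
  bv v hv := (z2_ne_add hv).elim (h.bv v) (h'.bv v)

theorem Linked.refl (P : Pt → Pt → Prop) (x : Pt) : Linked P x x := ⟨_, _, Chain.zero P x⟩

theorem Linked.symm (h : Linked P x y) : Linked P y x := by
  obtain ⟨a, b, h⟩ := h
  exact ⟨a, b, h.symm⟩

theorem Linked.trans (h : Linked P x y) (h' : Linked P y z) : Linked P x z := by
  obtain ⟨a, b, h⟩ := h
  obtain ⟨a', b', h'⟩ := h'
  exact ⟨_, _, h.add h'⟩

theorem Linked.mono (h : Linked P x y) (hPQ : ∀ u w, P u w → Q u w) : Linked Q x y := by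
  obtain ⟨a, b, h⟩ := h
  exact ⟨a, b, h.mono hPQ⟩

/-! ### one edge -/

/-- the edge `{p, q}`: vertical part -/
noncomputable def ea (p q v : Pt) : ZMod 2 :=
  ind (p = v ∧ q = (v.1, v.2 + 1)) + ind (q = v ∧ p = (v.1, v.2 + 1))

/-- the edge `{p, q}`: horizontal part -/
noncomputable def eb (p q v : Pt) : ZMod 2 :=
  ind (p = v ∧ q = (v.1 + 1, v.2)) + ind (q = v ∧ p = (v.1 + 1, v.2))

theorem ea_eq (p q v : Pt) : ea p q v =
    ind ((p = v ∧ q = (v.1, v.2 + 1)) ∨ (q = v ∧ p = (v.1, v.2 + 1))) := by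
  unfold ea
  by_cases h1 : p = v ∧ q = (v.1, v.2 + 1)
  · rw [ind_true h1, ind_true (Or.inl h1), ind_false, add_zero]
    rintro ⟨rfl, h2⟩
    have := congrArg Prod.snd h2
    rw [h1.1] at this
    simp at this
  · rw [ind_false h1, zero_add]
    exact ind_congr (by tauto)

theorem eb_eq (p q v : Pt) : eb p q v =
    ind ((p = v ∧ q = (v.1 + 1, v.2)) ∨ (q = v ∧ p = (v.1 + 1, v.2))) := by
  unfold eb
  by_cases h1 : p = v ∧ q = (v.1 + 1, v.2)
  · rw [ind_true h1, ind_true (Or.inl h1), ind_false, add_zero]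
    rintro ⟨rfl, h2⟩
    have := congrArg Prod.fst h2
    rw [h1.1] at this
    simp at this
  · rw [ind_false h1, zero_add]
    exact ind_congr (by tauto)

theorem ind_ne_zero {p : Prop} (h : ind p ≠ 0) : p := by
  by_contra hp
  exact h (ind_false hp)

theorem ea_comm (p q v : Pt) : ea p q v = ea q p v := by
  unfold ea; rw [add_comm]

theorem eb_comm (p q v : Pt) : eb p q v = eb q p v := by
  unfold eb; rw [add_comm]

theorem edge_right (x y : ℤ) (P : Pt → Pt → Prop) (h : P (x, y) (x + 1, y)) :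
    Chain P (x, y) (x + 1, y) (ea (x, y) (x + 1, y)) (eb (x, y) (x + 1, y)) where
  bd := by
    refine ⟨x, fun v hv => ⟨?_, ?_⟩⟩
    · rw [ea_eq]
      apply ind_false
      rintro (⟨h1, _⟩ | ⟨h1, _⟩)
      · rw [← h1] at hv; simp only at hv; omega
      · rw [← h1] at hv; simp only at hv; omega
    · rw [eb_eq]
      apply ind_false
      rintro (⟨h1, _⟩ | ⟨h1, _⟩)
      · rw [← h1] at hv; simp only at hv; omega
      · rw [← h1] at hv; simp only at hv; omega
  bdr := by
    rintro ⟨p, q⟩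
    rw [ea_eq, ea_eq, eb_eq, eb_eq]
    simp only [Prod.mk.injEq]
    rw [ind_false (by omega), ind_false (by omega), zero_add, zero_add, add_comm]
    have e1 : ((x = p - 1 ∧ y = q) ∧ x + 1 = p - 1 + 1 ∧ y = q ∨ (x + 1 = p - 1 ∧ y = q) ∧ x = p - 1 + 1 ∧ y = q)
        ↔ (p = x + 1 ∧ q = y) := by omega
    have e2 : ((x = p ∧ y = q) ∧ x + 1 = p + 1 ∧ y = q ∨ (x + 1 = p ∧ y = q) ∧ x = p + 1 ∧ y = q)
        ↔ (p = x ∧ q = y) := by omega
    rw [ind_congr e1, ind_congr e2, add_comm]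
  av := by
    rintro ⟨p, q⟩ hv
    rw [ea_eq] at hv
    have := ind_ne_zero hv
    simp only [Prod.mk.injEq] at this
    omega
  bv := by
    rintro ⟨p, q⟩ hv
    rw [eb_eq] at hv
    have := ind_ne_zero hv
    simp only [Prod.mk.injEq] at this
    have e1 : p = x := by omega
    have e2 : q = y := by omega
    rw [e1, e2]
    exact h

theorem edge_up (x y : ℤ) (P : Pt → Pt → Prop) (h : P (x, y) (x, y + 1)) :
    Chain P (x, y) (x, y + 1) (ea (x, y) (x, y + 1)) (eb (x, y) (x, y + 1)) where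
  bd := by
    refine ⟨x, fun v hv => ⟨?_, ?_⟩⟩
    · rw [ea_eq]
      apply ind_false
      rintro (⟨h1, _⟩ | ⟨h1, _⟩)
      · rw [← h1] at hv; simp at hv
      · rw [← h1] at hv; simp at hv
    · rw [eb_eq]
      apply ind_false
      rintro (⟨h1, _⟩ | ⟨h1, _⟩)
      · rw [← h1] at hv; simp at hv
      · rw [← h1] at hv; simp at hv
  bdr := by
    rintro ⟨p, q⟩
    rw [ea_eq, ea_eq, eb_eq, eb_eq]
    simp only [Prod.mk.injEq]
    have e1 : ((x = p ∧ y = q - 1) ∧ x = p ∧ y + 1 = q - 1 + 1 ∨ (x = p ∧ y + 1 = q - 1) ∧ x = p ∧ y = q - 1 + 1)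
        ↔ (p = x ∧ q = y + 1) := by omega
    have e2 : ((x = p ∧ y = q) ∧ x = p ∧ y + 1 = q + 1 ∨ (x = p ∧ y + 1 = q) ∧ x = p ∧ y = q + 1)
        ↔ (p = x ∧ q = y) := by omega
    rw [ind_congr e1, ind_congr e2, ind_false (p := (x = p ∧ y = q) ∧ x = p + 1 ∧ y + 1 = q ∨ _)
      (by omega), ind_false (p := (x = p - 1 ∧ y = q) ∧ x = p - 1 + 1 ∧ y + 1 = q ∨ _) (by omega),
      add_zero, add_zero]
  av := by
    rintro ⟨p, q⟩ hv
    rw [ea_eq] at hv
    have := ind_ne_zero hv
    simp only [Prod.mk.injEq] at this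
    have e1 : p = x := by omega
    have e2 : q = y := by omega
    rw [e1, e2]
    exact h
  bv := by
    rintro ⟨p, q⟩ hv
    rw [eb_eq] at hv
    have := ind_ne_zero hv
    simp only [Prod.mk.injEq] at this
    omega

/-- the chain of one edge -/
theorem Chain.edge {p q : Pt} (h : Adj p q) (hP : P p q) (hP' : P q p) :
    Chain P p q (ea p q) (eb p q) := by
  obtain ⟨x, y⟩ := p
  have := mem_nbrs.2 h
  simp only [nbrs, mem_insert, mem_singleton] at this
  rcases this with rfl | rfl | rfl | rfl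
  · exact edge_right x y P hP
  · have k := edge_right (x - 1) y P (by rw [sub_add_cancel]; exact hP')
    rw [sub_add_cancel] at k
    have e1 : ea (x, y) (x - 1, y) = ea (x - 1, y) (x, y) := funext (ea_comm _ _)
    have e2 : eb (x, y) (x - 1, y) = eb (x - 1, y) (x, y) := funext (eb_comm _ _)
    rw [e1, e2]
    exact k.symm
  · exact edge_up x y P hP
  · have k := edge_up x (y - 1) P (by rw [sub_add_cancel]; exact hP')
    rw [sub_add_cancel] at k
    have e1 : ea (x, y) (x, y - 1) = ea (x, y - 1) (x, y) := funext (ea_comm _ _)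
    have e2 : eb (x, y) (x, y - 1) = eb (x, y - 1) (x, y) := funext (eb_comm _ _)
    rw [e1, e2]
    exact k.symm

theorem Linked.edge {p q : Pt} (h : Adj p q) (hP : P p q) (hP' : P q p) : Linked P p q :=
  ⟨_, _, Chain.edge h hP hP'⟩

/-! ### a path -/

/-- the vertical edges of a path -/
noncomputable def pathA (v : ℕ → Pt) (M : ℕ) (u : Pt) : ZMod 2 :=
  ∑ i ∈ range M, ea (v i) (v (i + 1)) u

/-- the horizontal edges of a path -/
noncomputable def pathB (v : ℕ → Pt) (M : ℕ) (u : Pt) : ZMod 2 :=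
  ∑ i ∈ range M, eb (v i) (v (i + 1)) u

/-- consecutive points of the path (unordered) -/
def Step (v : ℕ → Pt) (M : ℕ) (p q : Pt) : Prop :=
  ∃ i < M, (p = v i ∧ q = v (i + 1)) ∨ (p = v (i + 1) ∧ q = v i)

theorem Step.comm {v : ℕ → Pt} {M : ℕ} {p q : Pt} : Step v M p q ↔ Step v M q p := by
  constructor
  · rintro ⟨i, hi, h⟩
    exact ⟨i, hi, by tauto⟩
  · rintro ⟨i, hi, h⟩
    exact ⟨i, hi, by tauto⟩

theorem path_chain {v : ℕ → Pt} {M : ℕ} (hadj : ∀ i < M, Adj (v i) (v (i + 1))) :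
    Chain (Step v M) (v 0) (v M) (pathA v M) (pathB v M) := by
  have key : ∀ k ≤ M, Chain (Step v M) (v 0) (v k) (pathA v k) (pathB v k) := by
    intro k
    induction k with
    | zero =>
      intro _
      have e1 : pathA v 0 = fun _ => 0 := by funext u; simp [pathA]
      have e2 : pathB v 0 = fun _ => 0 := by funext u; simp [pathB]
      rw [e1, e2]
      exact Chain.zero _ _
    | succ k ih =>
      intro hk
      have h1 := ih (by omega)
      have h2 : Chain (Step v M) (v k) (v (k + 1)) (ea (v k) (v (k + 1))) (eb (v k) (v (k + 1))) :=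
        Chain.edge (hadj k (by omega)) ⟨k, by omega, Or.inl ⟨rfl, rfl⟩⟩
          ⟨k, by omega, Or.inr ⟨rfl, rfl⟩⟩
      have e1 : pathA v (k + 1) = fun u => pathA v k u + ea (v k) (v (k + 1)) u := by
        funext u; simp [pathA, sum_range_succ]
      have e2 : pathB v (k + 1) = fun u => pathB v k u + eb (v k) (v (k + 1)) u := by
        funext u; simp [pathB, sum_range_succ]
      rw [e1, e2]
      exact h1.add h2
  exact key M le_rfl

/-- the path uses every edge at most once -/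
theorem step_unique {v : ℕ → Pt} {M : ℕ} (hinj : ∀ i j, i ≤ M → j ≤ M → v i = v j → i = j)
    {p q : Pt} {i j : ℕ} (hi : i < M) (hj : j < M)
    (h1 : (v i = p ∧ v (i + 1) = q) ∨ (v (i + 1) = p ∧ v i = q))
    (h2 : (v j = p ∧ v (j + 1) = q) ∨ (v (j + 1) = p ∧ v j = q)) : i = j := by
  rcases h1 with ⟨a1, a2⟩ | ⟨a1, a2⟩ <;> rcases h2 with ⟨b1, b2⟩ | ⟨b1, b2⟩
  · exact hinj i j hi.le hj.le (a1.trans b1.symm)
  · have e1 := hinj i (j + 1) hi.le hj (a1.trans b1.symm)
    have e2 := hinj (i + 1) j hi hj.le (a2.trans b2.symm)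
    omega
  · have e1 := hinj (i + 1) j hi hj.le (a1.trans b1.symm)
    have e2 := hinj i (j + 1) hi.le hj (a2.trans b2.symm)
    omega
  · exact hinj i j hi.le hj.le (a2.trans b2.symm)

theorem pathA_eq {v : ℕ → Pt} {M : ℕ} (hinj : ∀ i j, i ≤ M → j ≤ M → v i = v j → i = j) (u : Pt) :
    pathA v M u = ind (Step v M u (u.1, u.2 + 1)) := by
  by_cases h : Step v M u (u.1, u.2 + 1)
  · rw [ind_true h]
    obtain ⟨i, hi, h⟩ := h
    have h' : (v i = u ∧ v (i + 1) = (u.1, u.2 + 1)) ∨ (v (i + 1) = u ∧ v i = (u.1, u.2 + 1)) := by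
      rcases h with ⟨h1, h2⟩ | ⟨h1, h2⟩
      · exact Or.inl ⟨h1.symm, h2.symm⟩
      · exact Or.inr ⟨h1.symm, h2.symm⟩
    unfold pathA
    rw [sum_eq_single_of_mem i (mem_range.2 hi)]
    · rw [ea_eq, ind_true h']
    · intro j hj hji
      rw [ea_eq, ind_false]
      intro h2
      exact hji (step_unique hinj hi (mem_range.1 hj) h' h2).symm
  · rw [ind_false h]
    unfold pathA
    apply sum_eq_zero
    intro i hi
    rw [ea_eq, ind_false]
    intro h2
    refine h ⟨i, mem_range.1 hi, ?_⟩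
    rcases h2 with ⟨h1, h2⟩ | ⟨h1, h2⟩
    · exact Or.inl ⟨h1.symm, h2.symm⟩
    · exact Or.inr ⟨h1.symm, h2.symm⟩

theorem pathB_eq {v : ℕ → Pt} {M : ℕ} (hinj : ∀ i j, i ≤ M → j ≤ M → v i = v j → i = j) (u : Pt) :
    pathB v M u = ind (Step v M u (u.1 + 1, u.2)) := by
  by_cases h : Step v M u (u.1 + 1, u.2)
  · rw [ind_true h]
    obtain ⟨i, hi, h⟩ := h
    have h' : (v i = u ∧ v (i + 1) = (u.1 + 1, u.2)) ∨ (v (i + 1) = u ∧ v i = (u.1 + 1, u.2)) := by
      rcases h with ⟨h1, h2⟩ | ⟨h1, h2⟩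
      · exact Or.inl ⟨h1.symm, h2.symm⟩
      · exact Or.inr ⟨h1.symm, h2.symm⟩
    unfold pathB
    rw [sum_eq_single_of_mem i (mem_range.2 hi)]
    · rw [eb_eq, ind_true h']
    · intro j hj hji
      rw [eb_eq, ind_false]
      intro h2
      exact hji (step_unique hinj hi (mem_range.1 hj) h' h2).symm
  · rw [ind_false h]
    unfold pathB
    apply sum_eq_zero
    intro i hi
    rw [eb_eq, ind_false]
    intro h2
    refine h ⟨i, mem_range.1 hi, ?_⟩
    rcases h2 with ⟨h1, h2⟩ | ⟨h1, h2⟩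
    · exact Or.inl ⟨h1.symm, h2.symm⟩
    · exact Or.inr ⟨h1.symm, h2.symm⟩

/-! ### closing -/

/-- a closed chain is an even edge set -/
theorem Chain.even (h : Chain P x x a b) : EvenSet a b where
  bd := h.bd
  even v := by rw [h.bdr, z2]

/-- parities add -/
theorem par_add {a a' : Pt → ZMod 2} {M M' : ℤ} (h : ∀ v : Pt, v.1 < M → a v = 0)
    (h' : ∀ v : Pt, v.1 < M' → a' v = 0) (f : Pt) :
    par (fun v => a v + a' v) f = par a f + par a' f := by
  have h1 : ∀ v : Pt, v.1 < min M M' → a v = 0 := fun v hv => h v (hv.trans_le (min_le_left _ _))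
  have h2 : ∀ v : Pt, v.1 < min M M' → a' v = 0 := fun v hv => h' v (hv.trans_le (min_le_right _ _))
  have h3 : ∀ v : Pt, v.1 < min M M' → a v + a' v = 0 := fun v hv => by
    rw [h1 v hv, h2 v hv, add_zero]
  rw [par_eq h1, par_eq h2, par_eq (a := fun v => a v + a' v) h3, sum_add_distrib]

theorem EvenSet.add {a b a' b' : Pt → ZMod 2} (h : EvenSet a b) (h' : EvenSet a' b') :
    EvenSet (fun v => a v + a' v) (fun v => b v + b' v) where
  bd := by
    obtain ⟨M, hM⟩ := h.bd
    obtain ⟨M', hM'⟩ := h'.bd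
    refine ⟨min M M', fun v hv => ?_⟩
    have h1 := hM v (hv.trans_le (min_le_left _ _))
    have h2 := hM' v (hv.trans_le (min_le_right _ _))
    rw [h1.1, h1.2, h2.1, h2.2]
    simp
  even v := by
    have h1 := h.even v
    have h2 := h'.even v
    calc _ = (a v + a (v.1, v.2 - 1) + b v + b (v.1 - 1, v.2)) +
        (a' v + a' (v.1, v.2 - 1) + b' v + b' (v.1 - 1, v.2)) := by ring
      _ = 0 := by rw [h1, h2, add_zero]

/-! ### gap inside a box -/

/-- every point of the box `box(y, r)` is joined to `y` inside the box -/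
theorem gap (y : Pt) (r : ℕ) : ∀ (k : ℕ) (w : Pt), |w.1 - y.1| + |w.2 - y.2| = k →
    dn y w ≤ r → Linked (fun u u' => dn y u ≤ r ∧ dn y u' ≤ r) w y := by
  intro k
  induction k with
  | zero =>
    intro w hk hw
    have h1 : w.1 = y.1 := by
      have := abs_nonneg (w.1 - y.1); have := abs_nonneg (w.2 - y.2)
      have h3 : |w.1 - y.1| = 0 := by push_cast at hk; omega
      have := abs_eq_zero.1 h3
      omega
    have h2 : w.2 = y.2 := by
      have := abs_nonneg (w.1 - y.1); have := abs_nonneg (w.2 - y.2)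
      have h3 : |w.2 - y.2| = 0 := by push_cast at hk; omega
      have := abs_eq_zero.1 h3
      omega
    rw [Prod.ext h1 h2]
    exact Linked.refl _ _
  | succ k ih =>
    intro w hk hw
    have hw' := H924.dn_le_iff.1 hw
    -- a neighbour closer to `y`
    have : ∃ w' : Pt, Adj w w' ∧ |w'.1 - y.1| + |w'.2 - y.2| = k ∧ dn y w' ≤ r := by
      obtain ⟨w1, w2⟩ := w
      obtain ⟨y1, y2⟩ := y
      simp only at hk hw'
      by_cases h1 : w1 < y1
      · refine ⟨(w1 + 1, w2), by simp [Adj], ?_, H924.dn_le_iff.2 ⟨?_, hw'.2⟩⟩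
        · simp only
          rw [abs_of_nonpos (by omega)] at hk ⊢
          push_cast at hk ⊢; omega
        · simp only
          rw [abs_le] at hw' ⊢; omega
      · by_cases h2 : y1 < w1
        · refine ⟨(w1 - 1, w2), by simp [Adj], ?_, H924.dn_le_iff.2 ⟨?_, hw'.2⟩⟩
          · simp only
            rw [abs_of_nonneg (by omega)] at hk ⊢
            push_cast at hk ⊢; omega
          · simp only
            rw [abs_le] at hw' ⊢; omega
        · have e1 : w1 = y1 := by omega
          rw [e1] at hk ⊢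
          simp only [sub_self, abs_zero, zero_add] at hk ⊢
          by_cases h3 : w2 < y2
          · refine ⟨(y1, w2 + 1), by simp [Adj], ?_, H924.dn_le_iff.2 ⟨by simp, ?_⟩⟩
            · simp only [sub_self, abs_zero, zero_add]
              rw [abs_of_nonpos (by omega)] at hk ⊢
              push_cast at hk ⊢; omega
            · simp only
              rw [abs_le, abs_le] at hw'
              rw [abs_le]; omega
          · have h4 : y2 < w2 := by
              rcases lt_trichotomy w2 y2 with h | h | h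
              · exact absurd h h3
              · rw [h] at hk; simp only [sub_self, abs_zero] at hk; omega
              · exact h
            refine ⟨(y1, w2 - 1), by simp [Adj], ?_, H924.dn_le_iff.2 ⟨by simp, ?_⟩⟩
            · simp only [sub_self, abs_zero, zero_add]
              rw [abs_of_nonneg (by omega)] at hk ⊢
              push_cast at hk ⊢; omega
            · simp only
              rw [abs_le, abs_le] at hw'
              rw [abs_le]; omega
    obtain ⟨w', h1, h2, h3⟩ := this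
    exact (Linked.edge h1 ⟨hw, h3⟩ ⟨h3, hw⟩).trans (ih w' h2 h3)

theorem gap' (y w : Pt) : Linked (fun u u' => dn y u ≤ dn y w ∧ dn y u' ≤ dn y w) w y := by
  obtain ⟨k, hk⟩ : ∃ k : ℕ, |w.1 - y.1| + |w.2 - y.2| = k :=
    ⟨(|w.1 - y.1| + |w.2 - y.2|).toNat, by
      rw [Int.toNat_of_nonneg (add_nonneg (abs_nonneg _) (abs_nonneg _))]⟩
  exact gap y (dn y w) k w hk le_rfl

end Vale.Agent.P155.NT733
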