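import Vale.Agent.P155.NT733.Chain

/-!
# P155, NT, block D (helper733): the closed curve new path + gap + connection

`E` = old explored set, `SS T E` = explored or outside the polygon, `v 0, …, v M` = new path from
the old tip `v 0 ∈ E` to the new tip `v M`; `y ∈ SS T E` is touched by `v M`.
-/

namespace Vale.Agent.P155.NT733

open Vale.Agent.P155 T802 Finset

/-- explored, or outside the closed polygon -/
def SS (T : Temp) (E : Set Pt) : Set Pt := {v | v ∈ E ∨ v ∉ T.closedVerts}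

variable {T : Temp} {E : Set Pt} {v : ℕ → Pt} {M : ℕ} {y : Pt}

theorem mem_corners {f q : Pt} : q ∈ corners f ↔
    (q.1 = f.1 ∨ q.1 = f.1 + 1) ∧ (q.2 = f.2 ∨ q.2 = f.2 + 1) := by
  obtain ⟨a, b⟩ := q
  obtain ⟨c, d⟩ := f
  simp only [corners, mem_insert, mem_singleton, Prod.mk.injEq]
  tauto

/-- free faces do not meet `SS` -/
theorem notMem_OE_of {f q : Pt} (hq : q ∈ corners f) (hS : q ∈ SS T E) : f ∉ OE T E := by
  rintro ⟨h1, h2⟩
  rcases hS with h | h
  · exact h2 ⟨q, hq, h⟩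
  · apply h
    obtain ⟨F, hF, a1, a2, a3, a4⟩ := h1
    rw [mem_corners] at hq
    exact ⟨F, hF, by omega, by omega, by omega, by omega⟩

/-- a face which is not free has a corner in `SS` -/
theorem exists_corner {f : Pt} (hf : f ∉ OE T E) : ∃ q ∈ corners f, q ∈ SS T E := by
  by_cases h : f ∈ T.faceSet
  · have h2 : Touch E f := by
      by_contra h2
      exact hf ⟨h, h2⟩
    obtain ⟨q, hq, hE⟩ := h2
    exact ⟨q, hq, Or.inl hE⟩
  · refine ⟨(2 * (f.1 / 2) + 1, 2 * (f.2 / 2) + 1), ?_, Or.inr ?_⟩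
    · rw [mem_corners]
      simp only
      omega
    · rintro ⟨F, hF, a1, a2, a3, a4⟩
      simp only at a1 a2 a3 a4
      exact h ⟨F, hF, by omega, by omega, by omega, by omega⟩

theorem mem_SS_iff {f : Pt} : f ∉ OE T E ↔ ∃ q ∈ corners f, q ∈ SS T E :=
  ⟨exists_corner, fun ⟨_, h1, h2⟩ => notMem_OE_of h1 h2⟩

/-- The edges of the closed curve. -/
structure Closed (T : Temp) (E : Set Pt) (v : ℕ → Pt) (M : ℕ) (y : Pt) (a b : Pt → ZMod 2) :
    Prop where
  even : EvenSet a b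
  a1 : ∀ p : Pt, p ∉ SS T E ∨ (p.1, p.2 + 1) ∉ SS T E →
    dn y (v M) < dn y p ∨ dn y (v M) < dn y (p.1, p.2 + 1) →
    a p = ind (Step v M p (p.1, p.2 + 1))
  b1 : ∀ p : Pt, p ∉ SS T E ∨ (p.1 + 1, p.2) ∉ SS T E →
    dn y (v M) < dn y p ∨ dn y (v M) < dn y (p.1 + 1, p.2) →
    b p = ind (Step v M p (p.1 + 1, p.2))

theorem exists_closed (hconn : Linked (fun u w => u ∈ SS T E ∧ w ∈ SS T E) y (v 0))
    (hinj : ∀ i j, i ≤ M → j ≤ M → v i = v j → i = j)
    (hadj : ∀ i < M, Adj (v i) (v (i + 1))) : ∃ a b, Closed T E v M y a b := by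
  obtain ⟨ca, cb, hc⟩ := hconn
  obtain ⟨ga, gb, hg⟩ := gap' y (v M)
  have hp := path_chain hadj
  set P : Pt → Pt → Prop := fun _ _ => True with hP
  have hc' := hc.mono (Q := P) (fun _ _ _ => trivial)
  have hg' := hg.mono (Q := P) (fun _ _ _ => trivial)
  have hp' := hp.mono (Q := P) (fun _ _ _ => trivial)
  refine ⟨_, _, ((hp'.add hg').add hc').even, ?_, ?_⟩
  · intro p h1 h2
    have e1 : ca p = 0 := by
      by_contra h
      have := hc.av p h
      exact h1.elim (fun h => h this.1) (fun h => h this.2)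
    have e2 : ga p = 0 := by
      by_contra h
      have := hg.av p h
      exact h2.elim (fun h => absurd this.1 (not_le.2 h)) (fun h => absurd this.2 (not_le.2 h))
    simp only [e1, e2, add_zero]
    exact pathA_eq hinj p
  · intro p h1 h2
    have e1 : cb p = 0 := by
      by_contra h
      have := hc.bv p h
      exact h1.elim (fun h => h this.1) (fun h => h this.2)
    have e2 : gb p = 0 := by
      by_contra h
      have := hg.bv p h
      exact h2.elim (fun h => absurd this.1 (not_le.2 h)) (fun h => absurd this.2 (not_le.2 h))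
    simp only [e1, e2, add_zero]
    exact pathB_eq hinj p

/-! ### flips -/

theorem par_flip_iff {p q c : ZMod 2} (h : p = q + c) : p ≠ q ↔ c = 1 := by
  revert p q c
  decide

theorem ind_one {p : Prop} : ind p = 1 ↔ p := by
  constructor
  · intro h
    by_contra hp
    rw [ind_false hp] at h
    exact absurd h (by decide)
  · exact ind_true

theorem step_vert (hadj : ∀ i < M, Adj (v i) (v (i + 1))) (x z : ℤ) :
    Step v M (x, z) (x, z + 1) ↔ ∃ i < M, v i ∈ corners (x, z) ∧ v i ∈ corners (x - 1, z) ∧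
      v (i + 1) ∈ corners (x, z) ∧ v (i + 1) ∈ corners (x - 1, z) := by
  constructor
  · rintro ⟨i, hi, ⟨h1, h2⟩ | ⟨h1, h2⟩⟩
    · refine ⟨i, hi, ?_⟩
      rw [← h1, ← h2]
      simp [mem_corners]
    · refine ⟨i, hi, ?_⟩
      rw [← h1, ← h2]
      simp [mem_corners]
  · rintro ⟨i, hi, h1, h2, h3, h4⟩
    refine ⟨i, hi, ?_⟩
    have hne : v i ≠ v (i + 1) := by
      intro h
      have := hadj i hi
      rw [h] at this
      simp [Adj] at this
    rw [mem_corners] at h1 h2 h3 h4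
    simp only at h1 h2 h3 h4
    have e : ∀ q : Pt, q.1 = x → (q.2 = z → q = (x, z)) ∧ (q.2 = z + 1 → q = (x, z + 1)) :=
      fun q h => ⟨fun h' => Prod.ext h h', fun h' => Prod.ext h h'⟩
    have a1 := e (v i) (by omega)
    have a2 := e (v (i + 1)) (by omega)
    rcases h1.2 with h5 | h5
    · rcases h3.2 with h6 | h6
      · exact absurd ((a1.1 h5).trans (a2.1 h6).symm) hne
      · exact Or.inl ⟨(a1.1 h5).symm, (a2.2 h6).symm⟩
    · rcases h3.2 with h6 | h6
      · exact Or.inr ⟨(a2.1 h6).symm, (a1.2 h5).symm⟩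
      · exact absurd ((a1.2 h5).trans (a2.2 h6).symm) hne

theorem step_hor (hadj : ∀ i < M, Adj (v i) (v (i + 1))) (x z : ℤ) :
    Step v M (x, z) (x + 1, z) ↔ ∃ i < M, v i ∈ corners (x, z) ∧ v i ∈ corners (x, z - 1) ∧
      v (i + 1) ∈ corners (x, z) ∧ v (i + 1) ∈ corners (x, z - 1) := by
  constructor
  · rintro ⟨i, hi, ⟨h1, h2⟩ | ⟨h1, h2⟩⟩
    · refine ⟨i, hi, ?_⟩
      rw [← h1, ← h2]
      simp [mem_corners]
    · refine ⟨i, hi, ?_⟩
      rw [← h1, ← h2]
      simp [mem_corners]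
  · rintro ⟨i, hi, h1, h2, h3, h4⟩
    refine ⟨i, hi, ?_⟩
    have hne : v i ≠ v (i + 1) := by
      intro h
      have := hadj i hi
      rw [h] at this
      simp [Adj] at this
    rw [mem_corners] at h1 h2 h3 h4
    simp only at h1 h2 h3 h4
    have e : ∀ q : Pt, q.2 = z → (q.1 = x → q = (x, z)) ∧ (q.1 = x + 1 → q = (x + 1, z)) :=
      fun q h => ⟨fun h' => Prod.ext h' h, fun h' => Prod.ext h' h⟩
    have a1 := e (v i) (by omega)
    have a2 := e (v (i + 1)) (by omega)
    rcases h1.1 with h5 | h5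
    · rcases h3.1 with h6 | h6
      · exact absurd ((a1.1 h5).trans (a2.1 h6).symm) hne
      · exact Or.inl ⟨(a1.1 h5).symm, (a2.2 h6).symm⟩
    · rcases h3.1 with h6 | h6
      · exact Or.inr ⟨(a2.1 h6).symm, (a1.2 h5).symm⟩
      · exact absurd ((a1.2 h5).trans (a2.2 h6).symm) hne

variable {a b : Pt → ZMod 2}

theorem flip_vert (hc : Closed T E v M y a b) (hadj : ∀ i < M, Adj (v i) (v (i + 1))) (x z : ℤ)
    (h1 : (x, z) ∈ OE T E) (h2 : dn y (v M) + 1 < dn y (x, z) ∨ dn y (v M) + 1 < dn y (x - 1, z)) :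
    par a (x, z) ≠ par a (x - 1, z) ↔ ∃ i < M, v i ∈ corners (x, z) ∧ v i ∈ corners (x - 1, z) ∧
      v (i + 1) ∈ corners (x, z) ∧ v (i + 1) ∈ corners (x - 1, z) := by
  rw [par_flip_iff (par_right hc.even x z), hc.a1 (x, z) (Or.inl ?_) (Or.inl ?_), ind_one]
  · exact step_vert hadj x z
  · intro h
    exact notMem_OE_of (by rw [mem_corners]; simp) h h1
  · rcases h2 with h2 | h2
    · omega
    · have := H924.dn_triangle y (x, z) (x - 1, z)
      have h3 : dn (x, z) (x - 1, z) ≤ 1 := H924.dn_adj (by simp [Adj])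
      omega

theorem flip_hor (hc : Closed T E v M y a b) (hadj : ∀ i < M, Adj (v i) (v (i + 1))) (x z : ℤ)
    (h1 : (x, z) ∈ OE T E) (h2 : dn y (v M) + 1 < dn y (x, z) ∨ dn y (v M) + 1 < dn y (x, z - 1)) :
    par a (x, z) ≠ par a (x, z - 1) ↔ ∃ i < M, v i ∈ corners (x, z) ∧ v i ∈ corners (x, z - 1) ∧
      v (i + 1) ∈ corners (x, z) ∧ v (i + 1) ∈ corners (x, z - 1) := by
  rw [par_flip_iff (par_up hc.even x z), hc.b1 (x, z) (Or.inl ?_) (Or.inl ?_), ind_one]
  · exact step_hor hadj x z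
  · intro h
    exact notMem_OE_of (by rw [mem_corners]; simp) h h1
  · rcases h2 with h2 | h2
    · omega
    · have := H924.dn_triangle y (x, z) (x, z - 1)
      have h3 : dn (x, z) (x, z - 1) ≤ 1 := H924.dn_adj (by simp [Adj])
      omega

/-- **(P1)** Off the gap box the parity flips between free faces exactly across the new path. -/
theorem flip (hc : Closed T E v M y a b) (hadj : ∀ i < M, Adj (v i) (v (i + 1))) {f f' : Pt}
    (hff : f' ∈ nbrs f) (hf : f ∈ OE T E) (hf' : f' ∈ OE T E)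
    (hfar : dn y (v M) + 1 < dn y f ∨ dn y (v M) + 1 < dn y f') :
    par a f ≠ par a f' ↔ ∃ i < M, v i ∈ corners f ∧ v i ∈ corners f' ∧
      v (i + 1) ∈ corners f ∧ v (i + 1) ∈ corners f' := by
  obtain ⟨x, z⟩ := f
  simp only [nbrs, mem_insert, mem_singleton] at hff
  rcases hff with rfl | rfl | rfl | rfl
  · have k := flip_vert hc hadj (x + 1) z hf' (by rw [add_sub_cancel_right]; exact hfar.symm)
    rw [add_sub_cancel_right] at k
    rw [ne_comm, k]
    exact ⟨fun ⟨i, hi, h1, h2, h3, h4⟩ => ⟨i, hi, h2, h1, h4, h3⟩,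
      fun ⟨i, hi, h1, h2, h3, h4⟩ => ⟨i, hi, h2, h1, h4, h3⟩⟩
  · exact flip_vert hc hadj x z hf hfar
  · have k := flip_hor hc hadj x (z + 1) hf' (by rw [add_sub_cancel_right]; exact hfar.symm)
    rw [add_sub_cancel_right] at k
    rw [ne_comm, k]
    exact ⟨fun ⟨i, hi, h1, h2, h3, h4⟩ => ⟨i, hi, h2, h1, h4, h3⟩,
      fun ⟨i, hi, h1, h2, h3, h4⟩ => ⟨i, hi, h2, h1, h4, h3⟩⟩
  · exact flip_hor hc hadj x z hf hfar

/-! ### types -/

/-- partner relation -/
def Nb (ω : Conf) (q p : Pt) : Prop := ω.1 q = p ∨ ω.2 q = p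

variable {V : Finset Pt} {ω : Conf} {A : Set Pt}

theorem ind_or {p q : Prop} (h : ¬ (p ∧ q)) : ind p + ind q = ind (p ∨ q) := by
  by_cases hp : p
  · rw [ind_true hp, ind_true (Or.inl hp), ind_false (fun hq => h ⟨hp, hq⟩), add_zero]
  · rw [ind_false hp, zero_add]
    exact ind_congr (by tauto)

theorem loop_edges (hω : ω ∈ DD V) (hL : A ∈ Loops ω) {q : Pt} (hq : q ∈ A) :
    eA ω A q = ind (Nb ω q (q.1, q.2 + 1)) ∧ eA ω A (q.1, q.2 - 1) = ind (Nb ω q (q.1, q.2 - 1)) ∧
    eB ω A q = ind (Nb ω q (q.1 + 1, q.2)) ∧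
    eB ω A (q.1 - 1, q.2) = ind (Nb ω q (q.1 - 1, q.2)) := by
  have hne := L.loop_ne hω hL hq
  have i1 := L.inv1 hω
  have i2 := L.inv2 hω
  have c1 : ∀ p, ω.1 p = q ↔ ω.1 q = p := fun p =>
    ⟨fun h => by rw [← h, i1], fun h => by rw [← h, i1]⟩
  have c2 : ∀ p, ω.2 p = q ↔ ω.2 q = p := fun p =>
    ⟨fun h => by rw [← h, i2], fun h => by rw [← h, i2]⟩
  have key : ∀ p, ¬ (ω.1 q = p ∧ ω.2 q = p) := fun p h => hne (h.1.trans h.2.symm)
  obtain ⟨x, z⟩ := q
  refine ⟨?_, ?_, ?_, ?_⟩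
  · unfold eA
    rw [ind_congr (q := ω.1 (x, z) = (x, z + 1)) (by simp only [hq, true_or, true_and]),
      ind_congr (p := _ ∧ ω.2 (x, z) = _) (q := ω.2 (x, z) = (x, z + 1))
        (by simp only [hq, true_or, true_and]), ind_or (key _)]
    rfl
  · unfold eA
    simp only [sub_add_cancel]
    rw [ind_congr (q := ω.1 (x, z) = (x, z - 1)) (by simp only [hq, or_true, true_and, c1]),
      ind_congr (p := _ ∧ ω.2 (x, z - 1) = _) (q := ω.2 (x, z) = (x, z - 1))
        (by simp only [hq, or_true, true_and, c2]), ind_or (key _)]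
    rfl
  · unfold eB
    rw [ind_congr (q := ω.1 (x, z) = (x + 1, z)) (by simp only [hq, true_or, true_and]),
      ind_congr (p := _ ∧ ω.2 (x, z) = _) (q := ω.2 (x, z) = (x + 1, z))
        (by simp only [hq, true_or, true_and]), ind_or (key _)]
    rfl
  · unfold eB
    simp only [sub_add_cancel]
    rw [ind_congr (q := ω.1 (x, z) = (x - 1, z)) (by simp only [hq, or_true, true_and, c1]),
      ind_congr (p := _ ∧ ω.2 (x - 1, z) = _) (q := ω.2 (x, z) = (x - 1, z))
        (by simp only [hq, or_true, true_and, c2]), ind_or (key _)]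
    rfl

/-- along the new path the partners are the neighbours in the path -/
theorem step_nb (hinj : ∀ i j, i ≤ M → j ≤ M → v i = v j → i = j) {j : ℕ} (hj : j + 1 < M)
    (hpart : (ω.1 (v (j + 1)) = v (j + 2) ∧ ω.2 (v (j + 1)) = v j) ∨
      (ω.1 (v (j + 1)) = v j ∧ ω.2 (v (j + 1)) = v (j + 2))) (p : Pt) :
    Step v M (v (j + 1)) p ↔ Nb ω (v (j + 1)) p := by
  have h1 : Step v M (v (j + 1)) p ↔ (p = v (j + 2) ∨ p = v j) := by
    constructor
    · rintro ⟨i, hi, ⟨h1, h2⟩ | ⟨h1, h2⟩⟩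
      · have := hinj _ _ hj.le hi.le h1
        left
        rw [h2, ← this]
      · have := hinj _ _ hj.le hi h1
        right
        rw [h2]
        congr 1
        omega
    · rintro (h | h)
      · exact ⟨j + 1, hj, Or.inl ⟨rfl, h⟩⟩
      · exact ⟨j, by omega, Or.inr ⟨rfl, h⟩⟩
  rw [h1]
  unfold Nb
  rcases hpart with ⟨e1, e2⟩ | ⟨e1, e2⟩
  · rw [e1, e2]
    exact or_congr eq_comm eq_comm
  · rw [e1, e2]
    exact (or_congr eq_comm eq_comm).trans or_comm

/-- **(P2)** type + parity is constant along the new path. -/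
theorem type_const (hc : Closed T E v M y a b) (hω : ω ∈ DD V) (hL : A ∈ Loops ω)
    (hinj : ∀ i j, i ≤ M → j ≤ M → v i = v j → i = j)
    (hadj : ∀ i < M, Adj (v i) (v (i + 1)))
    (hvL : ∀ j, j + 1 < M → v (j + 1) ∈ A)
    (hpart : ∀ j, j + 1 < M → (ω.1 (v (j + 1)) = v (j + 2) ∧ ω.2 (v (j + 1)) = v j) ∨
      (ω.1 (v (j + 1)) = v j ∧ ω.2 (v (j + 1)) = v (j + 2)))
    (hvS : ∀ j, j + 1 < M → v (j + 1) ∉ SS T E)
    (hfirst : ∀ j, j + 1 < M → dn y (v M) < dn y (v (j + 1))) :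
    ∃ c : ZMod 2, ∀ j, j + 1 < M → ∀ f, v (j + 1) ∈ corners f →
      par a f + ind (surr ω A f) = c := by
  have hE := EvenSet.add hc.even (loop_even hω hL)
  obtain ⟨N1, hN1⟩ := hc.even.bd
  obtain ⟨N2, hN2⟩ := (loop_even hω hL).bd
  have hsum : ∀ f, par a f + ind (surr ω A f) = par (fun u => a u + eA ω A u) f := fun f => by
    rw [surr_par hω hL, par_add (fun u hu => (hN1 u hu).1) (fun u hu => (hN2 u hu).1)]
  -- at one vertex
  have h1 : ∀ j, j + 1 < M → ∀ f f', v (j + 1) ∈ corners f → v (j + 1) ∈ corners f' →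
      par a f + ind (surr ω A f) = par a f' + ind (surr ω A f') := by
    intro j hj f f' hf hf'
    rw [hsum, hsum]
    obtain ⟨l1, l2, l3, l4⟩ := loop_edges hω hL (hvL j hj)
    have hs := step_nb hinj hj (hpart j hj)
    have hS := hvS j hj
    have hF := hfirst j hj
    generalize hq : v (j + 1) = q at *
    refine par_around hE (q := q) ?_ ?_ ?_ ?_ (mem_facesAt.2 hf) (mem_facesAt.2 hf')
    · rw [l1, hc.a1 q (Or.inl hS) (Or.inl hF), ind_congr (hs _), z2]
    · rw [l2, hc.a1 (q.1, q.2 - 1) (Or.inr (by simp only [sub_add_cancel]; exact hS))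
        (Or.inr (by simp only [sub_add_cancel]; exact hF))]
      simp only [sub_add_cancel]
      rw [ind_congr (Step.comm.trans (hs _)), z2]
    · rw [l3, hc.b1 q (Or.inl hS) (Or.inl hF), ind_congr (hs _), z2]
    · rw [l4, hc.b1 (q.1 - 1, q.2) (Or.inr (by simp only [sub_add_cancel]; exact hS))
        (Or.inr (by simp only [sub_add_cancel]; exact hF))]
      simp only [sub_add_cancel]
      rw [ind_congr (Step.comm.trans (hs _)), z2]
  -- along the path
  by_cases hM : 1 < M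
  swap
  · exact ⟨0, fun j hj => absurd hj (by omega)⟩
  refine ⟨par a (v 1) + ind (surr ω A (v 1)), ?_⟩
  intro j
  induction j with
  | zero =>
    intro hj f hf
    exact h1 0 hj f (v 1) hf (by rw [mem_corners]; simp)
  | succ j ih =>
    intro hj f hf
    -- a common face
    have hA := mem_nbrs.2 (hadj (j + 1) (by omega))
    have : ∃ g, v (j + 1) ∈ corners g ∧ v (j + 2) ∈ corners g := by
      have e : v (j + 1 + 1) = v (j + 2) := rfl
      rw [e] at hA
      generalize v (j + 1) = p at *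
      generalize v (j + 2) = q at *
      obtain ⟨x, z⟩ := p
      simp only [nbrs, mem_insert, mem_singleton] at hA
      rcases hA with rfl | rfl | rfl | rfl
      · exact ⟨(x, z), by simp [mem_corners], by simp [mem_corners]⟩
      · exact ⟨(x - 1, z), by simp [mem_corners], by simp [mem_corners]⟩
      · exact ⟨(x, z), by simp [mem_corners], by simp [mem_corners]⟩
      · exact ⟨(x, z - 1), by simp [mem_corners], by simp [mem_corners]⟩
    obtain ⟨g, hg1, hg2⟩ := this
    rw [h1 (j + 1) hj f g hf hg2]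
    exact ih (by omega) g hg1

end Vale.Agent.P155.NT733
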