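import Vale.Agent.P155.NT905.LayH
import Vale.Agent.P155.E4.Mass

/-!
# P155, NT, OP1: a hitting function is bounded by potentials of visited layers

`u` = probability that the walk hits a face touched by `Vis` before it leaves `O'`.
-/

namespace Vale.Agent.P155.NT733

open Finset T802 G45

/-- lower bound of a potential, if the source is at least `a` on a box -/
theorem pot_low {O : Set Pt} (hO : O.Finite) {ψ v : Pt → ℝ} (hv : IsGreen O ψ v)
    (hψ : ∀ y ∈ O, 0 ≤ ψ y) {q : Pt} {r : ℕ} {a : ℝ}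
    (h : ∀ y, dn q y ≤ r → y ∈ O ∧ a ≤ ψ y) : a * ((r : ℝ) + 1) ^ 2 / 4 ≤ v q := by
  have hv0 := green_nonneg hO hv hψ
  rcases le_total a 0 with ha | ha
  · have : a * ((r : ℝ) + 1) ^ 2 / 4 ≤ 0 := by
      have : a * ((r : ℝ) + 1) ^ 2 ≤ 0 := mul_nonpos_of_nonpos_of_nonneg ha (by positivity)
      linarith
    exact this.trans (hv0 q)
  have hD : {y : Pt | dn q y ≤ r}.Finite := by
    apply (box q r).finite_toSet.subset
    intro x hx
    exact G45.mem_box.2 hx
  have key := comparison hD (u := fun y => a * (((r : ℝ) + 1) ^ 2 / 4) + (-(a / 4)) * sqd q y)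
    (v := v) ?_ ?_ q
  · simp only [sqd_self] at key
    linarith
  · intro y hy
    obtain ⟨h1, h2⟩ := h y hy
    rw [lap_add, lap_const, lap_smul, lap_sqd]
    linarith [hv.eq y h1]
  · intro y hy
    have h1 : r + 1 ≤ dn q y := by
      have : ¬ dn q y ≤ r := hy
      omega
    have h2 : ((r : ℝ) + 1) ≤ dn q y := by exact_mod_cast h1
    have h3 := le_sqd q y
    have h4 : ((r : ℝ) + 1) ^ 2 ≤ (dn q y : ℝ) ^ 2 := by gcongr
    have h5 := hv0 y
    nlinarith

open Classical in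
/-- source on the layer number `j` -/
noncomputable def psiJ (O Vis : Set Pt) (M j : ℕ) (y : Pt) : ℝ :=
  if M * 2 ^ j ≤ dF O y ∧ dF O y ≤ 5 * M * 2 ^ j ∧ ∃ v ∈ Vis, dn y v ≤ 2 ^ j then (4 ^ j)⁻¹ else 0

open Classical in
/-- source on the microscopic layer -/
noncomputable def psiM (O Vis : Set Pt) (s : ℕ) (β : ℝ) (y : Pt) : ℝ :=
  if dF O y ≤ 4 * s then ((s : ℝ) ^ 2)⁻¹ *
    ((if ∃ v ∈ Vis, dn y v ≤ s ^ 2 + s then 1 else 0) + (s : ℝ) ^ (-β)) else 0

theorem psiJ_nonneg (O Vis : Set Pt) (M j : ℕ) (y : Pt) : 0 ≤ psiJ O Vis M j y := by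
  unfold psiJ
  split_ifs <;> positivity

theorem psiM_nonneg (O Vis : Set Pt) (s : ℕ) (β : ℝ) (y : Pt) : 0 ≤ psiM O Vis s β y := by
  unfold psiM
  split_ifs <;> positivity

theorem corner_dn {f v : Pt} (h : v ∈ corners f) : dn f v ≤ 1 := by
  simp only [corners, mem_insert, mem_singleton] at h
  rw [G45.dn_eq]
  rcases h with rfl | rfl | rfl | rfl <;> simp only <;> omega

/-- a scale for a distance -/
theorem exists_scale {d M j0 j1 : ℕ} (hM : 1 ≤ M) (h0 : 2 * M * 2 ^ j0 ≤ d)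
    (h1 : d < 2 * M * 2 ^ j1) : ∃ j, j0 ≤ j ∧ j < j1 ∧ 2 * M * 2 ^ j ≤ d ∧ d < 4 * M * 2 ^ j := by
  classical
  have hex : ∃ j, d < 2 * M * 2 ^ j := ⟨j1, h1⟩
  have hs := Nat.find_spec hex
  have hpos : j0 < Nat.find hex := by
    by_contra hc
    have h2 : 2 ^ Nat.find hex ≤ 2 ^ j0 := Nat.pow_le_pow_right (by norm_num) (not_lt.1 hc)
    have h3 : 2 * M * 2 ^ Nat.find hex ≤ 2 * M * 2 ^ j0 := Nat.mul_le_mul_left _ h2
    omega
  have hle : Nat.find hex ≤ j1 := Nat.find_min' hex h1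
  obtain ⟨k, hk⟩ : ∃ k, Nat.find hex = k + 1 := ⟨Nat.find hex - 1, by omega⟩
  have hmin : ¬ d < 2 * M * 2 ^ k := Nat.find_min hex (by omega)
  rw [hk, pow_succ] at hs
  refine ⟨k, by omega, by omega, not_lt.1 hmin, ?_⟩
  calc d < 2 * M * (2 ^ k * 2) := hs
    _ = 4 * M * 2 ^ k := by ring

/-- the hitting function in the layer `2 s ≤ dF ≤ 3 s` -/
theorem u_layer {β : ℝ} (hβ : 0 < β) (hSD : SupDecay 2 β) {O O' Vis : Set Pt} (hO : O.Finite)
    (hCP : CPr O) (h1 : O' ⊆ O) {u : Pt → ℝ} (hu0 : ∀ y, 0 ≤ u y) (hu1 : ∀ y, u y ≤ 1)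
    (hoff : ∀ y, y ∉ O' → u y = 0) (hharm : ∀ y ∈ O', ¬ Touch Vis y → lap u y = 0) {s : ℕ}
    (hs : 8 ≤ s) {y : Pt} (hy : dF O y ≤ 3 * s) (hno : ∀ v ∈ Vis, ¬ dn y v ≤ s ^ 2) :
    u y ≤ 2 * (8 / (s : ℝ)) ^ β := by
  obtain ⟨p, hp, hd⟩ := exists_dF (exists_notMem hO) y
  have hs2 : 8 * s ≤ s ^ 2 := by nlinarith
  set L : ℕ := s ^ 2 - 3 * s - 1 with hL
  have hdp : dn p y ≤ L := by rw [dn_comm, hd]; omega
  have h := hSD O' p L 1 u (fun r _ => by
      obtain ⟨q, hq, hr⟩ := hCP p hp r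
      exact ⟨q, fun h => hq (h1 h), hr⟩) hoff ?_ (fun x _ => by
      rw [abs_of_nonneg (hu0 x)]; exact hu1 x) y hdp
  · rw [abs_of_nonneg (hu0 y), mul_one] at h
    refine h.trans (mul_le_mul_of_nonneg_left ?_ (by norm_num))
    apply Real.rpow_le_rpow (by positivity) _ hβ.le
    have hs0 : (0 : ℝ) < s := by
      have : 0 < s := by omega
      exact_mod_cast this
    rw [div_le_div_iff₀ (by positivity) hs0]
    have e1 : (dn p y : ℝ) ≤ 3 * s := by
      rw [dn_comm, hd]; exact_mod_cast hy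
    have e2 : (L : ℝ) + 1 = (s : ℝ) ^ 2 - 3 * s := by
      have : L + 1 = s ^ 2 - 3 * s := by omega
      have h3 : ((L + 1 : ℕ) : ℝ) = ((s ^ 2 - 3 * s : ℕ) : ℝ) := by rw [this]
      rw [Nat.cast_sub (by omega)] at h3
      push_cast at h3
      exact h3
    rw [e2]
    have e3 : (8 : ℝ) ≤ s := by exact_mod_cast hs
    nlinarith
  · intro x hx hxL
    apply hharm x hx
    rintro ⟨v, hv, hvV⟩
    apply hno v hvV
    have a1 := corner_dn hv
    have a2 := dn_tri y p x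
    have a3 := dn_tri y x v
    omega

open Classical in
/-- **(A)** pointwise: the hitting function is bounded by the potentials of the visited layers. -/
theorem hit_pt {β : ℝ} (hβ : 0 < β) (hSD : SupDecay 2 β) {O O' O'' Vis : Set Pt} (hO : O.Finite)
    (hCP : CPr O) (h12 : O' ⊆ O'') (h2 : O'' ⊆ O)
    (hnear : ∀ y ∈ O', ∀ y', 4 * dn y y' ≤ dF O y → y' ∈ O'')
    {u : Pt → ℝ} (hu0 : ∀ y, 0 ≤ u y) (hu1 : ∀ y, u y ≤ 1)
    (hoff : ∀ y, y ∉ O' → u y = 0) (hharm : ∀ y ∈ O', ¬ Touch Vis y → lap u y = 0) {s M j0 j1 : ℕ}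
    (hs : 8 ≤ s) (hM : 2 ≤ M) (hj0 : 1 ≤ j0) (hsM : 2 * M * 2 ^ j0 ≤ 3 * s)
    (hj1 : ∀ y ∈ O', dF O y < 2 * M * 2 ^ j1) {vJ : ℕ → Pt → ℝ} {vM : Pt → ℝ}
    (hvJ : ∀ j, IsGreen O'' (psiJ O Vis M j) (vJ j)) (hvM : IsGreen O'' (psiM O Vis s β) vM) :
    ∀ x, 3 * s < dF O x → u x ≤ 16 * ∑ j ∈ Finset.Ico j0 j1, vJ j x + 32 * 8 ^ β * vM x := by
  have hO'' : O''.Finite := hO.subset h2
  have hO' : O'.Finite := hO''.subset h12
  have hOne := exists_notMem hO
  have hvJ0 : ∀ j y, 0 ≤ vJ j y := fun j => green_nonneg hO'' (hvJ j) (fun y _ => psiJ_nonneg _ _ _ _ _)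
  have hvM0 : ∀ y, 0 ≤ vM y := green_nonneg hO'' hvM (fun y _ => psiM_nonneg _ _ _ _ _)
  have h8 : (0 : ℝ) ≤ 8 ^ β := by positivity
  have hs0 : (0 : ℝ) < s := by
    have : 0 < s := by omega
    exact_mod_cast this
  set V : Pt → ℝ := fun x => 16 * ∑ j ∈ Finset.Ico j0 j1, vJ j x + 32 * 8 ^ β * vM x with hV
  have hV0 : ∀ x, 0 ≤ V x := by
    intro x
    have h1 : 0 ≤ ∑ j ∈ Finset.Ico j0 j1, vJ j x := Finset.sum_nonneg fun j _ => hvJ0 j x
    have h3 := hvM0 x
    positivity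
  have hlapV : ∀ x ∈ O'', lap V x ≤ 0 := by
    intro x hx
    have e : lap V x = 16 * ∑ j ∈ Finset.Ico j0 j1, lap (vJ j) x + 32 * 8 ^ β * lap vM x := by
      simp only [hV, lap, Finset.mul_sum, Finset.sum_add_distrib, Finset.sum_sub_distrib,
        ← Finset.mul_sum]
      ring
    rw [e]
    have h1 : ∑ j ∈ Finset.Ico j0 j1, lap (vJ j) x ≤ 0 := Finset.sum_nonpos fun j _ => by
      have := (hvJ j).eq x hx
      have h3 := psiJ_nonneg O Vis M j x
      linarith
    have h3 : lap vM x ≤ 0 := by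
      have := hvM.eq x hx
      have h3 := psiM_nonneg O Vis s β x
      linarith
    have h4 : 32 * 8 ^ β * lap vM x ≤ 0 := mul_nonpos_of_nonneg_of_nonpos (by positivity) h3
    linarith
  set D : Set Pt := {y | y ∈ O' ∧ 3 * s < dF O y ∧ ¬ Touch Vis y} with hD
  have hDf : D.Finite := hO'.subset fun y hy => hy.1
  have key := comparison hDf (u := fun y => if dF O y < 2 * s then 0 else u y) (v := V) ?_ ?_
  · intro x hx
    have h1 := key x
    rw [if_neg (by omega)] at h1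
    exact h1
  · intro y hy
    obtain ⟨y1, y2, y3⟩ := hy
    have e : lap (fun y => if dF O y < 2 * s then 0 else u y) y = lap u y := by
      apply lap_congr
      intro z hz
      have h1 := dF_lip hOne y z
      rw [if_neg (by omega)]
    rw [e, hharm y y1 y3]
    exact hlapV y (h12 y1)
  · intro y hy
    show (if dF O y < 2 * s then 0 else u y) ≤ V y
    split_ifs with hy2
    · exact hV0 y
    by_cases hyO : y ∈ O'
    swap
    · rw [hoff y hyO]; exact hV0 y
    by_cases hy3 : 3 * s < dF O y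
    · -- touched face, mesoscopic
      have hT : Touch Vis y := by
        by_contra hT
        exact hy ⟨hyO, hy3, hT⟩
      obtain ⟨v, hvc, hvV⟩ := hT
      obtain ⟨j, k1, k2, k3, k4⟩ := exists_scale (by omega : 1 ≤ M) (hsM.trans hy3.le) (hj1 y hyO)
      have hj1' : 1 ≤ j := by omega
      have h2j : 2 ≤ 2 ^ j := by
        calc 2 = 2 ^ 1 := by norm_num
          _ ≤ 2 ^ j := Nat.pow_le_pow_right (by norm_num) hj1'
      have hMj : 2 * 2 ^ j ≤ M * 2 ^ j := Nat.mul_le_mul_right _ hM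
      have a3 : 2 * (M * 2 ^ j) ≤ dF O y := by rw [← mul_assoc]; exact k3
      have a4 : dF O y < 4 * (M * 2 ^ j) := by rw [← mul_assoc]; exact k4
      have hlow := pot_low (q := y) (r := 2 ^ j - 1) (a := ((4 : ℝ) ^ j)⁻¹) hO'' (hvJ j)
        (fun z _ => psiJ_nonneg _ _ _ _ _) (fun z hz => by
          refine ⟨hnear y hyO z (by omega), ?_⟩
          have b1 := dF_lip hOne y z
          have b2 := dF_lip hOne z y
          rw [dn_comm z y] at b2
          have b3 := corner_dn hvc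
          have b4 := dn_tri z y v
          rw [dn_comm z y] at b4
          unfold psiJ
          rw [if_pos]
          refine ⟨by omega, ?_, v, hvV, by omega⟩
          rw [mul_assoc]
          omega)
      have e1 : (((2 ^ j - 1 : ℕ) : ℝ) + 1) = 2 ^ j := by
        rw [Nat.cast_sub (by omega)]
        push_cast
        ring
      rw [e1] at hlow
      have e2 : ((4 : ℝ) ^ j)⁻¹ * (2 ^ j) ^ 2 / 4 = 1 / 4 := by
        have : ((2 : ℝ) ^ j) ^ 2 = 4 ^ j := by
          rw [← pow_mul, mul_comm, pow_mul]; norm_num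
        rw [this, inv_mul_cancel₀ (by positivity)]
      rw [e2] at hlow
      have h5 : vJ j y ≤ ∑ j ∈ Finset.Ico j0 j1, vJ j y :=
        Finset.single_le_sum (f := fun j => vJ j y) (fun j _ => hvJ0 j y)
          (Finset.mem_Ico.2 ⟨k1, k2⟩)
      have h6 : 0 ≤ 32 * 8 ^ β * vM y := by
        have := hvM0 y
        positivity
      have := hu1 y
      simp only [hV]
      linarith
    · -- the microscopic layer
      have hyle : dF O y ≤ 3 * s := not_lt.1 hy3
      have hybox : ∀ z, dn y z ≤ s / 2 → z ∈ O'' ∧ dF O z ≤ 4 * s := by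
        intro z hz
        refine ⟨hnear y hyO z (by omega), ?_⟩
        have b2 := dF_lip hOne z y
        rw [dn_comm z y] at b2
        omega
      have hsh : (s : ℝ) / 2 ≤ ((s / 2 : ℕ) : ℝ) + 1 := by
        have : s ≤ 2 * (s / 2) + 1 := by omega
        have : (s : ℝ) ≤ 2 * ((s / 2 : ℕ) : ℝ) + 1 := by exact_mod_cast this
        linarith
      have hsq : (s : ℝ) ^ 2 / 4 ≤ (((s / 2 : ℕ) : ℝ) + 1) ^ 2 := by
        have : ((s : ℝ) / 2) ^ 2 ≤ (((s / 2 : ℕ) : ℝ) + 1) ^ 2 := by gcongr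
        linarith
      have hsum0 : 0 ≤ ∑ j ∈ Finset.Ico j0 j1, vJ j y := Finset.sum_nonneg fun j _ => hvJ0 j y
      by_cases hno : ∃ v ∈ Vis, dn y v ≤ s ^ 2
      · obtain ⟨v, hv, hvd⟩ := hno
        have hlow := pot_low (q := y) (r := s / 2) (a := ((s : ℝ) ^ 2)⁻¹) hO'' hvM
          (fun z _ => psiM_nonneg _ _ _ _ _) (fun z hz => by
            obtain ⟨z1, z2⟩ := hybox z hz
            refine ⟨z1, ?_⟩
            unfold psiM
            rw [if_pos z2, if_pos]
            · have : (0 : ℝ) ≤ (s : ℝ) ^ (-β) := by positivity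
              have h3 : 0 ≤ ((s : ℝ) ^ 2)⁻¹ := by positivity
              nlinarith
            · refine ⟨v, hv, ?_⟩
              have := dn_tri z y v
              rw [dn_comm z y] at this
              omega)
        have h5 : (1 : ℝ) / 16 ≤ ((s : ℝ) ^ 2)⁻¹ * (((s / 2 : ℕ) : ℝ) + 1) ^ 2 / 4 := by
          have : ((s : ℝ) ^ 2)⁻¹ * ((s : ℝ) ^ 2 / 4) ≤
              ((s : ℝ) ^ 2)⁻¹ * (((s / 2 : ℕ) : ℝ) + 1) ^ 2 :=
            mul_le_mul_of_nonneg_left hsq (by positivity)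
          have e : ((s : ℝ) ^ 2)⁻¹ * ((s : ℝ) ^ 2 / 4) = 1 / 4 := by field_simp
          linarith
        have h6 : (1 : ℝ) ≤ 8 ^ β := Real.one_le_rpow (by norm_num) hβ.le
        have := hu1 y
        simp only [hV]
        nlinarith [hvM0 y]
      · push Not at hno
        have hu := u_layer hβ hSD hO hCP (h12.trans h2) hu0 hu1 hoff hharm hs hyle
          (fun v hv => not_le.2 (hno v hv))
        have hlow := pot_low (q := y) (r := s / 2) (a := ((s : ℝ) ^ 2)⁻¹ * (s : ℝ) ^ (-β)) hO'' hvM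
          (fun z _ => psiM_nonneg _ _ _ _ _) (fun z hz => by
            obtain ⟨z1, z2⟩ := hybox z hz
            refine ⟨z1, ?_⟩
            unfold psiM
            rw [if_pos z2]
            apply mul_le_mul_of_nonneg_left _ (by positivity)
            split_ifs <;> linarith)
        have h5 : (s : ℝ) ^ (-β) / 16 ≤
            ((s : ℝ) ^ 2)⁻¹ * (s : ℝ) ^ (-β) * (((s / 2 : ℕ) : ℝ) + 1) ^ 2 / 4 := by
          have h7 : 0 ≤ ((s : ℝ) ^ 2)⁻¹ * (s : ℝ) ^ (-β) := by positivity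
          have := mul_le_mul_of_nonneg_left hsq h7
          have e : ((s : ℝ) ^ 2)⁻¹ * (s : ℝ) ^ (-β) * ((s : ℝ) ^ 2 / 4) = (s : ℝ) ^ (-β) / 4 := by
            field_simp
          linarith
        have e3 : 2 * (8 / (s : ℝ)) ^ β = 2 * 8 ^ β * (s : ℝ) ^ (-β) := by
          rw [div_eq_mul_inv, Real.mul_rpow (by norm_num) (by positivity), Real.inv_rpow hs0.le,
            Real.rpow_neg hs0.le]
          ring
        rw [e3] at hu
        simp only [hV]
        have h8' : 2 * 8 ^ β * (s : ℝ) ^ (-β) ≤ 32 * 8 ^ β * vM y := by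
          have := h5.trans hlow
          calc 2 * 8 ^ β * (s : ℝ) ^ (-β) = 32 * 8 ^ β * ((s : ℝ) ^ (-β) / 16) := by ring
            _ ≤ _ := mul_le_mul_of_nonneg_left this (by positivity)
        linarith

end Vale.Agent.P155.NT733
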