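import Vale.Agent.P155.NT733.HitPot
import Vale.Agent.P155.J.Iface
import Vale.Agent.P155.H12.FLBd

/-!
# P155, NT, OP1: the hitting function, mesoscopic part and layer part

Riesz decomposition of the hitting function: sources at distance `> s` and `≤ s` from the
complement.  The first part is bounded by the potentials of the visited layers, the second one is
evaluated with the layer function.
-/

namespace Vale.Agent.P155.NT733

open Finset T802 G45 J

open Classical in
/-- the mesoscopic part -/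
theorem hit_meso {O O' O'' Vis : Set Pt} (hO : O.Finite)
    (h12 : O' ⊆ O'') (h2 : O'' ⊆ O)
    (hnear : ∀ y ∈ O', ∀ y', 4 * dn y y' ≤ dF O y → y' ∈ O'')
    {g : Pt → ℝ} (hg1 : ∀ y, g y ≤ 1)
    (hoff : ∀ y, y ∉ O' → g y = 0) {s M j0 j1 : ℕ}
    (hharm : ∀ y ∈ O', lap g y = 0 ∨ (s < dF O y ∧ Touch Vis y))
    (hM : 2 ≤ M) (hj0 : 1 ≤ j0) (hsM : 2 * M * 2 ^ j0 ≤ s + 1)
    (hj1 : ∀ y ∈ O', dF O y < 2 * M * 2 ^ j1) {vJ : ℕ → Pt → ℝ}
    (hvJ : ∀ j, IsGreen O'' (psiJ O Vis M j) (vJ j)) :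
    ∀ x, g x ≤ 16 * ∑ j ∈ Finset.Ico j0 j1, vJ j x := by
  have hO'' : O''.Finite := hO.subset h2
  have hO' : O'.Finite := hO''.subset h12
  have hOne := exists_notMem hO
  have hvJ0 : ∀ j y, 0 ≤ vJ j y :=
    fun j => green_nonneg hO'' (hvJ j) (fun y _ => psiJ_nonneg _ _ _ _ _)
  obtain ⟨V, hV⟩ : ∃ V : Pt → ℝ, V = fun x => 16 * ∑ j ∈ Finset.Ico j0 j1, vJ j x := ⟨_, rfl⟩
  have hV0 : ∀ x, 0 ≤ V x := by
    intro x
    rw [hV]
    have h1 : 0 ≤ ∑ j ∈ Finset.Ico j0 j1, vJ j x := Finset.sum_nonneg fun j _ => hvJ0 j x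
    positivity
  have hlapV : ∀ x ∈ O'', lap V x ≤ 0 := by
    intro x hx
    have e : lap V x = 16 * ∑ j ∈ Finset.Ico j0 j1, lap (vJ j) x := by
      simp only [hV, lap, Finset.sum_add_distrib, Finset.sum_sub_distrib, ← Finset.mul_sum]
      ring
    rw [e]
    have h1 : ∑ j ∈ Finset.Ico j0 j1, lap (vJ j) x ≤ 0 := Finset.sum_nonpos fun j _ => by
      have := (hvJ j).eq x hx
      have h3 := psiJ_nonneg O Vis M j x
      linarith
    linarith
  obtain ⟨D, hD⟩ : ∃ D : Set Pt, D = {y | y ∈ O' ∧ lap g y = 0} := ⟨_, rfl⟩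
  have hDf : D.Finite := hO'.subset fun y hy => by rw [hD] at hy; exact hy.1
  have key := comparison hDf (u := g) (v := V) ?_ ?_
  · intro x
    have := key x
    rw [hV] at this
    exact this
  · intro y hy
    rw [hD] at hy
    rw [hy.2]
    exact hlapV y (h12 hy.1)
  · intro y hy
    by_cases hyO : y ∈ O'
    swap
    · rw [hoff y hyO]; exact hV0 y
    rcases hharm y hyO with h0 | ⟨hy3, hT⟩
    · exact absurd (by rw [hD]; exact ⟨hyO, h0⟩) hy
    obtain ⟨v, hvc, hvV⟩ := hT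
    obtain ⟨j, k1, k2, k3, k4⟩ := exists_scale (by omega : 1 ≤ M) (show 2 * M * 2 ^ j0 ≤ dF O y by omega)
      (hj1 y hyO)
    have hj1' : 1 ≤ j := by omega
    have h2j : 2 ≤ 2 ^ j := by
      calc 2 = 2 ^ 1 := by norm_num
        _ ≤ 2 ^ j := Nat.pow_le_pow_right (by norm_num) hj1'
    have hMj : 2 * 2 ^ j ≤ M * 2 ^ j := Nat.mul_le_mul_right _ hM
    have a3 : 2 * (M * 2 ^ j) ≤ dF O y := by rw [← mul_assoc]; exact k3
    have a4 : dF O y < 4 * (M * 2 ^ j) := by rw [← mul_assoc]; exact k4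
    have hlow := pot_low (q := y) (r := 2 ^ j - 1) (a := ((4 : ℝ) ^ j)⁻¹) hO'' (hvJ j)
      (fun z _ => psiJ_nonneg _ _ _ _ _) (fun z hz => by
        refine ⟨hnear y hyO z (by omega), ?_⟩
        have b1 := dF_lip hOne y z
        have b2 := dF_lip hOne z y
        rw [dn_comm z y] at b2
        have b3 := corner_dn hvc
        have b4 := dn_tri z y v
        rw [dn_comm z y] at b4
        unfold psiJ
        rw [if_pos]
        refine ⟨by omega, ?_, v, hvV, by omega⟩
        rw [mul_assoc]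
        omega)
    have e1 : (((2 ^ j - 1 : ℕ) : ℝ) + 1) = 2 ^ j := by
      rw [Nat.cast_sub (by omega)]
      push_cast
      ring
    rw [e1] at hlow
    have e2 : ((4 : ℝ) ^ j)⁻¹ * (2 ^ j) ^ 2 / 4 = 1 / 4 := by
      have : ((2 : ℝ) ^ j) ^ 2 = 4 ^ j := by
        rw [← pow_mul, mul_comm, pow_mul]; norm_num
      rw [this, inv_mul_cancel₀ (by positivity)]
    rw [e2] at hlow
    have h5 : vJ j y ≤ ∑ j ∈ Finset.Ico j0 j1, vJ j y :=
      Finset.single_le_sum (f := fun j => vJ j y) (fun j _ => hvJ0 j y)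
        (Finset.mem_Ico.2 ⟨k1, k2⟩)
    have := hg1 y
    rw [hV]
    show g y ≤ 16 * ∑ j ∈ Finset.Ico j0 j1, vJ j y
    linarith

/-- a function which vanishes off `O'` and is nonnegative has nonnegative Laplacian off `O'` -/
theorem lap_off {O' : Set Pt} {g : Pt → ℝ} (hg0 : ∀ y, 0 ≤ g y) (hoff : ∀ y, y ∉ O' → g y = 0)
    {y : Pt} (hy : y ∉ O') : 0 ≤ lap g y := by
  unfold lap
  rw [hoff y hy]
  have h1 := hg0 (y.1 + 1, y.2)
  have h2 := hg0 (y.1 - 1, y.2)
  have h3 := hg0 (y.1, y.2 + 1)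
  have h4 := hg0 (y.1, y.2 - 1)
  linarith

open Classical in
/-- the layer part -/
theorem hit_micro {O O' : Set Pt} (hO : O.Finite) (h1 : O' ⊆ O) {s : ℕ} {Cc : ℝ}
    {φ χ U g : Pt → ℝ} (hχ : IsCut O s Cc χ) (hφ : ∀ y, 0 ≤ φ y) (hU : IsGreen O φ U)
    (hg0 : ∀ y, 0 ≤ g y) (hoff : ∀ y, y ∉ O' → g y = 0)
    (hsrc : ∀ y ∈ O', lap g y = 0 ∨ dF O y ≤ s) :
    ∑ x ∈ hO.toFinset, φ x * g x ≤ ∑ x ∈ hO.toFinset, |fL O φ χ U x| * g x := by
  have hU0 := green_nonneg hO hU (fun y _ => hφ y)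
  have hgs : (Function.support g).Finite := (hO.subset h1).subset (lap_support hoff)
  have hUs : (Function.support (fun y => χ y * U y)).Finite :=
    hO.subset (lap_support (u := fun y => χ y * U y) (fun x hx => by
      simp only [hU.off x hx, mul_zero]))
  have hgO : ∀ x, x ∉ O → g x = 0 := fun x hx => hoff x (fun h => hx (h1 h))
  -- Green's identity
  have hG := finsum_lap_mul hUs hgs
  have hL : ∑ᶠ x, lap (fun y => χ y * U y) x * g x =
      ∑ x ∈ hO.toFinset, lap (fun y => χ y * U y) x * g x := by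
    apply finsum_eq_sum_of_support_subset
    intro x hx
    simp only [Set.Finite.coe_toFinset]
    by_contra hxO
    exact hx (by simp only [hgO x hxO, mul_zero])
  have hR : 0 ≤ ∑ᶠ x, (χ x * U x) * lap g x := by
    apply finsum_nonneg
    intro x
    by_cases hx : x ∈ O'
    · rcases hsrc x hx with h | h
      · rw [h, mul_zero]
      · rw [hχ.zero x h]
        simp
    · exact mul_nonneg (mul_nonneg (hχ.nonneg x) (hU0 x)) (lap_off hg0 hoff hx)
  rw [hL] at hG
  rw [← hG] at hR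
  calc ∑ x ∈ hO.toFinset, φ x * g x
      ≤ ∑ x ∈ hO.toFinset, φ x * g x + ∑ x ∈ hO.toFinset, lap (fun y => χ y * U y) x * g x := by
        linarith
    _ = ∑ x ∈ hO.toFinset, fL O φ χ U x * g x := by
        rw [← Finset.sum_add_distrib]
        refine Finset.sum_congr rfl fun x hx => ?_
        unfold fL
        rw [Set.Finite.mem_toFinset] at hx
        rw [if_pos hx]
        ring
    _ ≤ ∑ x ∈ hO.toFinset, |fL O φ χ U x| * g x :=
        Finset.sum_le_sum fun x _ => mul_le_mul_of_nonneg_right (le_abs_self _) (hg0 x)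

open Classical in
/-- **(A)** the hitting function is bounded by the visited layers. -/
theorem hit_sum {β : ℝ} (hβ : 0 < β) (hSD : SupDecay 2 β) {O O' O'' Vis : Set Pt} (hO : O.Finite)
    (hCP : CPr O) (h12 : O' ⊆ O'') (h2 : O'' ⊆ O) (hO'' : O''.Finite)
    (hnear : ∀ y ∈ O', ∀ y', 4 * dn y y' ≤ dF O y → y' ∈ O'')
    {u : Pt → ℝ} (hu0 : ∀ y, 0 ≤ u y) (hu1 : ∀ y, u y ≤ 1)
    (hoff : ∀ y, y ∉ O' → u y = 0)
    (hharm : ∀ y ∈ O', lap u y = 0 ∨ (u y = 1 ∧ Touch Vis y)) {s M j0 j1 : ℕ}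
    (hs : 8 ≤ s) (hM : 2 ≤ M) (hj0 : 1 ≤ j0) (hsM : 2 * M * 2 ^ j0 ≤ s + 1)
    (hj1 : ∀ y ∈ O', dF O y < 2 * M * 2 ^ j1) {Cc : ℝ} {φ χ U U'' : Pt → ℝ}
    (hχ : IsCut O s Cc χ) (hφ : ∀ y, 0 ≤ φ y) (hφO : ∀ y, y ∉ O'' → φ y = 0)
    (hU : IsGreen O φ U) (hU'' : IsGreen O'' φ U'') :
    ∑ x ∈ hO''.toFinset, φ x * u x ≤
      16 * ∑ j ∈ Finset.Ico j0 j1, ∑ y ∈ hO''.toFinset, U'' y * psiJ O Vis M j y +
      (∑ x ∈ hO.toFinset, (if x ∈ O' ∧ ∃ v ∈ Vis, dn x v ≤ s ^ 2 then |fL O φ χ U x| else 0) +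
        2 * (8 / (s : ℝ)) ^ β * ∑ x ∈ hO.toFinset, |fL O φ χ U x|) := by
  have hO' : O'.Finite := hO''.subset h12
  have hOO : O' ⊆ O := h12.trans h2
  have hOne := exists_notMem hO
  -- `u` is superharmonic on `O'`
  have hsup : ∀ y ∈ O', lap u y ≤ 0 := by
    intro y hy
    rcases hharm y hy with h | ⟨h, _⟩
    · exact h.le
    · unfold lap
      rw [h]
      have h1 := hu1 (y.1 + 1, y.2)
      have h2 := hu1 (y.1 - 1, y.2)
      have h3 := hu1 (y.1, y.2 + 1)
      have h4 := hu1 (y.1, y.2 - 1)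
      linarith
  -- Riesz decomposition
  obtain ⟨g2, hg2⟩ := exists_green hO' (fun y => if s < dF O y then -lap u y else 0)
  obtain ⟨g3, hg3⟩ := exists_green hO' (fun y => if s < dF O y then 0 else -lap u y)
  have hg20 : ∀ y, 0 ≤ g2 y := green_nonneg hO' hg2 (fun y hy => by
    split_ifs
    · linarith [hsup y hy]
    · exact le_rfl)
  have hg30 : ∀ y, 0 ≤ g3 y := green_nonneg hO' hg3 (fun y hy => by
    split_ifs
    · exact le_rfl
    · linarith [hsup y hy])
  have hsum : ∀ y, u y = g2 y + g3 y := by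
    have e1 : IsGreen O' (fun y => -lap u y) u := ⟨hoff, fun y _ => rfl⟩
    have e2 : IsGreen O' (fun y => -lap u y) (fun y => g2 y + g3 y) := by
      refine ⟨fun y hy => by simp only [hg2.off y hy, hg3.off y hy, add_zero], fun y hy => ?_⟩
      rw [lap_add]
      have a := hg2.eq y hy
      have b := hg3.eq y hy
      by_cases hc : s < dF O y
      · rw [if_pos hc] at a b
        linarith
      · rw [if_neg hc] at a b
        linarith
    exact congrFun (green_unique hO' e1 e2)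
  choose vJ hvJ using fun j : ℕ => exists_green hO'' (psiJ O Vis M j)
  -- the mesoscopic part
  have key2 := hit_meso (g := g2) hO h12 h2 hnear (fun y => by
      have := hsum y; have := hg30 y; have := hu1 y; linarith) hg2.off (s := s) (M := M) (j0 := j0)
    (j1 := j1) (Vis := Vis) (fun y hy => by
      have a := hg2.eq y hy
      by_cases hc : s < dF O y
      · rcases hharm y hy with h | ⟨_, h⟩
        · left
          rw [if_pos hc, h] at a
          linarith
        · exact Or.inr ⟨hc, h⟩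
      · left
        rw [if_neg hc] at a
        linarith) hM hj0 hsM hj1 hvJ
  have hs2 : ∑ x ∈ hO''.toFinset, φ x * g2 x ≤
      16 * ∑ j ∈ Finset.Ico j0 j1, ∑ y ∈ hO''.toFinset, U'' y * psiJ O Vis M j y := by
    calc ∑ x ∈ hO''.toFinset, φ x * g2 x
        ≤ ∑ x ∈ hO''.toFinset, φ x * (16 * ∑ j ∈ Finset.Ico j0 j1, vJ j x) :=
          Finset.sum_le_sum fun x _ => mul_le_mul_of_nonneg_left (key2 x) (hφ x)
      _ = 16 * ∑ j ∈ Finset.Ico j0 j1, ∑ x ∈ hO''.toFinset, φ x * vJ j x := by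
          rw [Finset.sum_comm, Finset.mul_sum]
          refine Finset.sum_congr rfl fun x _ => ?_
          rw [Finset.mul_sum, Finset.mul_sum, Finset.mul_sum]
          refine Finset.sum_congr rfl fun j _ => ?_
          ring
      _ = _ := by
          congr 1
          refine Finset.sum_congr rfl fun j _ => ?_
          exact green_symm' hO'' hU'' (hvJ j)
  -- the layer part
  have hs3 := hit_micro hO hOO hχ hφ hU hg30 hg3.off (fun y hy => by
    have a := hg3.eq y hy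
    by_cases hc : s < dF O y
    · left
      rw [if_pos hc] at a
      linarith
    · exact Or.inr (not_lt.1 hc))
  have e3 : ∑ x ∈ hO''.toFinset, φ x * g3 x = ∑ x ∈ hO.toFinset, φ x * g3 x := by
    apply Finset.sum_subset
    · intro x hx
      rw [Set.Finite.mem_toFinset] at hx ⊢
      exact h2 hx
    · intro x _ hx
      rw [Set.Finite.mem_toFinset] at hx
      rw [hφO x hx, zero_mul]
  have hs4 : ∑ x ∈ hO.toFinset, |fL O φ χ U x| * g3 x ≤
      ∑ x ∈ hO.toFinset, (if x ∈ O' ∧ ∃ v ∈ Vis, dn x v ≤ s ^ 2 then |fL O φ χ U x| else 0) +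
        2 * (8 / (s : ℝ)) ^ β * ∑ x ∈ hO.toFinset, |fL O φ χ U x| := by
    rw [Finset.mul_sum, ← Finset.sum_add_distrib]
    refine Finset.sum_le_sum fun x _ => ?_
    have hf0 : 0 ≤ |fL O φ χ U x| := abs_nonneg _
    have hb0 : 0 ≤ 2 * (8 / (s : ℝ)) ^ β := by positivity
    have hgu : g3 x ≤ u x := by
      have := hsum x; have := hg20 x; linarith
    by_cases hxO : x ∈ O'
    swap
    · rw [hg3.off x hxO, mul_zero]
      have : (0 : ℝ) ≤ if x ∈ O' ∧ ∃ v ∈ Vis, dn x v ≤ s ^ 2 then |fL O φ χ U x| else 0 := by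
        split_ifs <;> simp
      positivity
    by_cases hv : ∃ v ∈ Vis, dn x v ≤ s ^ 2
    · rw [if_pos ⟨hxO, hv⟩]
      have : |fL O φ χ U x| * g3 x ≤ |fL O φ χ U x| := by
        refine mul_le_of_le_one_right hf0 (hgu.trans (hu1 x))
      nlinarith
    · rw [if_neg (fun h => hv h.2)]
      by_cases hfx : fL O φ χ U x = 0
      · rw [hfx]; simp
      obtain ⟨-, hdF⟩ := H12.fL_supp hOne (by omega : 1 ≤ s) hχ hU hfx
      push Not at hv
      have hul := u_layer hβ hSD hO hCP hOO hu0 hu1 hoff (fun y hy hT => by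
        rcases hharm y hy with h | ⟨_, h⟩
        · exact h
        · exact absurd h hT) hs (y := x) (by omega) (fun v hv' => not_le.2 (hv v hv'))
      have := mul_le_mul_of_nonneg_left (hgu.trans hul) hf0
      linarith
  calc ∑ x ∈ hO''.toFinset, φ x * u x
      = ∑ x ∈ hO''.toFinset, φ x * g2 x + ∑ x ∈ hO''.toFinset, φ x * g3 x := by
        rw [← Finset.sum_add_distrib]
        refine Finset.sum_congr rfl fun x _ => ?_
        rw [hsum x]
        ring
    _ ≤ _ := by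
        rw [e3]
        exact add_le_add hs2 (hs3.trans hs4)

end Vale.Agent.P155.NT733
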