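import Vale.Agent.P155.NT733.OPDef

/-!
# P155, NT, OP1: exact statement of the one-point estimate at a fixed scale `κ`
-/

namespace Vale.Agent.P155.NT733

open Vale.Agent.P155 Finset T802 T862 NT G45 J NT905 S743 NT743 NT276 NT802 NT862

/-- **OP1** at a fixed scale `κ` (`κ ≤ dist(x, explored) ≤ 2 κ`).  `z`, `v₁`, `π`, `O'` are arbitrary
functions (no measurability); `S` and `x` are measurable.  `O'` = any finite set of free faces off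
the ball around `z`, between `box x κ` and `box x (K κ)`, in which both labels are seen from `x`. -/
def OP1P : Prop :=
  ∀ (K : ℕ) (c δ θ a1 : ℝ), 0 < c → 0 < δ → 0 < θ → 0 < a1 → ∃ β : ℝ, 0 < β ∧ ∃ C : ℝ, 0 ≤ C ∧
  ∃ R0 : ℕ, ∀ R : ℕ, R0 ≤ R → ∀ T : Temp, Skel.Fits T R → ∀ (xS : ℤ) (q : Pt) (r r1 k κ D d : ℕ),
  c * R ≤ r → r ≤ R → (16 * r : ℤ) ≤ |q.1 - xS| → r1 + 3 ≤ 2 * r → (R : ℝ) ^ a1 ≤ κ → 1 ≤ d →
  ∀ (S : Conf → Prop) (x z : Conf → Pt) (π : Conf → Pt → ZMod 2) (O' : Conf → Set Pt),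
  MeasS (tE T.V xS q r k).toStop S → MeasS (tE T.V xS q r k).toStop x →
  (∀ ω ∈ DD T.V, S ω → eN T xS ω q r k < Tm.M T.V xS ω ∧ SepN T xS ω q r k r1 d ∧
    κ ≤ dF (OE T ((tE T.V xS q r k).toStop.E ω)) (x ω) ∧
    dF (OE T ((tE T.V xS q r k).toStop.E ω)) (x ω) ≤ 2 * κ ∧
    (dn q (x ω) : ℝ) + δ * R ≤ r1 ∧ θ * R ≤ dF T.faceSet (x ω) ∧
    Lab T ((tE T.V xS q r k).toStop.E ω) (gN T xS ω (eN T xS ω q r k + 1)) (z ω) D (π ω) ∧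
    (∀ f ∈ O' ω, f ∈ OE T ((tE T.V xS q r k).toStop.E ω) ∧ D + 1 < dn (z ω) f ∧
      dn (x ω) f ≤ K * κ) ∧
    (∀ f, dn (x ω) f < κ → f ∈ O' ω) ∧
    ∀ U₀ U₁ : Pt → ℝ, IsPot (O' ω) (bdl T ((tE T.V xS q r k).toStop.E ω) (π ω) 0) U₀ →
      IsPot (O' ω) (bdl T ((tE T.V xS q r k).toStop.E ω) (π ω) 1) U₁ →
      1 / 32 ≤ U₀ (x ω) ∧ 1 / 32 ≤ U₁ (x ω)) →
  Pr T.V (fun ω => S ω ∧ ∃ m, eN T xS ω q r k < m ∧ m < xN T xS ω q r k ∧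
    gN T xS ω m ∈ FB T ((tE T.V xS q r k).toStop.E ω) (z ω) D) ≤
    C * (((κ : ℝ) / d) ^ β * Pr T.V S + ((κ : ℝ) / R) ^ β + (R : ℝ) ^ (-β))

end Vale.Agent.P155.NT733
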