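import Vale.Agent.P155.NT733.OPOne
import Vale.Agent.P155.NT733.OP1Def
import Vale.Agent.P155.NT34.VBPDef
import Vale.Agent.P155.NT801.Mic

/-!
# P155, NT, OP1: the one-point estimate
-/

namespace Vale.Agent.P155.NT733

open Vale.Agent.P155 Finset T802 T862 NT G45 J NT862 S743 NT905 NT802 NT276 NT211 NT426

theorem geo_sum {β : ℝ} (hβ : 0 < β) : ∃ G : ℝ, 0 ≤ G ∧ ∀ (j0 j1 : ℕ) (y : ℝ), 0 ≤ y →
    ∑ j ∈ Finset.Ico j0 j1, ((2 : ℝ) ^ j * y) ^ β ≤ G * ((2 : ℝ) ^ j1 * y) ^ β := by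
  obtain ⟨x, hx⟩ : ∃ x : ℝ, x = (2 : ℝ) ^ β := ⟨_, rfl⟩
  have hx1 : 1 < x := by rw [hx]; exact Real.one_lt_rpow (by norm_num) hβ
  have e : ∀ (j : ℕ) (y : ℝ), 0 ≤ y → ((2 : ℝ) ^ j * y) ^ β = x ^ j * y ^ β := by
    intro j y hy
    rw [Real.mul_rpow (by positivity) hy, hx, ← Real.rpow_natCast (2 : ℝ) j, ← Real.rpow_mul
      (by norm_num), mul_comm (j : ℝ) β, Real.rpow_mul (by norm_num), Real.rpow_natCast]
  refine ⟨1 / (x - 1), by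
    have : 0 < x - 1 := by linarith
    positivity, ?_⟩
  intro j0 j1 y hy
  have hyb : 0 ≤ y ^ β := Real.rpow_nonneg hy β
  rw [e j1 y hy, Finset.sum_congr rfl fun j _ => e j y hy, ← Finset.sum_mul]
  have h1 : ∑ j ∈ Finset.Ico j0 j1, x ^ j ≤ ∑ j ∈ Finset.range j1, x ^ j := by
    refine Finset.sum_le_sum_of_subset_of_nonneg ?_ fun j _ _ => by positivity
    intro j hj
    exact Finset.mem_range.2 (Finset.mem_Ico.1 hj).2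
  have h2 : ∑ j ∈ Finset.range j1, x ^ j ≤ 1 / (x - 1) * x ^ j1 := by
    have hpos : 0 < x - 1 := by linarith
    rw [geom_sum_eq (by linarith), div_mul_eq_mul_div, one_mul]
    exact div_le_div_of_nonneg_right (by linarith) hpos.le
  calc (∑ j ∈ Finset.Ico j0 j1, x ^ j) * y ^ β ≤ (1 / (x - 1) * x ^ j1) * y ^ β :=
        mul_le_mul_of_nonneg_right (h1.trans h2) hyb
    _ = _ := by ring

theorem exists_j1 {N : ℕ} (hN : 1 ≤ N) : ∃ j1, N < 2 ^ j1 ∧ 2 ^ j1 ≤ 2 * N ∧ 1 ≤ j1 := by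
  refine ⟨Nat.log 2 N + 1, Nat.lt_pow_succ_log_self (by norm_num) N, ?_, by omega⟩
  have := Nat.pow_log_le_self 2 (x := N) (by omega)
  rw [pow_succ]
  omega

theorem evp {e : ℝ} (he : 0 < e) (X : ℝ) : ∃ R0 : ℕ, ∀ R : ℕ, R0 ≤ R → X ≤ (R : ℝ) ^ e := by
  have h := ((tendsto_rpow_atTop he).comp (tendsto_natCast_atTop_atTop (R := ℝ))).eventually
    (Filter.eventually_ge_atTop X)
  obtain ⟨R0, h0⟩ := Filter.eventually_atTop.1 h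
  exact ⟨R0, fun R hR => h0 R hR⟩

/-- the scales -/
theorem op_scales {a a1 e : ℝ} (ha : 0 < a) (ha1 : 0 < a1) (he : 0 < e) (M K : ℕ) (hM : 1 ≤ M) :
    ∃ R0 : ℕ, 1 ≤ R0 ∧ ∀ R : ℕ, R0 ≤ R →
    8 ≤ ⌈(R : ℝ) ^ a⌉₊ ∧ (∃ j0 : ℕ, 1 ≤ j0 ∧ 2 * M * 2 ^ j0 ≤ ⌈(R : ℝ) ^ a⌉₊ + 1 ∧
      (R : ℝ) ^ (a / 2) ≤ ((2 ^ j0 : ℕ) : ℝ)) ∧
    ∀ κ : ℕ, (R : ℝ) ^ a1 ≤ κ → 20 ≤ κ ∧ (R : ℝ) ^ (a1 / 2) ≤ ((κ / 4 : ℕ) : ℝ) ∧
      ((K * κ : ℕ) : ℝ) ≤ ((κ / 4 : ℕ) : ℝ) ^ (1 + e) := by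
  obtain ⟨R1, h1⟩ := evp ha 8
  obtain ⟨R2, h2⟩ := evp (half_pos ha) (8 * M)
  obtain ⟨R3, h3⟩ := evp ha1 20
  obtain ⟨R4, h4⟩ := evp (half_pos ha1) 8
  obtain ⟨R5, h5⟩ := evp (show 0 < a1 / 2 * e by positivity) (8 * K)
  refine ⟨max (max (max R1 R2) (max R3 R4)) (max R5 1), (le_max_right _ _).trans (le_max_right _ _), ?_⟩
  intro R hR
  have q1 : R1 ≤ R := ((le_max_left _ _).trans ((le_max_left _ _).trans (le_max_left _ _))).trans hR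
  have q2 : R2 ≤ R := ((le_max_right _ _).trans ((le_max_left _ _).trans (le_max_left _ _))).trans hR
  have q3 : R3 ≤ R := ((le_max_left _ _).trans ((le_max_right _ _).trans (le_max_left _ _))).trans hR
  have q4 : R4 ≤ R := ((le_max_right _ _).trans ((le_max_right _ _).trans (le_max_left _ _))).trans hR
  have q5 : R5 ≤ R := ((le_max_left _ _).trans (le_max_right _ _)).trans hR
  have q6 : 1 ≤ R := ((le_max_right _ _).trans (le_max_right _ _)).trans hR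
  have hR0 : (0 : ℝ) < R := by exact_mod_cast q6
  have hR1 : (1 : ℝ) ≤ R := by exact_mod_cast q6
  refine ⟨?_, ?_, ?_⟩
  · have := (h1 R q1).trans (Nat.le_ceil _)
    exact_mod_cast this
  · obtain ⟨m, hm⟩ : ∃ m : ℕ, m = ⌈(R : ℝ) ^ (a / 2)⌉₊ := ⟨_, rfl⟩
    have hx1 : (1 : ℝ) ≤ (R : ℝ) ^ (a / 2) := Real.one_le_rpow hR1 (half_pos ha).le
    have hm1 : 1 ≤ m := by
      have h := hx1.trans (Nat.le_ceil _)
      rw [← hm] at h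
      exact_mod_cast h
    obtain ⟨j0, e1, e2, e3⟩ := exists_j1 hm1
    refine ⟨j0, e3, ?_, ?_⟩
    · have h7 : (m : ℝ) ≤ 2 * (R : ℝ) ^ (a / 2) := by
        have := Nat.ceil_lt_add_one (show (0 : ℝ) ≤ (R : ℝ) ^ (a / 2) by positivity)
        rw [← hm] at this
        linarith
      have h8 : ((2 * M * 2 ^ j0 : ℕ) : ℝ) ≤ ⌈(R : ℝ) ^ a⌉₊ := by
        have h9 : ((2 ^ j0 : ℕ) : ℝ) ≤ 2 * m := by exact_mod_cast e2
        have h10 : (R : ℝ) ^ a = (R : ℝ) ^ (a / 2) * (R : ℝ) ^ (a / 2) := by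
          rw [← Real.rpow_add hR0]
          congr 1
          ring
        have h11 := h2 R q2
        have hM0 : (0 : ℝ) ≤ M := Nat.cast_nonneg _
        calc ((2 * M * 2 ^ j0 : ℕ) : ℝ) = 2 * M * ((2 ^ j0 : ℕ) : ℝ) := by push_cast; ring
          _ ≤ 2 * M * (2 * (2 * (R : ℝ) ^ (a / 2))) := by
              refine mul_le_mul_of_nonneg_left ?_ (by positivity)
              linarith
          _ = (8 * M) * (R : ℝ) ^ (a / 2) := by ring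
          _ ≤ (R : ℝ) ^ (a / 2) * (R : ℝ) ^ (a / 2) :=
              mul_le_mul_of_nonneg_right h11 (by positivity)
          _ = (R : ℝ) ^ a := h10.symm
          _ ≤ _ := Nat.le_ceil _
      have : 2 * M * 2 ^ j0 ≤ ⌈(R : ℝ) ^ a⌉₊ := by exact_mod_cast h8
      omega
    · refine (Nat.le_ceil _).trans ?_
      rw [← hm]
      exact_mod_cast e1.le
  · intro κ hκ
    have h20 : 20 ≤ κ := by
      have := (h3 R q3).trans hκ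
      exact_mod_cast this
    have h8 : (κ : ℝ) ≤ 8 * ((κ / 4 : ℕ) : ℝ) := by
      have : κ ≤ 8 * (κ / 4) := by omega
      exact_mod_cast this
    have h9 : (R : ℝ) ^ (a1 / 2) ≤ ((κ / 4 : ℕ) : ℝ) := by
      have h10 : (R : ℝ) ^ a1 = (R : ℝ) ^ (a1 / 2) * (R : ℝ) ^ (a1 / 2) := by
        rw [← Real.rpow_add hR0]
        congr 1
        ring
      have h11 := h4 R q4
      have h12 : 8 * (R : ℝ) ^ (a1 / 2) ≤ (R : ℝ) ^ a1 := by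
        rw [h10]
        exact mul_le_mul_of_nonneg_right h11 (by positivity)
      linarith
    refine ⟨h20, h9, ?_⟩
    have hn0 : (0 : ℝ) < ((κ / 4 : ℕ) : ℝ) := lt_of_lt_of_le (by positivity) h9
    rw [Real.rpow_add hn0, Real.rpow_one]
    have h13 : 8 * (K : ℝ) ≤ ((κ / 4 : ℕ) : ℝ) ^ e := by
      refine (h5 R q5).trans ?_
      rw [Real.rpow_mul hR0.le]
      exact Real.rpow_le_rpow (by positivity) h9 he.le
    have hK0 : (0 : ℝ) ≤ K := Nat.cast_nonneg _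
    push_cast
    calc (K : ℝ) * κ ≤ K * (8 * ((κ / 4 : ℕ) : ℝ)) := mul_le_mul_of_nonneg_left h8 hK0
      _ = ((κ / 4 : ℕ) : ℝ) * (8 * K) := by ring
      _ ≤ _ := mul_le_mul_of_nonneg_left h13 hn0.le

theorem add_rpow_le2 {u v β : ℝ} (hu : 0 ≤ u) (hv : 0 ≤ v) (hβ : 0 ≤ β) :
    (u + v) ^ β ≤ (2 * u) ^ β + (2 * v) ^ β := by
  rcases le_total u v with h | h
  · have h1 : (u + v) ^ β ≤ (2 * v) ^ β := Real.rpow_le_rpow (by positivity) (by linarith) hβ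
    have h2 : 0 ≤ (2 * u) ^ β := by positivity
    linarith
  · have h1 : (u + v) ^ β ≤ (2 * u) ^ β := Real.rpow_le_rpow (by positivity) (by linarith) hβ
    have h2 : 0 ≤ (2 * v) ^ β := by positivity
    linarith

/-- the sum of the harmonic measures over the layers -/
theorem sum_eta {β G : ℝ} (hβ : 0 < β) (hG : 0 ≤ G) (hgeo : ∀ (j0 j1 : ℕ) (y : ℝ), 0 ≤ y →
    ∑ j ∈ Finset.Ico j0 j1, ((2 : ℝ) ^ j * y) ^ β ≤ G * ((2 : ℝ) ^ j1 * y) ^ β)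
    {M L N j0 j1 κ d R K : ℕ} {δ : ℝ} (hδ : 0 < δ) (hM : 1 ≤ M) (hj1 : 2 ^ j1 ≤ 2 * N)
    (hN : N = K * κ) (hL : ((L : ℝ) + 1)⁻¹ ≤ 8 / d + 8 / (δ * R)) :
    ∑ j ∈ Finset.Ico j0 j1, (((5 * M * 2 ^ j : ℕ) + 1 : ℝ) / ((L : ℝ) + 1)) ^ β ≤
      G * ((192 * M * K) ^ β * ((κ : ℝ) / d) ^ β + (192 * M * K / δ) ^ β * ((κ : ℝ) / R) ^ β) := by
  have hM1 : (1 : ℝ) ≤ M := by exact_mod_cast hM
  obtain ⟨y, hy⟩ : ∃ y : ℝ, y = 6 * M * ((L : ℝ) + 1)⁻¹ := ⟨_, rfl⟩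
  have hy0 : 0 ≤ y := by rw [hy]; positivity
  have hL0 : (0 : ℝ) < (L : ℝ) + 1 := by positivity
  have h1 : ∀ j ∈ Finset.Ico j0 j1, (((5 * M * 2 ^ j : ℕ) + 1 : ℝ) / ((L : ℝ) + 1)) ^ β ≤
      ((2 : ℝ) ^ j * y) ^ β := by
    intro j _
    refine Real.rpow_le_rpow (by positivity) ?_ hβ.le
    rw [hy, div_eq_mul_inv]
    push_cast
    have h2j : (1 : ℝ) ≤ 2 ^ j := one_le_pow₀ (by norm_num)
    have h3 : (5 * (M : ℝ) * 2 ^ j + 1) ≤ 2 ^ j * (6 * M) := by nlinarith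
    calc (5 * (M : ℝ) * 2 ^ j + 1) * ((L : ℝ) + 1)⁻¹ ≤ (2 ^ j * (6 * M)) * ((L : ℝ) + 1)⁻¹ :=
          mul_le_mul_of_nonneg_right h3 (by positivity)
      _ = _ := by ring
  refine (Finset.sum_le_sum h1).trans ((hgeo j0 j1 y hy0).trans ?_)
  refine mul_le_mul_of_nonneg_left ?_ hG
  have hj1r : (2 : ℝ) ^ j1 ≤ 2 * (K * κ) := by
    have : ((2 ^ j1 : ℕ) : ℝ) ≤ ((2 * N : ℕ) : ℝ) := by exact_mod_cast hj1
    rw [hN] at this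
    push_cast at this
    exact this
  have h2 : (2 : ℝ) ^ j1 * y ≤ 96 * M * K * ((κ : ℝ) / d) + 96 * M * K / δ * ((κ : ℝ) / R) := by
    calc (2 : ℝ) ^ j1 * y ≤ (2 * (K * κ)) * (6 * M * (8 / d + 8 / (δ * R))) := by
          rw [hy]
          gcongr
      _ = _ := by
          rw [show (8 : ℝ) / (δ * R) = 8 / δ / R by rw [div_div]]
          ring
  refine (Real.rpow_le_rpow (by positivity) h2 hβ.le).trans ?_
  refine (add_rpow_le2 (by positivity) (by positivity) hβ.le).trans (le_of_eq ?_)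
  rw [← Real.mul_rpow (by positivity) (by positivity), ← Real.mul_rpow (by positivity)
    (by positivity)]
  congr 2 <;> ring

/-- the sum of the errors over the layers -/
theorem sum_err {β G C : ℝ} (hβ : 0 < β) (hC : 0 ≤ C) (hG : 0 ≤ G)
    (hgeo : ∀ (j0 j1 : ℕ) (y : ℝ), 0 ≤ y →
    ∑ j ∈ Finset.Ico j0 j1, ((2 : ℝ) ^ j * y) ^ β ≤ G * ((2 : ℝ) ^ j1 * y) ^ β)
    {N j0 j1 κ R K : ℕ} (hj1 : 2 ^ j1 ≤ 2 * N) (hN : N = K * κ) (hR : 1 ≤ R) :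
    ∑ j ∈ Finset.Ico j0 j1, (C * ((R : ℝ) ^ (-β) + (((2 ^ j : ℕ) : ℝ) / R) ^ β)) ≤
      2 * C * G * (2 * K) ^ β * ((κ : ℝ) / R) ^ β := by
  have hR0 : (0 : ℝ) < R := by exact_mod_cast hR
  have h1 : ∀ j ∈ Finset.Ico j0 j1, C * ((R : ℝ) ^ (-β) + (((2 ^ j : ℕ) : ℝ) / R) ^ β) ≤
      2 * C * ((2 : ℝ) ^ j * (R : ℝ)⁻¹) ^ β := by
    intro j _
    have e1 : (((2 ^ j : ℕ) : ℝ) / R) = (2 : ℝ) ^ j * (R : ℝ)⁻¹ := by
      push_cast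
      rw [div_eq_mul_inv]
    have e2 : (R : ℝ) ^ (-β) = ((R : ℝ)⁻¹) ^ β := by
      rw [Real.rpow_neg hR0.le, Real.inv_rpow hR0.le]
    have h2j : (1 : ℝ) ≤ 2 ^ j := one_le_pow₀ (by norm_num)
    have e3 : ((R : ℝ)⁻¹) ^ β ≤ ((2 : ℝ) ^ j * (R : ℝ)⁻¹) ^ β := by
      refine Real.rpow_le_rpow (by positivity) ?_ hβ.le
      have : 0 ≤ (R : ℝ)⁻¹ := by positivity
      nlinarith
    rw [e1, e2]
    nlinarith
  refine (Finset.sum_le_sum h1).trans ?_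
  rw [← Finset.mul_sum]
  have h2 := hgeo j0 j1 (R : ℝ)⁻¹ (by positivity)
  have hj1r : (2 : ℝ) ^ j1 ≤ 2 * (K * κ) := by
    have : ((2 ^ j1 : ℕ) : ℝ) ≤ ((2 * N : ℕ) : ℝ) := by exact_mod_cast hj1
    rw [hN] at this
    push_cast at this
    exact this
  have h3 : ((2 : ℝ) ^ j1 * (R : ℝ)⁻¹) ^ β ≤ (2 * K) ^ β * ((κ : ℝ) / R) ^ β := by
    rw [← Real.mul_rpow (by positivity) (by positivity)]
    refine Real.rpow_le_rpow (by positivity) ?_ hβ.le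
    calc (2 : ℝ) ^ j1 * (R : ℝ)⁻¹ ≤ (2 * (K * κ)) * (R : ℝ)⁻¹ :=
          mul_le_mul_of_nonneg_right hj1r (by positivity)
      _ = _ := by rw [div_eq_mul_inv]; ring
  calc 2 * C * ∑ j ∈ Finset.Ico j0 j1, ((2 : ℝ) ^ j * (R : ℝ)⁻¹) ^ β
      ≤ 2 * C * (G * ((2 * K) ^ β * ((κ : ℝ) / R) ^ β)) := by
        refine mul_le_mul_of_nonneg_left (h2.trans ?_) (by positivity)
        exact mul_le_mul_of_nonneg_left h3 hG
    _ = _ := by ring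

theorem num4 {a b e m X Y Z V : ℝ} (ha : 0 ≤ a) (hb : 0 ≤ b) (he : 0 ≤ e) (hm : 0 ≤ m) (hX : 0 ≤ X)
    (hY : 0 ≤ Y) (hZ : 0 ≤ Z) (hV : 0 ≤ V) :
    a * X + b * Y + e * Z + m * V ≤ (a + b + e + m) * (X + Y + Z + V) := by
  have h1 := mul_le_mul_of_nonneg_left (show X ≤ X + Y + Z + V by linarith) ha
  have h2 := mul_le_mul_of_nonneg_left (show Y ≤ X + Y + Z + V by linarith) hb
  have h3 := mul_le_mul_of_nonneg_left (show Z ≤ X + Y + Z + V by linarith) he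
  have h4 := mul_le_mul_of_nonneg_left (show V ≤ X + Y + Z + V by linarith) hm
  have e1 : (a + b + e + m) * (X + Y + Z + V) = a * (X + Y + Z + V) + b * (X + Y + Z + V) +
    e * (X + Y + Z + V) + m * (X + Y + Z + V) := by ring
  rw [e1]
  linarith

/-- the numbers of one side -/
theorem op_nums {c0 A W C1 G0 G1 Ka Kb Ke Cm β0 β1 cm δ P p mic : ℝ} (hβ0 : 0 < β0) (hβ1 : 0 < β1)
    (hA : 0 ≤ A) (hW : 0 ≤ W) (hC1 : 0 ≤ C1) (hG0 : 0 ≤ G0) (hG1 : 0 ≤ G1) (hc0 : 0 < c0)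
    (hCm : 0 ≤ Cm)
    (hgeo0 : ∀ (j0 j1 : ℕ) (y : ℝ), 0 ≤ y →
    ∑ j ∈ Finset.Ico j0 j1, ((2 : ℝ) ^ j * y) ^ β0 ≤ G0 * ((2 : ℝ) ^ j1 * y) ^ β0)
    (hgeo1 : ∀ (j0 j1 : ℕ) (y : ℝ), 0 ≤ y →
    ∑ j ∈ Finset.Ico j0 j1, ((2 : ℝ) ^ j * y) ^ β1 ≤ G1 * ((2 : ℝ) ^ j1 * y) ^ β1)
    {M L N j0 j1 κ d R K : ℕ} (hδ : 0 < δ) (hM : 1 ≤ M) (hj1 : 2 ^ j1 ≤ 2 * N)
    (hN : N = K * κ) (hL : ((L : ℝ) + 1)⁻¹ ≤ 8 / d + 8 / (δ * R)) (hR : 1 ≤ R)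
    (hKa : Ka = G0 * (192 * M * K) ^ β0) (hKb : Kb = G0 * (192 * M * K / δ) ^ β0)
    (hKe : Ke = 2 * C1 * G1 * (2 * K) ^ β1) (hp : 0 ≤ p) (hp1 : p ≤ 1)
    (hmic : mic ≤ Cm * (R : ℝ) ^ (-cm))
    (key : c0 * P ≤ 16 * ∑ j ∈ Finset.Ico j0 j1, (A * W *
        (2 * (((5 * M * 2 ^ j : ℕ) + 1 : ℝ) / ((L : ℝ) + 1)) ^ β0) * p +
        W * (C1 * ((R : ℝ) ^ (-β1) + (((2 ^ j : ℕ) : ℝ) / R) ^ β1))) + mic) :
    P ≤ c0⁻¹ * (32 * A * W * Ka + 32 * A * W * Kb + 16 * W * Ke + Cm) *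
      (((κ : ℝ) / d) ^ β0 * p + ((κ : ℝ) / R) ^ β0 + ((κ : ℝ) / R) ^ β1 + (R : ℝ) ^ (-cm)) := by
  have hKa0 : 0 ≤ Ka := by rw [hKa]; positivity
  have hKb0 : 0 ≤ Kb := by rw [hKb]; positivity
  have hKe0 : 0 ≤ Ke := by rw [hKe]; positivity
  obtain ⟨x0, hx0⟩ : ∃ x0 : ℝ, x0 = ((κ : ℝ) / d) ^ β0 := ⟨_, rfl⟩
  obtain ⟨y0, hy0⟩ : ∃ y0 : ℝ, y0 = ((κ : ℝ) / R) ^ β0 := ⟨_, rfl⟩
  obtain ⟨y1, hy1⟩ : ∃ y1 : ℝ, y1 = ((κ : ℝ) / R) ^ β1 := ⟨_, rfl⟩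
  obtain ⟨z, hz⟩ : ∃ z : ℝ, z = (R : ℝ) ^ (-cm) := ⟨_, rfl⟩
  have X0 : 0 ≤ x0 := by rw [hx0]; positivity
  have Y0 : 0 ≤ y0 := by rw [hy0]; positivity
  have Y1 : 0 ≤ y1 := by rw [hy1]; positivity
  have Z0 : 0 ≤ z := by rw [hz]; positivity
  have e1 : ∑ j ∈ Finset.Ico j0 j1, (A * W *
        (2 * (((5 * M * 2 ^ j : ℕ) + 1 : ℝ) / ((L : ℝ) + 1)) ^ β0) * p +
        W * (C1 * ((R : ℝ) ^ (-β1) + (((2 ^ j : ℕ) : ℝ) / R) ^ β1))) =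
        2 * A * W * p * (∑ j ∈ Finset.Ico j0 j1,
          (((5 * M * 2 ^ j : ℕ) + 1 : ℝ) / ((L : ℝ) + 1)) ^ β0) +
        W * ∑ j ∈ Finset.Ico j0 j1, (C1 * ((R : ℝ) ^ (-β1) + (((2 ^ j : ℕ) : ℝ) / R) ^ β1)) := by
    rw [Finset.mul_sum, Finset.mul_sum, ← Finset.sum_add_distrib]
    refine Finset.sum_congr rfl fun j _ => ?_
    ring
  rw [e1] at key
  have s1 := sum_eta hβ0 hG0 hgeo0 (M := M) (L := L) (N := N) (j0 := j0) (j1 := j1) (κ := κ)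
    (d := d) (R := R) (K := K) hδ hM hj1 hN hL
  have s2 := sum_err hβ1 hC1 hG1 hgeo1 (N := N) (j0 := j0) (j1 := j1) (κ := κ) (R := R) (K := K)
    hj1 hN hR
  rw [← hx0, ← hy0] at s1
  rw [← hy1] at s2
  rw [← hz] at hmic
  rw [← hx0, ← hy0, ← hy1, ← hz]
  generalize (∑ j ∈ Finset.Ico j0 j1, (((5 * M * 2 ^ j : ℕ) + 1 : ℝ) / ((L : ℝ) + 1)) ^ β0) = A1
    at key s1
  generalize (∑ j ∈ Finset.Ico j0 j1, (C1 * ((R : ℝ) ^ (-β1) + (((2 ^ j : ℕ) : ℝ) / R) ^ β1))) = A2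
    at key s2
  have q1 : G0 * ((192 * M * K) ^ β0 * x0 + (192 * M * K / δ) ^ β0 * y0) = Ka * x0 + Kb * y0 := by
    rw [hKa, hKb]; ring
  rw [q1] at s1
  rw [← hKe] at s2
  have t1 : 2 * A * W * p * A1 ≤ 2 * A * W * p * (Ka * x0 + Kb * y0) :=
    mul_le_mul_of_nonneg_left s1 (by positivity)
  have t1' : 2 * A * W * Kb * y0 * p ≤ 2 * A * W * Kb * y0 * 1 :=
    mul_le_mul_of_nonneg_left hp1 (by positivity)
  have t2 : W * A2 ≤ W * (Ke * y1) := mul_le_mul_of_nonneg_left s2 hW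
  have tot : c0 * P ≤ 32 * A * W * Ka * (x0 * p) + 32 * A * W * Kb * y0 + 16 * W * Ke * y1 +
      Cm * z := by
    have r1 : 2 * A * W * p * (Ka * x0 + Kb * y0) = 2 * A * W * Ka * (x0 * p) +
      2 * A * W * Kb * y0 * p := by ring
    rw [r1] at t1
    have r2 : 32 * A * W * Ka * (x0 * p) = 16 * (2 * A * W * Ka * (x0 * p)) := by ring
    have r3 : 32 * A * W * Kb * y0 = 16 * (2 * A * W * Kb * y0 * 1) := by ring
    have r4 : 16 * W * Ke * y1 = 16 * (W * (Ke * y1)) := by ring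
    rw [r2, r3, r4]
    linarith
  have tot2 := tot.trans (num4 (a := 32 * A * W * Ka) (b := 32 * A * W * Kb) (e := 16 * W * Ke)
    (m := Cm) (by positivity) (by positivity) (by positivity) hCm
    (show 0 ≤ x0 * p by positivity) Y0 Y1 Z0)
  have hc : 0 ≤ c0⁻¹ := by positivity
  calc P = c0⁻¹ * (c0 * P) := by rw [← mul_assoc, inv_mul_cancel₀ hc0.ne', one_mul]
    _ ≤ c0⁻¹ * _ := mul_le_mul_of_nonneg_left tot2 hc
    _ = _ := by ring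

end Vale.Agent.P155.NT733
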