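import Vale.Agent.P155.NT.Harm

/-!
# P155, NT: from measurable choices to measurable weights

If a linear estimate holds for every choice of one point which is measurable with respect to the
explored part at a stopping time, then it holds for all measurable weights.
-/

namespace Vale.Agent.P155.NT733

open Vale.Agent.P155 T802 T862 Finset NT

/-- `f` is a function of the (unoriented) configuration explored at the time `τ` -/
structure MeasS {V : Finset Pt} {xS : ℤ} (τ : Stop V xS) {α : Sort*} (f : Conf → α) : Prop where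
  onE : ∀ ω ∈ DD V, ∀ ω' ∈ DD V, OnE (τ.E ω) ω ω' → f ω' = f ω
  uns : ∀ ω ∈ DD V, ∀ ω' ∈ DD V, T905.UEq ω ω' → f ω' = f ω

/-- equivalence relation of the explored part -/
def Rel {V : Finset Pt} {xS : ℤ} (τ : Stop V xS) : Conf → Conf → Prop :=
  Relation.EqvGen (fun ω ω' => ω ∈ DD V ∧ ω' ∈ DD V ∧ (OnE (τ.E ω) ω ω' ∨ T905.UEq ω ω'))

theorem MeasS.rel {V : Finset Pt} {xS : ℤ} {τ : Stop V xS} {α : Sort*} {f : Conf → α}
    (hf : MeasS τ f) {ω ω' : Conf} (h : Rel τ ω ω') : f ω' = f ω := by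
  induction h with
  | rel a b hab =>
    obtain ⟨h1, h2, h3 | h3⟩ := hab
    · exact hf.onE _ h1 _ h2 h3
    · exact hf.uns _ h1 _ h2 h3
  | refl a => rfl
  | symm a b _ ih => exact ih.symm
  | trans a b c _ _ ih1 ih2 => exact ih2.trans ih1

/-- a function of the class is measurable -/
theorem measS_of_rel {V : Finset Pt} {xS : ℤ} {τ : Stop V xS} {α : Sort*} {f : Conf → α}
    (h : ∀ ω ω', Rel τ ω ω' → f ω' = f ω) : MeasS τ f :=
  ⟨fun ω hω ω' hω' he => h ω ω' (Relation.EqvGen.rel _ _ ⟨hω, hω', Or.inl he⟩),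
    fun ω hω ω' hω' he => h ω ω' (Relation.EqvGen.rel _ _ ⟨hω, hω', Or.inr he⟩)⟩

open Classical in
/-- the class of a configuration -/
noncomputable def cls {V : Finset Pt} {xS : ℤ} (τ : Stop V xS) (ω : Conf) : Finset Conf :=
  (DD V).filter (fun ω' => Rel τ ω ω')

theorem cls_eq {V : Finset Pt} {xS : ℤ} {τ : Stop V xS} {ω ω' : Conf} (h : Rel τ ω ω') :
    cls τ ω' = cls τ ω := by
  classical
  unfold cls
  ext a
  rw [mem_filter, mem_filter]
  constructor
  · rintro ⟨h1, h2⟩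
    exact ⟨h1, Relation.EqvGen.trans _ _ _ h h2⟩
  · rintro ⟨h1, h2⟩
    exact ⟨h1, Relation.EqvGen.trans _ _ _ (Relation.EqvGen.symm _ _ h) h2⟩

/-- averaging over the classes -/
theorem sum_cls {V : Finset Pt} {xS : ℤ} (τ : Stop V xS) (f : Conf → ℝ) :
    ∑ ω ∈ DD V, f ω = ∑ ω ∈ DD V, ((cls τ ω).card : ℝ)⁻¹ * ∑ ω' ∈ cls τ ω, f ω' := by
  classical
  have h1 : ∀ ω ∈ DD V, ((cls τ ω).card : ℝ)⁻¹ * ∑ ω' ∈ cls τ ω, f ω' =
      ∑ ω' ∈ DD V, if Rel τ ω ω' then ((cls τ ω').card : ℝ)⁻¹ * f ω' else 0 := by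
    intro ω _
    rw [← Finset.sum_filter, Finset.mul_sum]
    refine Finset.sum_congr rfl fun ω' h => ?_
    rw [cls_eq (mem_filter.1 h).2]
  rw [Finset.sum_congr rfl h1, Finset.sum_comm]
  refine Finset.sum_congr rfl fun ω' hω' => ?_
  have h2 : ∀ ω ∈ DD V, (if Rel τ ω ω' then ((cls τ ω').card : ℝ)⁻¹ * f ω' else 0) =
      if Rel τ ω' ω then ((cls τ ω').card : ℝ)⁻¹ * f ω' else 0 := by
    intro ω _
    have : Rel τ ω ω' ↔ Rel τ ω' ω :=
      ⟨fun h => Relation.EqvGen.symm _ _ h, fun h => Relation.EqvGen.symm _ _ h⟩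
    simp only [this]
  rw [Finset.sum_congr rfl h2, ← Finset.sum_filter, Finset.sum_const]
  have h3 : ((DD V).filter (fun ω => Rel τ ω' ω)) = cls τ ω' := rfl
  rw [h3, nsmul_eq_mul]
  have h4 : (0 : ℝ) < (cls τ ω').card := by
    have : 0 < (cls τ ω').card :=
      Finset.card_pos.2 ⟨ω', mem_filter.2 ⟨hω', Relation.EqvGen.refl _⟩⟩
    exact_mod_cast this
  field_simp

open Classical in
/-- a point with a given property -/
noncomputable def pick (Q : Pt → Prop) : Pt := if h : ∃ y, Q y then h.choose else (0, 0)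

theorem pick_spec {Q : Pt → Prop} (h : ∃ y, Q y) : Q (pick Q) := by
  unfold pick
  rw [dif_pos h]
  exact h.choose_spec

open Classical in
/-- **(C)** if `∑_ω 1_S(ω) F(ω, x(ω)) ≤ err` for all measurable events `S` and choices `x`, then
`∑_ω ∑_y w(ω, y) F(ω, y) ≤ W err` for all measurable weights of total mass at most `W`. -/
theorem sum_weights {V : Finset Pt} {xS : ℤ} {τ : Stop V xS} {P : Conf → Pt → Prop}
    (hP : MeasS τ P) {F : Conf → Pt → ℝ} {err : ℝ}
    (h : ∀ (S : Conf → Prop) (x : Conf → Pt), MeasS τ S → MeasS τ x →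
      (∀ ω ∈ DD V, S ω → P ω (x ω)) → ∑ ω ∈ DD V, (if S ω then F ω (x ω) else 0) ≤ err)
    {w : Conf → Pt → ℝ} (hw : MeasS τ w) (hw0 : ∀ ω y, 0 ≤ w ω y) {W : ℝ} (hW : 0 ≤ W)
    {B : Finset Pt} (hsum : ∀ ω ∈ DD V, ∑ y ∈ B, w ω y ≤ W)
    (hwP : ∀ ω ∈ DD V, ∀ y ∈ B, w ω y ≠ 0 → P ω y) :
    ∑ ω ∈ DD V, ∑ y ∈ B, w ω y * F ω y ≤ W * err := by
  -- the sum over a class
  set g : Conf → Pt → ℝ := fun ω y => ∑ ω' ∈ cls τ ω, F ω' y with hg
  have hgR : ∀ ω ω', Rel τ ω ω' → g ω' = g ω := by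
    intro ω ω' hr
    funext y
    simp only [hg]
    rw [cls_eq hr]
  set Q : Conf → Pt → Prop := fun ω y => y ∈ B ∧ P ω y ∧ 0 < g ω y ∧
    ∀ y' ∈ B, P ω y' → g ω y' ≤ g ω y with hQ
  have hQR : ∀ ω ω', Rel τ ω ω' → Q ω' = Q ω := by
    intro ω ω' hr
    funext y
    simp only [hQ]
    rw [hgR ω ω' hr, hP.rel hr]
  obtain ⟨S, hS⟩ : ∃ S : Conf → Prop, S = fun ω => ∃ y, Q ω y := ⟨_, rfl⟩
  set x : Conf → Pt := fun ω => pick (Q ω) with hx
  have hSR : ∀ ω ω', Rel τ ω ω' → S ω' = S ω := by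
    intro ω ω' hr
    simp only [hS]
    rw [hQR ω ω' hr]
  have hxR : ∀ ω ω', Rel τ ω ω' → x ω' = x ω := by
    intro ω ω' hr
    simp only [hx]
    rw [hQR ω ω' hr]
  have hxQ : ∀ ω, S ω → Q ω (x ω) := fun ω hω => pick_spec (by rw [hS] at hω; exact hω)
  have key := h S x (measS_of_rel hSR) (measS_of_rel hxR) (fun ω _ hs => (hxQ ω hs).2.1)
  refine le_trans ?_ (mul_le_mul_of_nonneg_left key hW)
  rw [Finset.mul_sum]
  have E1 := sum_cls τ (fun ω => ∑ y ∈ B, w ω y * F ω y)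
  have E2 := sum_cls τ (fun ω => W * (if S ω then F ω (x ω) else 0))
  simp only at E1 E2
  refine (le_of_eq E1).trans (le_trans ?_ (le_of_eq E2.symm))
  refine Finset.sum_le_sum fun ω hω => ?_
  refine mul_le_mul_of_nonneg_left ?_ (by positivity)
  have e1 : ∑ ω' ∈ cls τ ω, ∑ y ∈ B, w ω' y * F ω' y = ∑ y ∈ B, w ω y * g ω y := by
    rw [Finset.sum_comm]
    refine Finset.sum_congr rfl fun y _ => ?_
    simp only [hg]
    rw [Finset.mul_sum]
    refine Finset.sum_congr rfl fun ω' hω' => ?_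
    rw [hw.rel (mem_filter.1 hω').2]
  have e2 : ∑ ω' ∈ cls τ ω, W * (if S ω' then F ω' (x ω') else 0) =
      W * (if S ω then g ω (x ω) else 0) := by
    rw [← Finset.mul_sum]
    congr 1
    have : ∀ ω' ∈ cls τ ω, (if S ω' then F ω' (x ω') else 0) = if S ω then F ω' (x ω) else 0 := by
      intro ω' hω'
      have hr := (mem_filter.1 hω').2
      rw [hxR ω ω' hr]
      have hs : S ω' ↔ S ω := by rw [hSR ω ω' hr]
      simp only [hs]
    rw [Finset.sum_congr rfl this]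
    by_cases hs : S ω
    · simp only [hs, if_true, hg]
    · simp only [hs, if_false, Finset.sum_const_zero]
  rw [e1, e2]
  by_cases hs : S ω
  · rw [if_pos hs]
    obtain ⟨q1, q2, q3, q4⟩ := hxQ ω hs
    calc ∑ y ∈ B, w ω y * g ω y ≤ ∑ y ∈ B, w ω y * g ω (x ω) := by
          refine Finset.sum_le_sum fun y hy => ?_
          by_cases hwy : w ω y = 0
          · rw [hwy]; simp
          · exact mul_le_mul_of_nonneg_left (q4 y hy (hwP ω hω y hy hwy)) (hw0 ω y)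
      _ = (∑ y ∈ B, w ω y) * g ω (x ω) := by rw [Finset.sum_mul]
      _ ≤ W * g ω (x ω) := mul_le_mul_of_nonneg_right (hsum ω hω) q3.le
  · rw [if_neg hs, mul_zero]
    refine Finset.sum_nonpos fun y hy => ?_
    by_cases hwy : w ω y = 0
    · rw [hwy]; simp
    · have hPy := hwP ω hω y hy hwy
      refine mul_nonpos_of_nonneg_of_nonpos (hw0 ω y) ?_
      by_contra hc
      have hc' : 0 < g ω y := not_le.1 hc
      apply hs
      rw [hS]
      obtain ⟨z, hz, hmax⟩ := (B.filter (fun y => P ω y)).exists_max_image (g ω)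
        ⟨y, mem_filter.2 ⟨hy, hPy⟩⟩
      obtain ⟨z1, z2⟩ := mem_filter.1 hz
      exact ⟨z, z1, z2, hc'.trans_le (hmax y (mem_filter.2 ⟨hy, hPy⟩)),
        fun y' hy' hPy' => hmax y' (mem_filter.2 ⟨hy', hPy'⟩)⟩

open Classical in
/-- the same with expectations -/
theorem Ex_weights {V : Finset Pt} {xS : ℤ} {τ : Stop V xS} {P : Conf → Pt → Prop}
    (hP : MeasS τ P) {f g : Conf → Pt → ℝ} {A err : ℝ}
    (h : ∀ (S : Conf → Prop) (x : Conf → Pt), MeasS τ S → MeasS τ x →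
      (∀ ω ∈ DD V, S ω → P ω (x ω)) → Ex V (fun ω => if S ω then f ω (x ω) else 0) ≤
        A * Ex V (fun ω => if S ω then g ω (x ω) else 0) + err)
    {w : Conf → Pt → ℝ} (hw : MeasS τ w) (hw0 : ∀ ω y, 0 ≤ w ω y) {W : ℝ} (hW : 0 ≤ W)
    {B : Finset Pt} (hsum : ∀ ω ∈ DD V, ∑ y ∈ B, w ω y ≤ W)
    (hwP : ∀ ω ∈ DD V, ∀ y ∈ B, w ω y ≠ 0 → P ω y) :
    Ex V (fun ω => ∑ y ∈ B, w ω y * f ω y) ≤
      A * Ex V (fun ω => ∑ y ∈ B, w ω y * g ω y) + W * err := by
  rcases (DD V).eq_empty_or_nonempty with hne | hne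
  · have h0 := h (fun _ => False) (fun _ => (0, 0)) ⟨fun _ _ _ _ _ => rfl, fun _ _ _ _ _ => rfl⟩
      ⟨fun _ _ _ _ _ => rfl, fun _ _ _ _ _ => rfl⟩ (fun _ _ hf => hf.elim)
    simp only [J.Ex_eq_avg, J.avg, hne] at h0 ⊢
    simp only [if_false, Finset.sum_const_zero, smul_zero, mul_zero, zero_add,
      Finset.sum_empty] at h0 ⊢
    exact mul_nonneg hW h0
  have hc : (0 : ℝ) < (DD V).card := by exact_mod_cast Finset.card_pos.2 hne
  have key := sum_weights (F := fun ω y => f ω y - A * g ω y) (err := (DD V).card * err) hP ?_ hw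
    hw0 hW hsum hwP
  · have e1 : ∑ ω ∈ DD V, ∑ y ∈ B, w ω y * (f ω y - A * g ω y) =
        ∑ ω ∈ DD V, ∑ y ∈ B, w ω y * f ω y - A * ∑ ω ∈ DD V, ∑ y ∈ B, w ω y * g ω y := by
      rw [Finset.mul_sum, ← Finset.sum_sub_distrib]
      refine Finset.sum_congr rfl fun ω _ => ?_
      rw [Finset.mul_sum, ← Finset.sum_sub_distrib]
      exact Finset.sum_congr rfl fun y _ => by ring
    rw [e1] at key
    simp only [J.Ex_eq_avg, J.avg, smul_eq_mul]
    have h2 := mul_le_mul_of_nonneg_left key (inv_nonneg.2 hc.le)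
    have e3 : ((DD V).card : ℝ)⁻¹ * (W * ((DD V).card * err)) = W * err := by
      field_simp
    rw [e3] at h2
    linarith
  · intro S x hS hx hSx
    have h1 := h S x hS hx hSx
    simp only [J.Ex_eq_avg, J.avg, smul_eq_mul] at h1
    have e1 : ∑ ω ∈ DD V, (if S ω then (f ω (x ω) - A * g ω (x ω)) else 0) =
        ∑ ω ∈ DD V, (if S ω then f ω (x ω) else 0) -
          A * ∑ ω ∈ DD V, (if S ω then g ω (x ω) else 0) := by
      rw [Finset.mul_sum, ← Finset.sum_sub_distrib]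
      refine Finset.sum_congr rfl fun ω _ => ?_
      split_ifs
      · rfl
      · ring
    rw [e1]
    have h2 := mul_le_mul_of_nonneg_left h1 hc.le
    have e2 : ((DD V).card : ℝ) * (((DD V).card : ℝ)⁻¹ *
        ∑ ω ∈ DD V, (if S ω then f ω (x ω) else 0)) =
        ∑ ω ∈ DD V, (if S ω then f ω (x ω) else 0) := by field_simp
    have e3 : ((DD V).card : ℝ) * (A * (((DD V).card : ℝ)⁻¹ *
        ∑ ω ∈ DD V, (if S ω then g ω (x ω) else 0)) + err) =
        A * ∑ ω ∈ DD V, (if S ω then g ω (x ω) else 0) + (DD V).card * err := by field_simp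
    rw [e2, e3] at h2
    linarith

end Vale.Agent.P155.NT733
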