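import Vale.Agent.P155.NT733.HitSum
import Vale.Agent.P155.NT733.Weights
import Vale.Agent.P155.S743.Eval
import Vale.Agent.P155.E.Prob
import Vale.Agent.P155.H12.Basic

/-!
# P155, NT, OP1: visit bound + deterministic inequality => one-point estimate (abstract form)
-/

namespace Vale.Agent.P155.NT733

open Vale.Agent.P155 Finset T802 T862 NT G45 J

open Classical in
/-- the weight of the layer number `j` -/
noncomputable def wJ (O : Set Pt) (U : Pt → ℝ) (M j : ℕ) (y : Pt) : ℝ :=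
  if M * 2 ^ j ≤ dF O y ∧ dF O y ≤ 5 * M * 2 ^ j then (4 ^ j)⁻¹ * U y else 0

theorem wJ_nonneg {O : Set Pt} {U : Pt → ℝ} (hU : ∀ y, 0 ≤ U y) (M j : ℕ) (y : Pt) :
    0 ≤ wJ O U M j y := by
  unfold wJ
  have := hU y
  split_ifs <;> positivity

open Classical in
theorem mul_psiJ (O Vis : Set Pt) (U : Pt → ℝ) (M j : ℕ) (y : Pt) :
    U y * psiJ O Vis M j y = wJ O U M j y * (if ∃ v ∈ Vis, dn y v ≤ 2 ^ j then 1 else 0) := by
  unfold psiJ wJ
  by_cases h1 : M * 2 ^ j ≤ dF O y ∧ dF O y ≤ 5 * M * 2 ^ j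
  · rw [if_pos h1]
    by_cases h2 : ∃ v ∈ Vis, dn y v ≤ 2 ^ j
    · rw [if_pos h2, if_pos ⟨h1.1, h1.2, h2⟩]
      ring
    · rw [if_neg h2, if_neg (fun h => h2 h.2.2)]
      ring
  · rw [if_neg h1, if_neg (fun h => h1 ⟨h.1, h.2.1⟩)]
    ring

/-- the distance to the complement of a smaller set is smaller -/
theorem dF_mono {O O'' : Set Pt} (h : O'' ⊆ O) (hO : ∃ q, q ∉ O) (x : Pt) : dF O'' x ≤ dF O x := by
  obtain ⟨y, hy, hd⟩ := exists_dF hO x
  rw [← hd]
  exact dF_le (fun hy' => hy (h hy'))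

open Classical in
/-- **mass of the layers** -/
theorem layer_mass {β : ℝ} (hβ : 0 < β) (hSD : SupDecay 2 β) : ∃ D : ℝ, 0 < D ∧
    ∀ {O O'' : Set Pt} (_ : O.Finite) (hO'' : O''.Finite), CPr O'' → O'' ⊆ O →
    ∀ (φ U : Pt → ℝ), (∀ y ∈ O'', 0 ≤ φ y) → IsGreen O'' φ U → ∀ M : ℕ, 1 ≤ M → ∀ (j : ℕ)
    (B : Finset Pt), (∀ y ∈ O'', y ∈ B) →
    ∑ y ∈ B, wJ O U M j y ≤ D * (M : ℝ) ^ 2 * ∑ y ∈ hO''.toFinset, φ y := by
  obtain ⟨D, hD, hv⟩ := visits hβ (by norm_num) hSD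
  refine ⟨25 * D, by positivity, ?_⟩
  intro O O'' hO hO'' hCP h2 φ U hφ hU M hM j B hB
  have hU0 := green_nonneg hO'' hU hφ
  have h2j : 1 ≤ 2 ^ j := Nat.one_le_two_pow
  have hr : 1 ≤ 5 * M * 2 ^ j := by
    have : 1 ≤ M * 2 ^ j := Nat.mul_pos hM h2j
    calc 1 ≤ M * 2 ^ j := this
      _ ≤ 5 * (M * 2 ^ j) := by omega
      _ = 5 * M * 2 ^ j := by ring
  obtain ⟨S, hS⟩ : ∃ S : Finset Pt, S = hO''.toFinset.filter (fun y => dF O y ≤ 5 * M * 2 ^ j) :=
    ⟨_, rfl⟩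
  have h1 := hv O'' hO'' hCP (5 * M * 2 ^ j) hr S φ U (fun x hx => by
    rw [hS] at hx
    have a := (Finset.mem_filter.1 hx).2
    have b := dF_mono h2 (exists_notMem hO) x
    omega) hU hφ
  have h3 : ∑ y ∈ B, wJ O U M j y ≤ (4 ^ j)⁻¹ * ∑ x ∈ S, U x := by
    rw [Finset.mul_sum]
    have e : ∑ y ∈ B, wJ O U M j y = ∑ y ∈ B.filter (fun y => wJ O U M j y ≠ 0), wJ O U M j y :=
      (Finset.sum_filter_ne_zero _).symm
    rw [e]
    calc ∑ y ∈ B.filter (fun y => wJ O U M j y ≠ 0), wJ O U M j y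
        ≤ ∑ y ∈ B.filter (fun y => wJ O U M j y ≠ 0), (4 ^ j)⁻¹ * U y := by
          refine Finset.sum_le_sum fun y _ => ?_
          unfold wJ
          have := hU0 y
          split_ifs
          · exact le_rfl
          · positivity
      _ ≤ ∑ x ∈ S, (4 ^ j)⁻¹ * U x := by
          refine Finset.sum_le_sum_of_subset_of_nonneg ?_ (fun y _ _ => by
            have := hU0 y; positivity)
          intro y hy
          have hne := (Finset.mem_filter.1 hy).2
          rw [hS, Finset.mem_filter, Set.Finite.mem_toFinset]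
          unfold wJ at hne
          by_cases hc : M * 2 ^ j ≤ dF O y ∧ dF O y ≤ 5 * M * 2 ^ j
          · rw [if_pos hc] at hne
            refine ⟨?_, hc.2⟩
            by_contra hno
            rw [hU.off y hno, mul_zero] at hne
            exact hne rfl
          · rw [if_neg hc] at hne
            exact absurd rfl hne
  refine h3.trans ((mul_le_mul_of_nonneg_left h1 (by positivity)).trans (le_of_eq ?_))
  push_cast
  have e4 : ((2 : ℝ) ^ j) ^ 2 = 4 ^ j := by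
    rw [← pow_mul, mul_comm, pow_mul]; norm_num
  have : (4 : ℝ) ^ j ≠ 0 := by positivity
  calc ((4 : ℝ) ^ j)⁻¹ * (D * (5 * (M : ℝ) * 2 ^ j) ^ 2 * ∑ x ∈ hO''.toFinset, φ x)
      = ((4 : ℝ) ^ j)⁻¹ * ((2 : ℝ) ^ j) ^ 2 * (25 * D * (M : ℝ) ^ 2 * ∑ x ∈ hO''.toFinset, φ x) := by
        ring
    _ = _ := by rw [e4, inv_mul_cancel₀ this, one_mul]

open Classical in
/-- **(D), abstract form**: visit bound + deterministic inequality => one-point estimate. -/
theorem op_abs {T : Temp} {xS : ℤ} {τ : Stop T.V xS} {S Hit : Conf → Prop} (hS : MeasS τ S)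
    {U : Conf → Pt → ℝ} (hUm : MeasS τ U) (hU0 : ∀ ω y, 0 ≤ U ω y) {G : Conf → Pt → ℝ}
    {Vis : Conf → Set Pt} {vis : Conf → Pt → ℕ → Prop}
    (hvis : ∀ ω ∈ DD T.V, ∀ y n, (∃ v ∈ Vis ω, dn y v ≤ n) → vis ω y n)
    {P : ℕ → Conf → Pt → Prop} (hP : ∀ j, MeasS τ (P j)) {M j0 j1 : ℕ} {A : ℝ} (hA : 0 ≤ A)
    {W : ℕ → ℝ} (hW0 : ∀ j, 0 ≤ W j) {err η : ℕ → ℝ} (hη : ∀ j, 0 ≤ η j) {B : Finset Pt}
    (hVB : ∀ j, j0 ≤ j → j < j1 → ∀ (S' : Conf → Prop) (x' : Conf → Pt), MeasS τ S' →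
      MeasS τ x' → (∀ ω ∈ DD T.V, S' ω → P j ω (x' ω)) →
      Ex T.V (fun ω => if S' ω then (if vis ω (x' ω) (2 ^ j) then (1 : ℝ) else 0) else 0) ≤
        A * Ex T.V (fun ω => if S' ω then G ω (x' ω) else 0) + err j)
    (hPw : ∀ j, j0 ≤ j → j < j1 → ∀ ω ∈ DD T.V, S ω → ∀ y ∈ B, U ω y ≠ 0 →
      M * 2 ^ j ≤ dF (OE T (τ.E ω)) y → dF (OE T (τ.E ω)) y ≤ 5 * M * 2 ^ j → P j ω y)
    (hW : ∀ j, j0 ≤ j → j < j1 → ∀ ω ∈ DD T.V, S ω →
      ∑ y ∈ B, wJ (OE T (τ.E ω)) (U ω) M j y ≤ W j)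
    (hG : ∀ j, j0 ≤ j → j < j1 → ∀ ω ∈ DD T.V, S ω → ∀ y ∈ B, U ω y ≠ 0 →
      dF (OE T (τ.E ω)) y ≤ 5 * M * 2 ^ j → G ω y ≤ η j)
    {c0 : ℝ} {mic : Conf → ℝ}
    (hdet : ∀ ω ∈ DD T.V, S ω → Hit ω → c0 ≤ 16 * ∑ j ∈ Finset.Ico j0 j1, ∑ y ∈ B,
      U ω y * psiJ (OE T (τ.E ω)) (Vis ω) M j y + mic ω) :
    c0 * Pr T.V (fun ω => S ω ∧ Hit ω) ≤
      16 * ∑ j ∈ Finset.Ico j0 j1, (A * W j * η j * Pr T.V S + W j * err j) +
        Ex T.V (fun ω => if S ω ∧ Hit ω then mic ω else 0) := by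
  -- the weights
  obtain ⟨w, hw⟩ : ∃ w : ℕ → Conf → Pt → ℝ, w = fun j ω y =>
    if S ω then wJ (OE T (τ.E ω)) (U ω) M j y else 0 := ⟨_, rfl⟩
  have hwm : ∀ j, MeasS τ (w j) := by
    intro j
    constructor
    · intro ω hω ω' hω' he
      have e1 := hS.onE ω hω ω' hω' he
      have e2 := hUm.onE ω hω ω' hω' he
      have e3 : τ.E ω' = τ.E ω := Stop.E_onE hω hω' he
      rw [hw]
      funext y
      simp only [e1, e2, e3]
    · intro ω hω ω' hω' he
      have e1 := hS.uns ω hω ω' hω' he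
      have e2 := hUm.uns ω hω ω' hω' he
      have e3 : τ.E ω' = τ.E ω := τ.E_uns hω hω' he
      rw [hw]
      funext y
      simp only [e1, e2, e3]
  have hw0 : ∀ j ω y, 0 ≤ w j ω y := by
    intro j ω y
    rw [hw]
    simp only
    split_ifs
    · exact wJ_nonneg (hU0 ω) _ _ _
    · exact le_rfl
  -- one layer
  have hone : ∀ j, j0 ≤ j → j < j1 →
      Ex T.V (fun ω => if S ω ∧ Hit ω then ∑ y ∈ B,
        U ω y * psiJ (OE T (τ.E ω)) (Vis ω) M j y else 0) ≤ A * W j * η j * Pr T.V S + W j * err j := by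
    intro j hj0 hj1
    have key := Ex_weights (hP j) (f := fun ω y => if vis ω y (2 ^ j) then (1 : ℝ) else 0)
      (g := G) (A := A) (err := err j) (hVB j hj0 hj1) (hwm j) (hw0 j) (hW0 j) (B := B)
      (fun ω hω => by
        by_cases hs : S ω
        · simp only [hw, hs, if_true]
          exact hW j hj0 hj1 ω hω hs
        · simp only [hw, hs, if_false, Finset.sum_const_zero]
          exact hW0 j)
      (fun ω hω y hy hne => by
        by_cases hs : S ω
        · simp only [hw, hs, if_true] at hne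
          unfold wJ at hne
          by_cases hc : M * 2 ^ j ≤ dF (OE T (τ.E ω)) y ∧ dF (OE T (τ.E ω)) y ≤ 5 * M * 2 ^ j
          · rw [if_pos hc] at hne
            exact hPw j hj0 hj1 ω hω hs y hy (fun h0 => hne (by rw [h0, mul_zero])) hc.1 hc.2
          · rw [if_neg hc] at hne
            exact absurd rfl hne
        · simp only [hw, hs, if_false] at hne
          exact absurd rfl hne)
    have hL : Ex T.V (fun ω => if S ω ∧ Hit ω then ∑ y ∈ B,
        U ω y * psiJ (OE T (τ.E ω)) (Vis ω) M j y else 0) ≤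
        Ex T.V (fun ω => ∑ y ∈ B, w j ω y * (if vis ω y (2 ^ j) then (1 : ℝ) else 0)) := by
      refine H12.Ex_mono fun ω hω => ?_
      by_cases hs : S ω ∧ Hit ω
      · rw [if_pos hs]
        refine Finset.sum_le_sum fun y _ => ?_
        rw [mul_psiJ]
        have e : w j ω y = wJ (OE T (τ.E ω)) (U ω) M j y := by
          rw [hw]
          simp only [hs.1, if_true]
        rw [e]
        refine mul_le_mul_of_nonneg_left ?_ (wJ_nonneg (hU0 ω) _ _ _)
        by_cases hv : ∃ v ∈ Vis ω, dn y v ≤ 2 ^ j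
        · rw [if_pos hv, if_pos (hvis ω hω y (2 ^ j) hv)]
        · rw [if_neg hv]
          split_ifs <;> norm_num
      · rw [if_neg hs]
        refine Finset.sum_nonneg fun y _ => mul_nonneg (hw0 j ω y) ?_
        split_ifs <;> norm_num
    have hR : Ex T.V (fun ω => ∑ y ∈ B, w j ω y * G ω y) ≤ W j * η j * Pr T.V S := by
      have e : W j * η j * Pr T.V S = Ex T.V (fun ω => W j * η j * (if S ω then (1 : ℝ) else 0)) := by
        rw [H12.Ex_mul, E.Pr_eq_avg, Ex_eq_avg]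
      rw [e]
      refine H12.Ex_mono fun ω hω => ?_
      by_cases hs : S ω
      · rw [if_pos hs, mul_one]
        calc ∑ y ∈ B, w j ω y * G ω y ≤ ∑ y ∈ B, w j ω y * η j := by
              refine Finset.sum_le_sum fun y hy => ?_
              by_cases hne : w j ω y = 0
              · rw [hne]; simp
              · refine mul_le_mul_of_nonneg_left ?_ (hw0 j ω y)
                simp only [hw, hs, if_true] at hne
                unfold wJ at hne
                by_cases hc : M * 2 ^ j ≤ dF (OE T (τ.E ω)) y ∧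
                    dF (OE T (τ.E ω)) y ≤ 5 * M * 2 ^ j
                · rw [if_pos hc] at hne
                  exact hG j hj0 hj1 ω hω hs y hy (fun h0 => hne (by rw [h0, mul_zero])) hc.2
                · rw [if_neg hc] at hne
                  exact absurd rfl hne
          _ = (∑ y ∈ B, w j ω y) * η j := by rw [Finset.sum_mul]
          _ ≤ W j * η j := by
              refine mul_le_mul_of_nonneg_right ?_ (hη j)
              simp only [hw, hs, if_true]
              exact hW j hj0 hj1 ω hω hs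
      · rw [if_neg hs, mul_zero]
        refine le_of_eq (Finset.sum_eq_zero fun y _ => ?_)
        simp only [hw, hs, if_false, zero_mul]
    have h5 := mul_le_mul_of_nonneg_left hR hA
    calc _ ≤ _ := hL
      _ ≤ _ := key
      _ ≤ A * (W j * η j * Pr T.V S) + W j * err j := by linarith
      _ = _ := by ring
  -- the sum
  have e0 : c0 * Pr T.V (fun ω => S ω ∧ Hit ω) =
      Ex T.V (fun ω => c0 * (if S ω ∧ Hit ω then (1 : ℝ) else 0)) := by
    rw [H12.Ex_mul, E.Pr_eq_avg, Ex_eq_avg]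
  rw [e0]
  have h1 : Ex T.V (fun ω => c0 * (if S ω ∧ Hit ω then (1 : ℝ) else 0)) ≤
      Ex T.V (fun ω => 16 * (∑ j ∈ Finset.Ico j0 j1, (if S ω ∧ Hit ω then ∑ y ∈ B,
        U ω y * psiJ (OE T (τ.E ω)) (Vis ω) M j y else 0)) +
        (if S ω ∧ Hit ω then mic ω else 0)) := by
    refine H12.Ex_mono fun ω hω => ?_
    by_cases hs : S ω ∧ Hit ω
    · simp only [hs, and_self, if_true, mul_one]
      exact hdet ω hω hs.1 hs.2
    · simp only [hs, if_false, mul_zero, Finset.sum_const_zero, add_zero, le_refl]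
  refine h1.trans ?_
  rw [H12.Ex_add, H12.Ex_mul, H12.Ex_sum]
  have h2 : ∑ j ∈ Finset.Ico j0 j1, Ex T.V (fun ω => if S ω ∧ Hit ω then ∑ y ∈ B,
        U ω y * psiJ (OE T (τ.E ω)) (Vis ω) M j y else 0) ≤
      ∑ j ∈ Finset.Ico j0 j1, (A * W j * η j * Pr T.V S + W j * err j) :=
    Finset.sum_le_sum fun j hj => hone j (Finset.mem_Ico.1 hj).1 (Finset.mem_Ico.1 hj).2
  linarith

end Vale.Agent.P155.NT733
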