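import Vale.Agent.P155.NT733.OPAbs
import Vale.Agent.P155.NT743.FMStop
import Vale.Agent.P155.NT905.Step
import Vale.Agent.P155.NT862.Sep
import Vale.Agent.P155.NT276.Props

/-!
# P155, NT, OP1: exact statements (visit bound, micro bound, one-point estimate)
-/

namespace Vale.Agent.P155.NT733

open Vale.Agent.P155 Finset T802 T862 NT G45 J NT905 S743 NT743 NT276 NT802

/-- harmonic measure of the side `b` at the beginning of the excursion `k` (`b = true`: inner side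
`H`, `b = false`: outer side `1 - H`) -/
noncomputable def Gb (T : Temp) (xS : ℤ) (q : Pt) (r k : ℕ) (b : Bool) (ω : Conf) (y : Pt) : ℝ :=
  if b then (tE T.V xS q r k).toStop.Hf ω y else 1 - (tE T.V xS q r k).toStop.Hf ω y

/-- the excursion `k` visits `box x n` -/
def VisN (T : Temp) (xS : ℤ) (ω : Conf) (q : Pt) (r k : ℕ) (x : Pt) (n : ℕ) : Prop :=
  ∃ m, eN T xS ω q r k ≤ m ∧ m < xN T xS ω q r k ∧ gN T xS ω m ∈ box x n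

open Classical in
/-- **VB**, in the form used by OP1: measurable event, measurable centre `x`, deterministic scale
`n`, `M n ≤ dist(x, explored) ≤ 5 M n`. -/
def VBP : Prop :=
  ∃ M : ℕ, 2 ≤ M ∧ ∀ c a0 : ℝ, 0 < c → 0 < a0 → ∃ A : ℝ, 0 ≤ A ∧ ∃ β : ℝ, 0 < β ∧ ∃ C : ℝ, 0 ≤ C ∧
  ∃ R0 : ℕ, ∀ R : ℕ, R0 ≤ R → ∀ T : Temp, Skel.Fits T R → ∀ (xS : ℤ) (q : Pt) (r k n : ℕ),
  c * R ≤ r → r ≤ R → (16 * r : ℤ) ≤ |q.1 - xS| → (R : ℝ) ^ a0 ≤ n → n ≤ R → ∀ (b : Bool)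
  (S : Conf → Prop) (x : Conf → Pt), MeasS (tE T.V xS q r k).toStop S →
  MeasS (tE T.V xS q r k).toStop x →
  (∀ ω ∈ DD T.V, S ω → eN T xS ω q r k < Tm.M T.V xS ω ∧ dn q (x ω) ≤ 2 * r ∧
    M * n ≤ dF (ON T xS ω q r k) (x ω) ∧ dF (ON T xS ω q r k) (x ω) ≤ 5 * M * n) →
  Ex T.V (fun ω => if S ω then (if VisN T xS ω q r k (x ω) n then (1 : ℝ) else 0) else 0) ≤
    A * Ex T.V (fun ω => if S ω then Gb T xS q r k b ω (x ω) else 0) +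
      C * ((R : ℝ) ^ (-β) + ((n : ℝ) / R) ^ β)

open Classical in
/-- **MIC**: the walk from the standard bump at `x` does not see the path in the layer next to the
explored set. -/
def MicP : Prop :=
  ∃ am : ℝ, 0 < am ∧ ∀ c0 a β : ℝ, 0 < c0 → 0 < a → a ≤ am → 0 < β → ∃ c : ℝ, 0 < c ∧ ∃ C : ℝ,
  0 ≤ C ∧ ∃ R0 : ℕ, ∀ R : ℕ, R0 ≤ R → ∀ T : Temp, Skel.Fits T R → ∀ κ s : ℕ, c0 * R ≤ κ → κ ≤ R →
  s = ⌈(R : ℝ) ^ a⌉₊ → ∀ (xS : ℤ) (τ : Stop T.V xS) (S : Conf → Prop) (x : Conf → Pt)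
  (Vis Reg : Conf → Set Pt),
  (∀ ω ∈ DD T.V, S ω → τ.New ω ∧ (∀ z, ∃ v ∈ τ.L ω, c0 * R ≤ dn z v) ∧
    κ ≤ dF (OE T (τ.E ω)) (x ω) ∧ (∀ v ∈ Vis ω, v ∈ τ.L ω ∧ v ∉ τ.E ω) ∧
    ∀ y ∈ Reg ω, c0 * R ≤ ((|y.1 - xS| : ℤ) : ℝ)) →
  Ex T.V (fun ω => if S ω then
    (∑ y ∈ (oe_finite T (τ.E ω)).toFinset, (if y ∈ Reg ω ∧ ∃ v ∈ Vis ω, dn y v ≤ s ^ 2 then
      |gL T τ.E (fun ω => bump κ (x ω)) s ω y| else 0) +
      2 * (8 / (s : ℝ)) ^ β * ∑ y ∈ (oe_finite T (τ.E ω)).toFinset,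
        |gL T τ.E (fun ω => bump κ (x ω)) s ω y|) else 0) ≤ C * (R : ℝ) ^ (-c)

end Vale.Agent.P155.NT733
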