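import Vale.Agent.P155.NT733.OPDef

/-!
# P155, NT, OP1: the mesoscopic micro bound (all scales `κ ≥ R^a1`)
-/

namespace Vale.Agent.P155.NT733

open Vale.Agent.P155 Finset T802 T862 NT G45 J NT905 S743 NT743 NT276 NT802

open Classical in
/-- **MIC2**: the walk from the standard bump of scale `κ` at `x` (`κ ≤ dist(x, explored)`,
`R^a1 ≤ κ`) does not see the path in the part of the layer next to the explored set which lies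
in `box x N`, `N ≤ κ^(1+e)`, away from the line, the polygon and the tip.  No measurability of
`S`, `x`, `Vis`, `Reg` is needed (`NBad` is uniform; union over the centres in `box 0 (8R)`). -/
def MicP2 : Prop :=
  ∃ e0 : ℝ, 0 < e0 ∧ ∀ e a1 : ℝ, 0 < e → e ≤ e0 → 0 < a1 → ∃ am : ℝ, 0 < am ∧
  ∀ c0 a β : ℝ, 0 < c0 → 0 < a → a ≤ am → 0 < β → ∃ c : ℝ, 0 < c ∧ ∃ C : ℝ, 0 ≤ C ∧
  ∃ R0 : ℕ, ∀ R : ℕ, R0 ≤ R → ∀ T : Temp, Skel.Fits T R → ∀ κ N s : ℕ,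
  (R : ℝ) ^ a1 ≤ κ → κ ≤ N → (N : ℝ) ≤ (κ : ℝ) ^ (1 + e) → N ≤ R →
  s = ⌈(R : ℝ) ^ a⌉₊ → ∀ (xS : ℤ) (τ : Stop T.V xS) (S : Conf → Prop) (x : Conf → Pt)
  (Vis Reg : Conf → Set Pt),
  (∀ ω ∈ DD T.V, S ω → τ.New ω ∧ (∀ z, ∃ v ∈ τ.L ω, c0 * R ≤ dn z v) ∧
    κ ≤ dF (OE T (τ.E ω)) (x ω) ∧ (∀ v ∈ Vis ω, v ∈ τ.L ω ∧ v ∉ τ.E ω) ∧
    ∀ y ∈ Reg ω, dn (x ω) y ≤ N ∧ c0 * R ≤ ((|y.1 - xS| : ℤ) : ℝ) ∧
      c0 * R ≤ dF T.faceSet y ∧ c0 * R ≤ dn y (go ω (xS, τ.t ω) (τ.i ω + 1))) →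
  Ex T.V (fun ω => if S ω then
    (∑ y ∈ (oe_finite T (τ.E ω)).toFinset, (if y ∈ Reg ω ∧ ∃ v ∈ Vis ω, dn y v ≤ s ^ 2 then
      |gL T τ.E (fun ω => bump κ (x ω)) s ω y| else 0) +
      2 * (8 / (s : ℝ)) ^ β * ∑ y ∈ (oe_finite T (τ.E ω)).toFinset,
        |gL T τ.E (fun ω => bump κ (x ω)) s ω y|) else 0) ≤ C * (R : ℝ) ^ (-c)

end Vale.Agent.P155.NT733
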