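import Vale.Agent.P155.NT733.OPPot
import Vale.Agent.P155.NT862.Sep

/-!
# P155, NT, OP1: the deterministic inequality
-/

namespace Vale.Agent.P155.NT733

open Vale.Agent.P155 Finset T802 T862 NT G45 J NT862 S743

/-- the region of the Green function -/
def Ox (T : Temp) (E : Set Pt) (x : Pt) (N : ℕ) : Set Pt := OE T E ∩ {y | dn x y < 3 * N + 1}

theorem Ox_sub (T : Temp) (E : Set Pt) (x : Pt) (N : ℕ) : Ox T E x N ⊆ OE T E := fun _ h => h.1

open Classical in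
/-- the micro term -/
noncomputable def micS (T : Temp) (E Vis O' : Set Pt) (x : Pt) (κ s : ℕ) (β : ℝ) : ℝ :=
  ∑ y ∈ (oe_finite T E).toFinset, (if y ∈ O' ∧ ∃ v ∈ Vis, dn y v ≤ s ^ 2 then
    |fL (OE T E) (bump κ x) (cutf (OE T E) s) (pot (OE T E) (bump κ x)) y| else 0) +
    2 * (8 / (s : ℝ)) ^ β * ∑ y ∈ (oe_finite T E).toFinset,
      |fL (OE T E) (bump κ x) (cutf (OE T E) s) (pot (OE T E) (bump κ x)) y|

open Classical in
/-- **deterministic part of OP1** -/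
theorem det_op {β : ℝ} (hβ : 0 < β) (hSD : SupDecay 2 β) : ∃ c0 : ℝ, 0 < c0 ∧
    ∀ {T : Temp} {E Vis O' : Set Pt} {z v₁ x : Pt} {D N κ s M j0 j1 : ℕ} {π : Pt → ZMod 2},
    CPr (OE T E) → (∀ u ∈ SS T E, ∀ w ∈ SS T E, LR T E u w) → Lab T E v₁ z D π →
    Linked (Nw T E (E ∪ Vis) z D) v₁ z →
    (∀ f ∈ O', f ∈ OE T E ∧ D + 1 < dn z f ∧ dn x f ≤ N) →
    (∀ f, dn x f < κ → f ∈ O') → dF (OE T E) x ≤ 2 * N → 5 ≤ κ / 4 →
    (∀ U₀ U₁ : Pt → ℝ, IsPot O' (bdl T E π 0) U₀ → IsPot O' (bdl T E π 1) U₁ →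
      1 / 32 ≤ U₀ x ∧ 1 / 32 ≤ U₁ x) →
    8 ≤ s → 2 ≤ M → 1 ≤ j0 → 2 * M * 2 ^ j0 ≤ s + 1 → N < 2 ^ j1 →
    ∀ (B : Finset Pt), (∀ y ∈ Ox T E x N, y ∈ B) →
    c0 ≤ 16 * ∑ j ∈ Finset.Ico j0 j1, ∑ y ∈ B,
        pot (Ox T E x N) (bump (κ / 4) x) y * psiJ (OE T E) Vis M j y +
      micS T E Vis O' x (κ / 4) s β := by
  obtain ⟨A, hA, hHar⟩ := harnack hβ (by norm_num) hSD
  refine ⟨1 / (32 * A), by positivity, ?_⟩
  intro T E Vis O' z v₁ x D N κ s M j0 j1 π hCP hconn hπ hnew hO'1 hin hxN hκ5 hU hs hM hj0 hsM hj1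
    B hB
  have hO : (OE T E).Finite := oe_finite T E
  have hO'' : (Ox T E x N).Finite := hO.subset (Ox_sub _ _ _ _)
  have hO's : O' ⊆ OE T E := fun f hf => (hO'1 f hf).1
  have hO' : O'.Finite := hO.subset hO's
  have hO'x : O' ⊆ Ox T E x N := fun f hf => ⟨hO's hf, by
    show dn x f < 3 * N + 1
    have := (hO'1 f hf).2.2
    omega⟩
  obtain ⟨E', hE'⟩ : ∃ E' : Set Pt, E' = E ∪ Vis := ⟨_, rfl⟩
  rw [← hE'] at hnew
  have hEE' : E ⊆ E' := by rw [hE']; exact Set.subset_union_left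
  have hA' : (O' ∩ OE T E').Finite := hO'.subset Set.inter_subset_left
  obtain ⟨U₀, hU₀⟩ := exists_pot hO' (bdl T E π 0)
  obtain ⟨U₁, hU₁⟩ := exists_pot hO' (bdl T E π 1)
  obtain ⟨u, hu⟩ := exists_pot hA' (hitb T O' E')
  have hmin := sep_pot hEE' hconn hπ hnew (fun f hf => ⟨(hO'1 f hf).1, (hO'1 f hf).2.1⟩) hO' hU₀
    hU₁ hu
  obtain ⟨b0, b1⟩ := hU U₀ U₁ hU₀ hU₁
  -- Harnack
  have hlow : ∀ (c : ZMod 2) (U : Pt → ℝ), IsPot O' (bdl T E π c) U → 1 / 32 ≤ U x →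
      ∀ y, dn x y ≤ κ / 4 → 1 / (32 * A) ≤ U y := by
    intro c U hUc hx y hy
    have h := hHar x (κ / 4) U (fun y _ => hUc.nonneg hO' (bdl_nonneg π c) y)
      (fun y hy => hUc.1 y (hin y (by omega))) x y (by rw [dn_self]; omega) hy
    rw [div_le_iff₀ (by positivity)]
    nlinarith
  have hulow : ∀ y, dn x y ≤ κ / 4 → 1 / (32 * A) ≤ u y := fun y hy =>
    (le_min (hlow 0 U₀ hU₀ b0 y hy) (hlow 1 U₁ hU₁ b1 y hy)).trans (hmin y)
  have hu0 : ∀ y, 0 ≤ u y := hu.nonneg hA' (fun g => by unfold hitb; split_ifs <;> norm_num)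
  have hu1 : ∀ y, u y ≤ 1 := hu.le_one hA' (fun g => by unfold hitb; split_ifs <;> norm_num)
  have hoff : ∀ y, y ∉ O' → u y = 0 := by
    intro y hy
    rw [hu.2 y (fun h => hy h.1)]
    unfold hitb
    rw [if_neg (fun h => hy h.1)]
  have hharm : ∀ y ∈ O', lap u y = 0 ∨ (u y = 1 ∧ Touch Vis y) := by
    intro y hy
    by_cases hyE : y ∈ OE T E'
    · exact Or.inl (hu.1 y ⟨hy, hyE⟩)
    · right
      refine ⟨?_, ?_⟩
      · rw [hu.2 y (fun h => hyE h.2)]
        unfold hitb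
        rw [if_pos ⟨hy, hyE⟩]
      · have hyO := hO's hy
        have ht : Touch E' y := by
          by_contra hc
          exact hyE ⟨hyO.1, hc⟩
        obtain ⟨v, hv, hvE⟩ := ht
        refine ⟨v, hv, ?_⟩
        rw [hE'] at hvE
        rcases hvE with h | h
        · exact absurd ⟨v, hv, h⟩ hyO.2
        · exact h
  have hdF : ∀ y ∈ O', dF (OE T E) y ≤ 3 * N := by
    intro y hy
    have h1 := dF_lip (exists_notMem hO) y x
    rw [dn_comm y x] at h1
    have := (hO'1 y hy).2.2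
    omega
  have hφ0 := bump_nonneg (κ / 4) x
  have hφs : ∀ y, κ / 4 < dn x y → bump (κ / 4) x y = 0 := by
    intro y hy
    by_contra hc
    have := G45.mem_box.1 (bump_supp hκ5 hc)
    omega
  have hinO'' : ∀ y, dn x y ≤ κ / 4 → y ∈ Ox T E x N := fun y hy =>
    hO'x (hin y (by omega))
  have key := hit_sum hβ hSD (M := M) (s := s) (j0 := j0) (j1 := j1) (Vis := Vis) hO hCP
    hO'x (Ox_sub T E x N) hO'' (fun y hy y' hyy => ?_) hu0 hu1
    hoff hharm hs hM hj0 hsM (fun y hy => ?_) (cutf_isCut (exists_notMem hO) hs le_rfl)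
    (φ := bump (κ / 4) x) (U := pot (OE T E) (bump (κ / 4) x))
    (U'' := pot (Ox T E x N) (bump (κ / 4) x)) hφ0 (fun y hy => ?_) (pot_spec hO _)
    (pot_spec hO'' _)
  · -- lower bound of the left side
    have hL : 1 / (32 * A) ≤ ∑ y ∈ hO''.toFinset, bump (κ / 4) x y * u y := by
      have hsum : ∑ y ∈ hO''.toFinset, bump (κ / 4) x y = 1 := by
        refine bump_sum hκ5 x ?_
        intro y hy
        rw [Set.Finite.mem_toFinset]
        exact hinO'' y (G45.mem_box.1 hy)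
      calc 1 / (32 * A) = (∑ y ∈ hO''.toFinset, bump (κ / 4) x y) * (1 / (32 * A)) := by
            rw [hsum, one_mul]
        _ = ∑ y ∈ hO''.toFinset, bump (κ / 4) x y * (1 / (32 * A)) := by rw [Finset.sum_mul]
        _ ≤ _ := by
            refine Finset.sum_le_sum fun y _ => ?_
            by_cases h : dn x y ≤ κ / 4
            · exact mul_le_mul_of_nonneg_left (hulow y h) (hφ0 y)
            · rw [hφs y (by omega)]; simp
    have hR : ∀ j, ∑ y ∈ hO''.toFinset, pot (Ox T E x N) (bump (κ / 4) x) y *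
        psiJ (OE T E) Vis M j y = ∑ y ∈ B, pot (Ox T E x N) (bump (κ / 4) x) y *
        psiJ (OE T E) Vis M j y := by
      intro j
      refine Finset.sum_subset ?_ ?_
      · intro y hy
        exact hB y (by simpa using hy)
      · intro y _ hy
        rw [(pot_spec hO'' (bump (κ / 4) x)).off y (by simpa using hy), zero_mul]
    refine hL.trans (key.trans (le_of_eq ?_))
    rw [Finset.sum_congr rfl fun j _ => hR j]
    rfl
  · -- near
    have h1 := hdF y hy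
    have hO1 := hO's hy
    refine ⟨mem_of_lt_dF (x := y) ?_, ?_⟩
    · have := dF_pos (exists_notMem hO) hO1
      omega
    · show dn x y' < 3 * N + 1
      have h3 := dn_tri x y y'
      have := (hO'1 y hy).2.2
      omega
  · have h1 := hdF y hy
    have h2 : 4 * 2 ^ j1 ≤ 2 * M * 2 ^ j1 := Nat.mul_le_mul_right _ (by omega)
    omega
  · by_contra hc
    have := G45.mem_box.1 (bump_supp hκ5 hc)
    exact hy (hinO'' y this)

end Vale.Agent.P155.NT733
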