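import Vale.Agent.P155.NT733.OP

/-!
# P155, NT, OP1: assembly
-/

namespace Vale.Agent.P155.NT733

open Vale.Agent.P155 Finset T802 T862 NT G45 J NT862 S743 NT905 NT802 NT276 NT211 NT426

open Classical in
/-- **one side, with the numbers** -/
theorem op1_side (hV : NT34.VBP2) : ∀ (K : ℕ) (c δ θ a1 : ℝ), 0 < c → 0 < δ → 0 < θ → 0 < a1 →
    40 ≤ K → ∃ β0 β1 cm : ℝ, 0 < β0 ∧ 0 < β1 ∧ 0 < cm ∧ ∃ C : ℝ, 0 ≤ C ∧
    ∃ R0 : ℕ, 1 ≤ R0 ∧ ∀ R : ℕ, R0 ≤ R → ∀ T : Temp, Skel.Fits T R →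
    ∀ (xS : ℤ) (q : Pt) (r r1 k κ D d : ℕ) (b : Bool),
    c * R ≤ r → r ≤ R → 1 ≤ r → (16 * r : ℤ) ≤ |q.1 - xS| → r1 + 3 ≤ 2 * r →
    (R : ℝ) ^ a1 ≤ κ → 1 ≤ d → 8 * (K * κ) ≤ d → 8 * ((K * κ : ℕ) : ℝ) ≤ δ * R →
    8 * ((K * κ : ℕ) : ℝ) ≤ θ * R → 8 * ((K * κ : ℕ) : ℝ) ≤ c * R → 8 * (K * κ) ≤ R →
    ∀ (S : Conf → Prop) (x z : Conf → Pt) (π : Conf → Pt → ZMod 2) (O' : Conf → Set Pt),
    MeasS (tE T.V xS q r k).toStop S → MeasS (tE T.V xS q r k).toStop x →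
    (∀ ω ∈ DD T.V, S ω → eN T xS ω q r k < Tm.M T.V xS ω ∧ SepN T xS ω q r k r1 d ∧
      κ ≤ dF (OE T ((tE T.V xS q r k).toStop.E ω)) (x ω) ∧
      dF (OE T ((tE T.V xS q r k).toStop.E ω)) (x ω) ≤ 5 * κ ∧
      (dn q (x ω) : ℝ) + δ * R ≤ r1 ∧ θ * R ≤ dF T.faceSet (x ω) ∧
      Lab T ((tE T.V xS q r k).toStop.E ω) (gN T xS ω (eN T xS ω q r k + 1)) (z ω) D (π ω) ∧
      (∀ f ∈ O' ω, f ∈ OE T ((tE T.V xS q r k).toStop.E ω) ∧ D + 1 < dn (z ω) f ∧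
        dn (x ω) f ≤ K * κ) ∧
      (∀ f, dn (x ω) f < κ → f ∈ O' ω) ∧
      (∀ U₀ U₁ : Pt → ℝ, IsPot (O' ω) (bdl T ((tE T.V xS q r k).toStop.E ω) (π ω) 0) U₀ →
        IsPot (O' ω) (bdl T ((tE T.V xS q r k).toStop.E ω) (π ω) 1) U₁ →
        1 / 32 ≤ U₀ (x ω) ∧ 1 / 32 ≤ U₁ (x ω)) ∧
      Seen (OE T ((tE T.V xS q r k).toStop.E ω)) (SideP T xS q r k (!b) ω) q r1
        (3 * (K * κ)) (x ω)) →
    Pr T.V (fun ω => S ω ∧ ∃ m, eN T xS ω q r k < m ∧ m < xN T xS ω q r k ∧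
      gN T xS ω m ∈ FB T ((tE T.V xS q r k).toStop.E ω) (z ω) D) ≤
      C * (((κ : ℝ) / d) ^ β0 * Pr T.V S + ((κ : ℝ) / R) ^ β0 + ((κ : ℝ) / R) ^ β1 +
        (R : ℝ) ^ (-cm)) := by
  obtain ⟨β0, hβ0, hSD, -⟩ := G1.decay
  obtain ⟨c0, hc0, D0, hD0, hone⟩ := op1_b hβ0 hSD
  obtain ⟨ε, hε, hmic⟩ := NT801.micG
  obtain ⟨M, hM, hV⟩ := hV
  intro K c δ θ a1 hc hδ hθ ha1 hK
  obtain ⟨am, ham, hmic⟩ := hmic (a1 / 2) (half_pos ha1)
  obtain ⟨A, hA, β1, hβ1, C1, hC1, R1, hV⟩ := hV c (am / 2) (θ / 2) hc (half_pos ham) (half_pos hθ)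
  obtain ⟨cm, hcm, Cm, hCm, R2, hmic⟩ := hmic (min c (θ / 2)) am β0 K (lt_min hc (half_pos hθ))
    ham le_rfl hβ0
  obtain ⟨R3, hR3, hsc⟩ := op_scales ham ha1 hε M K (by omega)
  obtain ⟨G0, hG0, hgeo0⟩ := geo_sum hβ0
  obtain ⟨G1, hG1, hgeo1⟩ := geo_sum hβ1
  obtain ⟨W, hW⟩ : ∃ W : ℝ, W = D0 * (M : ℝ) ^ 2 := ⟨_, rfl⟩
  have hW0 : 0 ≤ W := by rw [hW]; positivity
  obtain ⟨Ka, hKa⟩ : ∃ Ka : ℝ, Ka = G0 * (192 * M * K) ^ β0 := ⟨_, rfl⟩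
  obtain ⟨Kb, hKb⟩ : ∃ Kb : ℝ, Kb = G0 * (192 * M * K / δ) ^ β0 := ⟨_, rfl⟩
  obtain ⟨Ke, hKe⟩ : ∃ Ke : ℝ, Ke = 2 * C1 * G1 * (2 * K) ^ β1 := ⟨_, rfl⟩
  have hKa0 : 0 ≤ Ka := by rw [hKa]; positivity
  have hKb0 : 0 ≤ Kb := by rw [hKb]; positivity
  have hKe0 : 0 ≤ Ke := by rw [hKe]; positivity
  refine ⟨β0, β1, cm, hβ0, hβ1, hcm,
    c0⁻¹ * (32 * A * W * Ka + 32 * A * W * Kb + 16 * W * Ke + Cm), by positivity,
    max (max R1 R2) R3, hR3.trans (le_max_right _ _), ?_⟩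
  intro R hR T hfit xS q r r1 k κ D d b hcr hrR hr hx hr1 hκa hd hNd hNδ hNθ hNc hNR S x z π O'
    hSm hxm hS
  have hRR1 : R1 ≤ R := ((le_max_left _ _).trans (le_max_left _ _)).trans hR
  have hRR2 : R2 ≤ R := ((le_max_right _ _).trans (le_max_left _ _)).trans hR
  have hRR3 : R3 ≤ R := (le_max_right _ _).trans hR
  have hR1 : 1 ≤ R := hR3.trans hRR3
  have hR0 : (0 : ℝ) < R := by exact_mod_cast hR1
  obtain ⟨N, hN⟩ : ∃ N, N = K * κ := ⟨_, rfl⟩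
  rw [← hN] at hNd hNδ hNθ hNc hNR
  obtain ⟨s, hs⟩ : ∃ s, s = ⌈(R : ℝ) ^ am⌉₊ := ⟨_, rfl⟩
  obtain ⟨hs8, ⟨j0, hj0, hj0s, hj0R⟩, hκs⟩ := hsc R hRR3
  rw [← hs] at hs8 hj0s
  obtain ⟨h20, hκ4, hNκ⟩ := hκs κ hκa
  rw [← hN] at hNκ
  have hκN : κ ≤ N := by rw [hN]; exact Nat.le_mul_of_pos_left _ (by omega)
  have hN1 : 1 ≤ N := by omega
  obtain ⟨j1, hj1, hj1N, -⟩ := exists_j1 hN1
  -- the length `L`
  obtain ⟨L, hL⟩ : ∃ L, L = min (d / 8) ⌊δ * R / 8⌋₊ := ⟨_, rfl⟩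
  have hLd : L ≤ d / 8 := by rw [hL]; exact min_le_left _ _
  have hLδ : (L : ℝ) ≤ δ * R / 8 := by
    have h1 : L ≤ ⌊δ * R / 8⌋₊ := by rw [hL]; exact min_le_right _ _
    exact (show (L : ℝ) ≤ ((⌊δ * R / 8⌋₊ : ℕ) : ℝ) by exact_mod_cast h1).trans
      (Nat.floor_le (by positivity))
  have hd0 : (0 : ℝ) < d := by exact_mod_cast hd
  have hLinv : ((L : ℝ) + 1)⁻¹ ≤ 8 / d + 8 / (δ * R) := by
    have hpos1 : (0 : ℝ) ≤ 8 / d := by positivity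
    have hpos2 : (0 : ℝ) ≤ 8 / (δ * R) := by positivity
    rcases le_total (d / 8) ⌊δ * R / 8⌋₊ with h | h
    · have e : L = d / 8 := by rw [hL]; exact min_eq_left h
      have h1 : (d : ℝ) / 8 ≤ (L : ℝ) + 1 := by
        have : d ≤ 8 * (L + 1) := by omega
        have h2 : (d : ℝ) ≤ ((8 * (L + 1) : ℕ) : ℝ) := by exact_mod_cast this
        push_cast at h2
        linarith
      have h3 : ((L : ℝ) + 1)⁻¹ ≤ ((d : ℝ) / 8)⁻¹ := inv_anti₀ (by positivity) h1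
      rw [inv_div] at h3
      linarith
    · have e : L = ⌊δ * R / 8⌋₊ := by rw [hL]; exact min_eq_right h
      have h1 : δ * R / 8 ≤ (L : ℝ) + 1 := by
        rw [e]
        exact (Nat.lt_floor_add_one _).le
      have h3 : ((L : ℝ) + 1)⁻¹ ≤ (δ * R / 8)⁻¹ := inv_anti₀ (by positivity) h1
      rw [inv_div] at h3
      linarith
  -- distances
  have hdist : ∀ ω ∈ DD T.V, S ω → dn q (x ω) + 3 * N + 2 * L + 1 ≤ r1 := by
    intro ω hω hSω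
    obtain ⟨-, -, -, -, h5, -⟩ := hS ω hω hSω
    have hNr : (N : ℝ) ≤ δ * R / 8 := by linarith
    have h1 : (1 : ℝ) ≤ N := by exact_mod_cast hN1
    have : (dn q (x ω) : ℝ) + 3 * N + 2 * L + 1 ≤ r1 := by linarith
    exact_mod_cast this
  have hfne : ∃ p, p ∉ T.faceSet := by
    by_contra hcon
    push Not at hcon
    have h1 := A1.closedVerts_finite T
    have h2 : T.faceSet ⊆ T.closedVerts := fun f hf => A1.faceSet_sub_closedVerts hf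
    exact Set.infinite_univ ((h1.subset h2).subset fun f _ => hcon f)
  have hQ : ∀ ω ∈ DD T.V, S ω → ∀ y, dn (x ω) y ≤ 3 * N → θ / 2 * R ≤ dF T.faceSet y := by
    intro ω hω hSω y hy
    obtain ⟨-, -, -, -, -, h6, -⟩ := hS ω hω hSω
    have h1 := dF_lip hfne (x ω) y
    have h2 : (dF T.faceSet (x ω) : ℝ) ≤ dF T.faceSet y + 3 * N := by
      have : dF T.faceSet (x ω) ≤ dF T.faceSet y + 3 * N := by omega
      exact_mod_cast this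
    linarith
  -- the micro term
  have hmicb : Ex T.V (fun ω => if S ω then micS T ((tE T.V xS q r k).toStop.E ω)
      (VisS T xS q r k ω) (O' ω) (x ω) (κ / 4) s β0 else 0) ≤ Cm * (R : ℝ) ^ (-cm) := by
    have h1 := hmic R hRR2 T hfit (κ / 4) N s hκ4 (by omega) hNκ (by
      have : N ≤ R := by omega
      have hKR : R ≤ K * R := Nat.le_mul_of_pos_left _ (by omega)
      exact_mod_cast this.trans hKR) hs xS (tE T.V xS q r k).toStop S x (VisS T xS q r k) O' ?_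
    · exact h1
    · intro ω hω hSω
      obtain ⟨h1, h2, h3, h4, h5, h6, h7, h8, h9, h10, h11⟩ := hS ω hω hSω
      have hk := exc_lt h1
      refine ⟨tE_new hω hr hx hk, by omega, ?_, ?_, ?_⟩
      · have : 40 * (κ / 4) ≤ K * (κ / 4) := Nat.mul_le_mul_right _ hK
        omega
      · rintro v ⟨m, m1, m2, rfl⟩
        have := exc_vert hω hr hx m1 m2
        exact ⟨this.1, this.2.1⟩
      · intro y hy
        have hyN := (h8 y hy).2.2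
        rw [← hN] at hyN
        refine ⟨hyN, ?_, ?_⟩
        · -- distance to the line
          have hrc : c * R ≤ r := hcr
          have a1 := hdist ω hω hSω
          have a2 := dn_tri q (x ω) y
          have a3 : dn q y ≤ 2 * r := by omega
          have a4 := (G45.dn_le_iff (x := q) (v := y) (r := 2 * r)).1 a3
          have a5 : (r : ℤ) ≤ |y.1 - xS| := by
            have b1 := hx
            rw [le_abs] at b1 ⊢
            push_cast at a4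
            omega
          have a6 : ((r : ℤ) : ℝ) ≤ ((|y.1 - xS| : ℤ) : ℝ) := by exact_mod_cast a5
          have a7 : min c (θ / 2) * R ≤ c * R :=
            mul_le_mul_of_nonneg_right (min_le_left _ _) hR0.le
          have a8 : ((r : ℤ) : ℝ) = r := by norm_cast
          linarith
        · have a7 : min c (θ / 2) * R ≤ θ / 2 * R :=
            mul_le_mul_of_nonneg_right (min_le_right _ _) hR0.le
          exact a7.trans (hQ ω hω hSω y (by omega))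
  have key := hone T xS q r r1 k κ N D d L s M j0 j1 b S x z π O'
    (fun y => θ / 2 * R ≤ dF T.faceSet y) A
    (fun j => C1 * ((R : ℝ) ^ (-β1) + (((2 ^ j : ℕ) : ℝ) / R) ^ β1)) hr hx hr1 h20 hA hκN
    (by omega) hs8 hM hj0 hj0s hj1 hSm hxm (fun ω hω hSω => ?_) ?_
  · exact op_nums hβ0 hβ1 hA hW0 hC1 hG0 hG1 hc0 hCm hgeo0 hgeo1 hδ (by omega) hj1N hN hLinv hR1
      hKa hKb hKe (E.Pr_nonneg _ _) (E.Pr_le_one _ _) hmicb (by rw [hW]; exact key)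
  · obtain ⟨h1, h2, h3, h4, h5, h6, h7, h8, h9, h10, h11⟩ := hS ω hω hSω
    rw [← hN] at h8 h11
    have h40 : 40 * κ ≤ N := by rw [hN]; exact Nat.mul_le_mul_right _ hK
    exact ⟨h1, h2, by omega, hdist ω hω hSω, hQ ω hω hSω, h7, h8, h9, h10, h11⟩
  · -- the visit bound
    intro j hj hjj S' x' hS'm hx'm hS'
    have h2j : (R : ℝ) ^ (am / 2) ≤ ((2 ^ j : ℕ) : ℝ) := by
      refine hj0R.trans ?_
      exact_mod_cast Nat.pow_le_pow_right (by norm_num) hj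
    have h2R : 2 ^ j ≤ R := by
      have : 2 ^ j ≤ 2 ^ j1 := Nat.pow_le_pow_right (by norm_num) hjj.le
      omega
    refine hV R hRR1 T hfit xS q r k (2 ^ j) hcr hrR hx h2j h2R b S' x' hS'm hx'm ?_
    intro ω hω hSω
    obtain ⟨g1, ⟨g2, g3⟩, g4, g5⟩ := hS' ω hω hSω
    rw [exc_ON]
    exact ⟨(hS ω hω g1).1, g2, g3, g4, g5⟩

theorem op_fin {C X Y p p' P β β0 β1 cm : ℝ} {R : ℕ} (hC : 0 ≤ C) (hX : 0 ≤ X) (hX1 : X ≤ 1)
    (hY : 0 ≤ Y) (hY1 : Y ≤ 1) (hp : 0 ≤ p') (hpp : p' ≤ p) (h0 : β ≤ β0) (h1 : β ≤ β1)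
    (h2 : β ≤ cm) (hβ : 0 < β) (hR : 1 ≤ R)
    (h : P ≤ C * (X ^ β0 * p' + Y ^ β0 + Y ^ β1 + (R : ℝ) ^ (-cm))) :
    P ≤ 2 * C * (X ^ β * p + Y ^ β + (R : ℝ) ^ (-β)) := by
  have hR1 : (1 : ℝ) ≤ R := by exact_mod_cast hR
  have e1 : X ^ β0 ≤ X ^ β := by
    rcases hX.eq_or_lt with hx | hx
    · rw [← hx, Real.zero_rpow (by linarith), Real.zero_rpow (by linarith)]
    · exact Real.rpow_le_rpow_of_exponent_ge hx hX1 h0
  have e2 : Y ^ β0 ≤ Y ^ β ∧ Y ^ β1 ≤ Y ^ β := by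
    rcases hY.eq_or_lt with hx | hx
    · rw [← hx, Real.zero_rpow (by linarith), Real.zero_rpow (by linarith),
        Real.zero_rpow (by linarith)]
      exact ⟨le_rfl, le_rfl⟩
    · exact ⟨Real.rpow_le_rpow_of_exponent_ge hx hY1 h0,
        Real.rpow_le_rpow_of_exponent_ge hx hY1 h1⟩
  have e3 : (R : ℝ) ^ (-cm) ≤ (R : ℝ) ^ (-β) :=
    Real.rpow_le_rpow_of_exponent_le hR1 (by linarith)
  have a1 : X ^ β0 * p' ≤ X ^ β * p :=
    mul_le_mul e1 hpp hp (by positivity)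
  have a2 : 0 ≤ X ^ β0 * p' := by positivity
  have a3 : 0 ≤ (R : ℝ) ^ (-cm) := by positivity
  refine h.trans ?_
  calc C * (X ^ β0 * p' + Y ^ β0 + Y ^ β1 + (R : ℝ) ^ (-cm))
      ≤ C * (2 * (X ^ β * p + Y ^ β + (R : ℝ) ^ (-β))) := by
        refine mul_le_mul_of_nonneg_left ?_ hC
        linarith [e2.1, e2.2]
    _ = _ := by ring

/-- `OP1P` with `dF x ≤ A κ` -/
def OP1A (A : ℕ) : Prop :=
  ∀ (K : ℕ) (c δ θ a1 : ℝ), 0 < c → 0 < δ → 0 < θ → 0 < a1 → ∃ β : ℝ, 0 < β ∧ ∃ C : ℝ, 0 ≤ C ∧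
  ∃ R0 : ℕ, ∀ R : ℕ, R0 ≤ R → ∀ T : Temp, Skel.Fits T R → ∀ (xS : ℤ) (q : Pt) (r r1 k κ D d : ℕ),
  c * R ≤ r → r ≤ R → (16 * r : ℤ) ≤ |q.1 - xS| → r1 + 3 ≤ 2 * r → (R : ℝ) ^ a1 ≤ κ → 1 ≤ d →
  ∀ (S : Conf → Prop) (x z : Conf → Pt) (π : Conf → Pt → ZMod 2) (O' : Conf → Set Pt),
  MeasS (tE T.V xS q r k).toStop S → MeasS (tE T.V xS q r k).toStop x →
  (∀ ω ∈ DD T.V, S ω → eN T xS ω q r k < Tm.M T.V xS ω ∧ SepN T xS ω q r k r1 d ∧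
    κ ≤ dF (OE T ((tE T.V xS q r k).toStop.E ω)) (x ω) ∧
    dF (OE T ((tE T.V xS q r k).toStop.E ω)) (x ω) ≤ A * κ ∧
    (dn q (x ω) : ℝ) + δ * R ≤ r1 ∧ θ * R ≤ dF T.faceSet (x ω) ∧
    Lab T ((tE T.V xS q r k).toStop.E ω) (gN T xS ω (eN T xS ω q r k + 1)) (z ω) D (π ω) ∧
    (∀ f ∈ O' ω, f ∈ OE T ((tE T.V xS q r k).toStop.E ω) ∧ D + 1 < dn (z ω) f ∧
      dn (x ω) f ≤ K * κ) ∧
    (∀ f, dn (x ω) f < κ → f ∈ O' ω) ∧
    ∀ U₀ U₁ : Pt → ℝ, IsPot (O' ω) (bdl T ((tE T.V xS q r k).toStop.E ω) (π ω) 0) U₀ →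
      IsPot (O' ω) (bdl T ((tE T.V xS q r k).toStop.E ω) (π ω) 1) U₁ →
      1 / 32 ≤ U₀ (x ω) ∧ 1 / 32 ≤ U₁ (x ω)) →
  Pr T.V (fun ω => S ω ∧ ∃ m, eN T xS ω q r k < m ∧ m < xN T xS ω q r k ∧
    gN T xS ω m ∈ FB T ((tE T.V xS q r k).toStop.E ω) (z ω) D) ≤
    C * (((κ : ℝ) / d) ^ β * Pr T.V S + ((κ : ℝ) / R) ^ β + (R : ℝ) ^ (-β))

open Classical in
/-- **OP1: the one-point estimate at a fixed scale** -/
theorem op1_five (hV : NT34.VBP2) : OP1A 5 := by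
  intro K c δ θ a1 hc hδ hθ ha1
  obtain ⟨K', hK'⟩ : ∃ K' : ℕ, K' = max K 40 := ⟨_, rfl⟩
  have hK16 : 40 ≤ K' := by rw [hK']; exact le_max_right _ _
  have hKK : K ≤ K' := by rw [hK']; exact le_max_left _ _
  obtain ⟨β0, β1, cm, hβ0, hβ1, hcm, C, hC, R0, hR0, hside⟩ :=
    op1_side hV K' c δ θ a1 hc hδ hθ ha1 hK16
  obtain ⟨β, hβ⟩ : ∃ β : ℝ, β = min (min β0 β1) cm := ⟨_, rfl⟩
  have hβ' : 0 < β := by rw [hβ]; exact lt_min (lt_min hβ0 hβ1) hcm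
  have hb0 : β ≤ β0 := by rw [hβ]; exact (min_le_left _ _).trans (min_le_left _ _)
  have hb1 : β ≤ β1 := by rw [hβ]; exact (min_le_left _ _).trans (min_le_right _ _)
  have hb2 : β ≤ cm := by rw [hβ]; exact min_le_right _ _
  have hK0 : (0 : ℝ) < 8 * K' := by
    have : 0 < K' := by omega
    have : (0 : ℝ) < K' := by exact_mod_cast this
    linarith
  obtain ⟨lam, hlam⟩ : ∃ lam : ℝ, lam = min (min δ θ) (min c 1) / (8 * K') := ⟨_, rfl⟩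
  have hm0 : 0 < min (min δ θ) (min c 1) := lt_min (lt_min hδ hθ) (lt_min hc one_pos)
  have hlam0 : 0 < lam := by rw [hlam]; positivity
  refine ⟨β, hβ', 4 * C + (lam ^ β)⁻¹ + (8 * K') ^ β, by positivity, max R0 ⌈1 / c⌉₊, ?_⟩
  intro R hR T hfit xS q r r1 k κ D d hcr hrR hx hr1 hκa hd S x z π O' hSm hxm hS
  have hRR0 : R0 ≤ R := (le_max_left _ _).trans hR
  have hR1 : 1 ≤ R := hR0.trans hRR0
  have hRp : (0 : ℝ) < R := by exact_mod_cast hR1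
  have hr : 1 ≤ r := by
    have h1 : 1 / c ≤ R := (Nat.le_ceil _).trans (by exact_mod_cast (le_max_right _ _).trans hR)
    rw [div_le_iff₀ hc] at h1
    have : (1 : ℝ) ≤ r := by linarith
    exact_mod_cast this
  have hd0 : (0 : ℝ) < d := by exact_mod_cast hd
  set P := Pr T.V (fun ω => S ω ∧ ∃ m, eN T xS ω q r k < m ∧ m < xN T xS ω q r k ∧
    gN T xS ω m ∈ FB T ((tE T.V xS q r k).toStop.E ω) (z ω) D) with hP
  have hP1 : P ≤ 1 := E.Pr_le_one _ _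
  have hPS : P ≤ Pr T.V S := E.Pr_mono fun ω _ h => h.1
  have hPS0 : 0 ≤ Pr T.V S := E.Pr_nonneg _ _
  have X0 : 0 ≤ ((κ : ℝ) / d) ^ β := by positivity
  have Y0 : 0 ≤ ((κ : ℝ) / R) ^ β := by positivity
  have Z0 : 0 ≤ (R : ℝ) ^ (-β) := by positivity
  have L0 : 0 ≤ (lam ^ β)⁻¹ := by positivity
  have K0 : 0 ≤ (8 * (K' : ℝ)) ^ β := by positivity
  have T0 : 0 ≤ ((κ : ℝ) / d) ^ β * Pr T.V S + ((κ : ℝ) / R) ^ β + (R : ℝ) ^ (-β) := by positivity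
  have hsplit : (4 * C + (lam ^ β)⁻¹ + (8 * (K' : ℝ)) ^ β) *
      (((κ : ℝ) / d) ^ β * Pr T.V S + ((κ : ℝ) / R) ^ β + (R : ℝ) ^ (-β)) =
      4 * C * (((κ : ℝ) / d) ^ β * Pr T.V S + ((κ : ℝ) / R) ^ β + (R : ℝ) ^ (-β)) +
      (lam ^ β)⁻¹ * (((κ : ℝ) / d) ^ β * Pr T.V S + ((κ : ℝ) / R) ^ β + (R : ℝ) ^ (-β)) +
      (8 * (K' : ℝ)) ^ β *
        (((κ : ℝ) / d) ^ β * Pr T.V S + ((κ : ℝ) / R) ^ β + (R : ℝ) ^ (-β)) := by ring
  rw [hsplit]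
  have u1 : 0 ≤ 4 * C * (((κ : ℝ) / d) ^ β * Pr T.V S + ((κ : ℝ) / R) ^ β + (R : ℝ) ^ (-β)) := by
    positivity
  have u2 : 0 ≤ (lam ^ β)⁻¹ *
      (((κ : ℝ) / d) ^ β * Pr T.V S + ((κ : ℝ) / R) ^ β + (R : ℝ) ^ (-β)) := by positivity
  have u3 : 0 ≤ (8 * (K' : ℝ)) ^ β *
      (((κ : ℝ) / d) ^ β * Pr T.V S + ((κ : ℝ) / R) ^ β + (R : ℝ) ^ (-β)) := by positivity
  -- trivial cases
  rcases lt_or_ge (lam * R) κ with hbig | hsmall
  · have h1 : lam ≤ (κ : ℝ) / R := by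
      rw [le_div_iff₀ hRp]
      exact hbig.le
    have h2 : lam ^ β ≤ ((κ : ℝ) / R) ^ β := Real.rpow_le_rpow hlam0.le h1 hβ'.le
    have h3 : 1 ≤ (lam ^ β)⁻¹ * ((κ : ℝ) / R) ^ β := by
      have : 0 < lam ^ β := by positivity
      rw [inv_mul_eq_div, le_div_iff₀ this, one_mul]
      exact h2
    have h4 : (lam ^ β)⁻¹ * ((κ : ℝ) / R) ^ β ≤ (lam ^ β)⁻¹ *
      (((κ : ℝ) / d) ^ β * Pr T.V S + ((κ : ℝ) / R) ^ β + (R : ℝ) ^ (-β)) := by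
      refine mul_le_mul_of_nonneg_left ?_ L0
      have : 0 ≤ ((κ : ℝ) / d) ^ β * Pr T.V S := by positivity
      linarith
    linarith
  rcases Nat.lt_or_ge d (8 * (K' * κ)) with hdb | hds
  · have h1 : 1 / (8 * (K' : ℝ)) ≤ (κ : ℝ) / d := by
      rw [div_le_div_iff₀ hK0 hd0, one_mul]
      have : (d : ℝ) ≤ ((8 * (K' * κ) : ℕ) : ℝ) := by exact_mod_cast hdb.le
      push_cast at this
      linarith
    have h2 : 1 ≤ (8 * (K' : ℝ)) ^ β * ((κ : ℝ) / d) ^ β := by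
      rw [← Real.mul_rpow hK0.le (by positivity)]
      apply Real.one_le_rpow _ hβ'.le
      rw [div_le_iff₀ hK0] at h1
      linarith
    have h3 : Pr T.V S ≤ (8 * (K' : ℝ)) ^ β * (((κ : ℝ) / d) ^ β * Pr T.V S) := by
      calc Pr T.V S = 1 * Pr T.V S := (one_mul _).symm
        _ ≤ ((8 * (K' : ℝ)) ^ β * ((κ : ℝ) / d) ^ β) * Pr T.V S :=
            mul_le_mul_of_nonneg_right h2 hPS0
        _ = _ := by ring
    have h4 : (8 * (K' : ℝ)) ^ β * (((κ : ℝ) / d) ^ β * Pr T.V S) ≤ (8 * (K' : ℝ)) ^ β *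
      (((κ : ℝ) / d) ^ β * Pr T.V S + ((κ : ℝ) / R) ^ β + (R : ℝ) ^ (-β)) := by
      refine mul_le_mul_of_nonneg_left ?_ K0
      linarith
    linarith
  -- main case
  have hN : 8 * ((K' * κ : ℕ) : ℝ) ≤ min (min δ θ) (min c 1) * R := by
    have h1 : (κ : ℝ) ≤ min (min δ θ) (min c 1) / (8 * K') * R := by rw [← hlam]; exact hsmall
    rw [div_mul_eq_mul_div, le_div_iff₀ hK0] at h1
    push_cast
    linarith
  have n1 : 8 * ((K' * κ : ℕ) : ℝ) ≤ δ * R := hN.trans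
    (mul_le_mul_of_nonneg_right ((min_le_left _ _).trans (min_le_left _ _)) hRp.le)
  have n2 : 8 * ((K' * κ : ℕ) : ℝ) ≤ θ * R := hN.trans
    (mul_le_mul_of_nonneg_right ((min_le_left _ _).trans (min_le_right _ _)) hRp.le)
  have n3 : 8 * ((K' * κ : ℕ) : ℝ) ≤ c * R := hN.trans
    (mul_le_mul_of_nonneg_right ((min_le_right _ _).trans (min_le_left _ _)) hRp.le)
  have n4 : 8 * (K' * κ) ≤ R := by
    have h1 : 8 * ((K' * κ : ℕ) : ℝ) ≤ 1 * R := hN.trans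
      (mul_le_mul_of_nonneg_right ((min_le_right _ _).trans (min_le_right _ _)) hRp.le)
    rw [one_mul] at h1
    exact_mod_cast h1
  have hκ1 : 1 ≤ κ := by
    have h1 : (1 : ℝ) ≤ (R : ℝ) ^ a1 := Real.one_le_rpow (by exact_mod_cast hR1) ha1.le
    exact_mod_cast h1.trans hκa
  have hκK : κ ≤ K' * κ := Nat.le_mul_of_pos_left _ (by omega)
  have X1 : (κ : ℝ) / d ≤ 1 := by
    rw [div_le_one hd0]
    have : κ ≤ d := by omega
    exact_mod_cast this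
  have Y1 : (κ : ℝ) / R ≤ 1 := by
    rw [div_le_one hRp]
    have : κ ≤ R := by omega
    exact_mod_cast this
  -- the two sides
  obtain ⟨Sb, hSb⟩ : ∃ Sb : Bool → Conf → Prop, Sb = fun b ω => S ω ∧
    (if b = true then ¬ Seen (OE T ((tE T.V xS q r k).toStop.E ω)) (SideP T xS q r k true ω) q r1
        (3 * (K' * κ)) (x ω)
      else Seen (OE T ((tE T.V xS q r k).toStop.E ω)) (SideP T xS q r k true ω) q r1
        (3 * (K' * κ)) (x ω)) := ⟨_, rfl⟩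
  have hSbm : ∀ b, MeasS (tE T.V xS q r k).toStop (Sb b) := by
    intro b
    rw [hSb]
    exact measS_of_at ((at_of_measS hSm).comp₂ (fun a s => a ∧ (if b = true then ¬ s else s))
      (at_seen true (at_of_measS hxm) r1 (3 * (K' * κ))))
  have hone : ∀ b, Pr T.V (fun ω => Sb b ω ∧ ∃ m, eN T xS ω q r k < m ∧ m < xN T xS ω q r k ∧
      gN T xS ω m ∈ FB T ((tE T.V xS q r k).toStop.E ω) (z ω) D) ≤
      2 * C * (((κ : ℝ) / d) ^ β * Pr T.V S + ((κ : ℝ) / R) ^ β + (R : ℝ) ^ (-β)) := by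
    intro b
    refine op_fin (p' := Pr T.V (Sb b)) (β0 := β0) (β1 := β1) (cm := cm) hC (by positivity) X1
      (by positivity) Y1 (E.Pr_nonneg _ _) (E.Pr_mono fun ω _ h => by
        rw [hSb] at h
        exact h.1) hb0 hb1 hb2 hβ' hR1 ?_
    refine hside R hRR0 T hfit xS q r r1 k κ D d b hcr hrR hr hx hr1 hκa hd hds n1 n2 n3 n4 (Sb b)
      x z π O' (hSbm b) hxm ?_
    intro ω hω hSω
    rw [hSb] at hSω
    obtain ⟨h1, h2, h3, h4, h5, h6, h7, h8, h9, h10⟩ := hS ω hω hSω.1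
    refine ⟨h1, h2, h3, h4, h5, h6, h7, fun f hf => ?_, h9, h10, ?_⟩
    · obtain ⟨g1, g2, g3⟩ := h8 f hf
      exact ⟨g1, g2, g3.trans (Nat.mul_le_mul_right _ hKK)⟩
    · have hsee := hSω.2
      cases b
      · simpa using hsee
      · simp only [if_true] at hsee
        have hN' := tE_new hω hr hx (exc_lt h1)
        have hfin := S743.oe_finite T ((tE T.V xS q r k).toStop.E ω)
        have hne := G45.exists_notMem hfin
        have hx0 : x ω ∈ OE T ((tE T.V xS q r k).toStop.E ω) :=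
          G45.mem_of_dF_pos (by omega)
        have hdq : dn q (x ω) + 3 * (K' * κ) ≤ r1 := by
          have : (dn q (x ω) : ℝ) + 3 * ((K' * κ : ℕ) : ℝ) ≤ r1 := by
            have h0 : (0 : ℝ) ≤ ((K' * κ : ℕ) : ℝ) := Nat.cast_nonneg _
            linarith
          exact_mod_cast this
        have h40 : 40 * κ ≤ K' * κ := Nat.mul_le_mul_right _ hK16
        obtain ⟨f', a, c1, c2, c3, -⟩ := seen_some hne (q := q) (r1 := r1) (n := 3 * (K' * κ)) hx0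
          (by omega) hdq
        refine ⟨f', a, c1, c2, c3, ?_⟩
        show SideP T xS q r k false ω a
        rw [sideP_false hN' c3]
        intro hsur
        exact hsee ⟨f', a, c1, c2, c3, (sideP_true hN' c3).2 hsur⟩
  have hsum : P ≤ Pr T.V (fun ω => Sb true ω ∧ ∃ m, eN T xS ω q r k < m ∧
      m < xN T xS ω q r k ∧ gN T xS ω m ∈ FB T ((tE T.V xS q r k).toStop.E ω) (z ω) D) +
      Pr T.V (fun ω => Sb false ω ∧ ∃ m, eN T xS ω q r k < m ∧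
      m < xN T xS ω q r k ∧ gN T xS ω m ∈ FB T ((tE T.V xS q r k).toStop.E ω) (z ω) D) := by
    refine (E.Pr_mono fun ω _ h => ?_).trans (E.Pr_or_le T.V _ _)
    by_cases hs : Seen (OE T ((tE T.V xS q r k).toStop.E ω)) (SideP T xS q r k true ω) q r1
        (3 * (K' * κ)) (x ω)
    · right
      refine ⟨?_, h.2⟩
      rw [hSb]
      exact ⟨h.1, by simpa using hs⟩
    · left
      refine ⟨?_, h.2⟩
      rw [hSb]
      exact ⟨h.1, by simpa using hs⟩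
  have g1 := hone true
  have g2 := hone false
  have g3 : 4 * C * (((κ : ℝ) / d) ^ β * Pr T.V S + ((κ : ℝ) / R) ^ β + (R : ℝ) ^ (-β)) =
    2 * C * (((κ : ℝ) / d) ^ β * Pr T.V S + ((κ : ℝ) / R) ^ β + (R : ℝ) ^ (-β)) +
    2 * C * (((κ : ℝ) / d) ^ β * Pr T.V S + ((κ : ℝ) / R) ^ β + (R : ℝ) ^ (-β)) := by ring
  linarith

/-- the form with `dF x ≤ 2 κ` -/
theorem op1 (hV : NT34.VBP2) : OP1P := by
  intro K c δ θ a1 hc hδ hθ ha1
  obtain ⟨β, hβ, C, hC, R0, h⟩ := op1_five hV K c δ θ a1 hc hδ hθ ha1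
  refine ⟨β, hβ, C, hC, R0, ?_⟩
  intro R hR T hfit xS q r r1 k κ D d hcr hrR hx hr1 hκa hd S x z π O' hSm hxm hS
  refine h R hR T hfit xS q r r1 k κ D d hcr hrR hx hr1 hκa hd S x z π O' hSm hxm
    fun ω hω hSω => ?_
  obtain ⟨h1, h2, h3, h4, h5⟩ := hS ω hω hSω
  exact ⟨h1, h2, h3, by omega, h5⟩

end Vale.Agent.P155.NT733
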