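import Vale.Agent.P155.NT733.OPDet
import Vale.Agent.P155.NT34.LowW
import Vale.Agent.P155.NT902.Zone
import Vale.Agent.P155.NT211.Err

/-!
# P155, NT, OP1: facts on the path of an excursion
-/

namespace Vale.Agent.P155.NT733

open Vale.Agent.P155 Finset T802 T862 NT G45 J NT862 S743 NT905 NT802 NT276

/-- the vertices of the excursion `k` (without the first one) -/
def VisS (T : Temp) (xS : ℤ) (q : Pt) (r k : ℕ) (ω : Conf) : Set Pt :=
  {v | ∃ m, eN T xS ω q r k < m ∧ m < xN T xS ω q r k ∧ v = gN T xS ω m}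

section

variable {T : Temp} {xS : ℤ} {ω : Conf} {q : Pt} {r k : ℕ}

/-- a vertex of the excursion after its beginning is new -/
theorem exc_vert (hω : ω ∈ DD T.V) (hr : 1 ≤ r) (hx : (16 * r : ℤ) ≤ |q.1 - xS|) {m : ℕ}
    (h1 : eN T xS ω q r k < m) (h2 : m < xN T xS ω q r k) :
    gN T xS ω m ∈ (tE T.V xS q r k).toStop.L ω ∧
      gN T xS ω m ∉ (tE T.V xS q r k).toStop.E ω ∧
      gN T xS ω m ∉ SS T ((tE T.V xS q r k).toStop.E ω) := by
  have hxM : xN T xS ω q r k ≤ Tm.M T.V xS ω := exi_le _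
  have hm : m < Tm.M T.V xS ω := by omega
  have hpV : Tm.p T.V xS ω m ∈ T.V := Tm.p_mem hω hm
  have hE : gN T xS ω m ∉ (tE T.V xS q r k).toStop.E ω := by
    intro hc
    rw [Tm.GTime.toStop_E, tE_N] at hc
    have hc' : Tm.p T.V xS ω m ∈ Tm.En T.V xS ω (eN T xS ω q r k) := hc
    rw [Tm.mem_En hω (by omega) hpV] at hc'
    obtain ⟨m', hm', he⟩ := hc'
    have := Tm.p_inj hω hm (by omega) he
    omega
  refine ⟨?_, hE, ?_⟩
  · have hl := NT34.exc_loop hω hr hx h1.le h2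
    have h3 : gN T xS ω m ∈ comp ω (xS, (Tm.tm T.V xS ω m).1) := Tm.p_mem_comp _ _ _ _
    rw [hl] at h3
    have e1 : (tE T.V xS q r k).toStop.L ω = LK xS ω (Tm.tm T.V xS ω) (Tm.M T.V xS ω) q r k := by
      unfold Stop.L LK
      rw [Tm.GTime.toStop_t, tE_N]
    rw [e1]
    exact h3
  · rintro (h | h)
    · exact hE h
    · exact h (A1.mem_V.1 hpV).1

/-- the new path reaches the free ball -/
theorem exc_link (hω : ω ∈ DD T.V) (hr : 1 ≤ r) (hx : (16 * r : ℤ) ≤ |q.1 - xS|) {m D : ℕ} {z : Pt}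
    (h1 : eN T xS ω q r k < m) (h2 : m < xN T xS ω q r k)
    (h3 : gN T xS ω m ∈ FB T ((tE T.V xS q r k).toStop.E ω) z D) :
    Linked (Nw T ((tE T.V xS q r k).toStop.E ω)
      ((tE T.V xS q r k).toStop.E ω ∪ VisS T xS q r k ω) z D)
      (gN T xS ω (eN T xS ω q r k + 1)) z := by
  have W := walk hω xS
  have hxM : xN T xS ω q r k ≤ Tm.M T.V xS ω := exi_le _
  obtain ⟨j, rfl⟩ : ∃ j, m = eN T xS ω q r k + 1 + j := ⟨m - (eN T xS ω q r k + 1), by omega⟩
  have hrun := NT34.exc_run hω hr hx h1.le h2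
  obtain ⟨hsV, -, -⟩ := W.valid (eN T xS ω q r k) (by omega)
  have hgN : ∀ i ≤ 1 + j, gN T xS ω (eN T xS ω q r k + i) =
      go ω (xS, (Tm.tm T.V xS ω (eN T xS ω q r k)).1)
        ((Tm.tm T.V xS ω (eN T xS ω q r k)).2 + i) := by
    intro i hi
    unfold gN
    rw [hrun i (by omega)]
    rfl
  have hlast := (W.valid _ (show eN T xS ω q r k + (1 + j) < Tm.M T.V xS ω by omega)).2.2
  rw [hrun (1 + j) (by omega)] at hlast
  simp only at hlast
  refine linked_path (M := j) (v := fun i => gN T xS ω (eN T xS ω q r k + 1 + i)) ?_ ?_ ?_ h3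
  · intro i hi
    have e1 := hgN (1 + i) (by omega)
    have e2 := hgN (1 + i + 1) (by omega)
    rw [show eN T xS ω q r k + (1 + i) = eN T xS ω q r k + 1 + i by ring] at e1
    rw [show eN T xS ω q r k + (1 + i + 1) = eN T xS ω q r k + 1 + (i + 1) by ring] at e2
    show Adj (gN T xS ω (eN T xS ω q r k + 1 + i)) (gN T xS ω (eN T xS ω q r k + 1 + (i + 1)))
    rw [e1, e2]
    exact go_adj' hω hsV (by omega)
  · intro i hi
    exact (exc_vert hω hr hx (by omega) (by omega)).2.2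
  · intro i hi
    exact Or.inr ⟨_, by omega, by omega, rfl⟩

/-- the wall is connected at the beginning of the excursion -/
theorem exc_conn (hω : ω ∈ DD T.V) : ∀ u ∈ SS T ((tE T.V xS q r k).toStop.E ω),
    ∀ w ∈ SS T ((tE T.V xS q r k).toStop.E ω), LR T ((tE T.V xS q r k).toStop.E ω) u w :=
  fun _ hu _ hw => connR' hω hu hw

theorem exc_ON : ON T xS ω q r k = OE T ((tE T.V xS q r k).toStop.E ω) := by
  have e2 : (tE T.V xS q r k).toStop.E ω = EK xS ω (Tm.tm T.V xS ω) (Tm.M T.V xS ω) q r k := by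
    rw [Tm.GTime.toStop_E, tE_N]
    rfl
  rw [e2]
  rfl

theorem exc_lt (hk : eN T xS ω q r k < Tm.M T.V xS ω) :
    (tE T.V xS q r k).N ω < Tm.M T.V xS ω := by
  rw [tE_N]
  exact hk

/-- the tip -/
theorem exc_tip : go ω (xS, (tE T.V xS q r k).toStop.t ω) ((tE T.V xS q r k).toStop.i ω) =
    gN T xS ω (eN T xS ω q r k) := by
  rw [Tm.GTime.toStop_t, Tm.GTime.toStop_i, tE_N]
  rfl

end

end Vale.Agent.P155.NT733
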