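import Vale.Agent.P155.NT733.OPSide
import Vale.Agent.P155.NT733.OPPath
import Vale.Agent.P155.NT862.Pick
import Vale.Agent.P155.NT733.OPDef

/-!
# P155, NT, OP1: one side, fixed parameters
-/

namespace Vale.Agent.P155.NT733

open Vale.Agent.P155 Finset T802 T862 NT G45 J NT862 S743 NT905 NT802 NT276 NT211 NT426

section

variable {T : Temp} {xS : ℤ} {ω : Conf} {q : Pt} {r k : ℕ}

theorem Gb_harm (b : Bool) : ∀ x ∈ OE T ((tE T.V xS q r k).toStop.E ω),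
    lap (Gb T xS q r k b ω) x = 0 := by
  intro x hx
  have h := ((tE T.V xS q r k).toStop.Hf_spec ω).1 x hx
  cases b
  · have e : Gb T xS q r k false ω = fun y => 1 - (tE T.V xS q r k).toStop.Hf ω y := by
      funext y
      simp [Gb]
    rw [e, lap_sub, lap_const, h, sub_zero]
  · have e : Gb T xS q r k true ω = (tE T.V xS q r k).toStop.Hf ω := by
      funext y
      simp [Gb]
    rw [e, h]

theorem Gb_01 (b : Bool) (x : Pt) : 0 ≤ Gb T xS q r k b ω x ∧ Gb T xS q r k b ω x ≤ 1 := by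
  have h0 := ((tE T.V xS q r k).toStop.Hf_spec ω).nonneg x
  have h1 := ((tE T.V xS q r k).toStop.Hf_spec ω).le_one x
  unfold Gb
  split_ifs
  · exact ⟨h0, h1⟩
  · constructor <;> linarith

theorem Gb_bd (b : Bool) (hN : (tE T.V xS q r k).toStop.New ω) {a : Pt}
    (ha : a ∉ OE T ((tE T.V xS q r k).toStop.E ω)) (hP : SideP T xS q r k (!b) ω a) :
    Gb T xS q r k b ω a = 0 := by
  have h := ((tE T.V xS q r k).toStop.Hf_spec ω).2 a ha
  unfold Gb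
  cases b
  · have hP' : SideP T xS q r k true ω a := hP
    rw [sideP_true hN ha] at hP'
    simp only [Bool.false_eq_true, if_false]
    rw [h]
    unfold Stop.bd
    rw [if_pos hP', sub_self]
  · have hP' : SideP T xS q r k false ω a := hP
    rw [sideP_false hN ha] at hP'
    simp only [if_true]
    rw [h]
    unfold Stop.bd
    rw [if_neg hP']

theorem at_seen (b : Bool) {x : Conf → Pt} (hx : At (tE T.V xS q r k) x) (r1 n : ℕ) :
    At (tE T.V xS q r k) (fun ω => Seen (OE T ((tE T.V xS q r k).toStop.E ω))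
      (SideP T xS q r k b ω) q r1 n (x ω)) :=
  ((at_En (tE T.V xS q r k)).comp₂ (fun E S => (E, S)) (at_surr (tE T.V xS q r k))).comp₂
    (fun ES y => Seen (OE T ES.1) (fun f => if b = true then f ∈ ES.2 else f ∉ ES.2) q r1 n y) hx

theorem pot_meas {τ : Stop T.V xS} {x : Conf → Pt} (hx : MeasS τ x) (N κ : ℕ) :
    MeasS τ (fun ω => pot (Ox T (τ.E ω) (x ω) N) (bump κ (x ω))) where
  onE := fun ω hω ω' hω' he => by
    rw [hx.onE ω hω ω' hω' he, Stop.E_onE hω hω' he]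
  uns := fun ω hω ω' hω' he => by
    rw [hx.uns ω hω ω' hω' he, τ.E_uns hω hω' he]

theorem P_meas {τ : Stop T.V xS} {S : Conf → Prop} (hS : MeasS τ S) (Q : Pt → Prop) (m m' : ℕ) :
    MeasS τ (fun ω y => S ω ∧ Q y ∧ m ≤ dF (OE T (τ.E ω)) y ∧ dF (OE T (τ.E ω)) y ≤ m') where
  onE := fun ω hω ω' hω' he => by
    rw [hS.onE ω hω ω' hω' he, Stop.E_onE hω hω' he]
  uns := fun ω hω ω' hω' he => by
    rw [hS.uns ω hω ω' hω' he, τ.E_uns hω hω' he]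

end

open Classical in
/-- **one side** -/
theorem op1_b {β : ℝ} (hβ : 0 < β) (hSD : SupDecay 2 β) : ∃ c0 : ℝ, 0 < c0 ∧ ∃ D0 : ℝ, 0 < D0 ∧
    ∀ (T : Temp) (xS : ℤ) (q : Pt) (r r1 k κ N D d L s M j0 j1 : ℕ) (b : Bool) (S : Conf → Prop)
    (x z : Conf → Pt) (π : Conf → Pt → ZMod 2) (O' : Conf → Set Pt) (Q : Pt → Prop) (A : ℝ)
    (err : ℕ → ℝ), 1 ≤ r → (16 * r : ℤ) ≤ |q.1 - xS| → r1 + 3 ≤ 2 * r → 20 ≤ κ → 0 ≤ A →
    κ ≤ N → 3 * N + 2 * L + 1 ≤ d → 8 ≤ s → 2 ≤ M → 1 ≤ j0 → 2 * M * 2 ^ j0 ≤ s + 1 →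
    N < 2 ^ j1 →
    MeasS (tE T.V xS q r k).toStop S → MeasS (tE T.V xS q r k).toStop x →
    (∀ ω ∈ DD T.V, S ω → eN T xS ω q r k < Tm.M T.V xS ω ∧ SepN T xS ω q r k r1 d ∧
      dF (OE T ((tE T.V xS q r k).toStop.E ω)) (x ω) ≤ 2 * N ∧
      dn q (x ω) + 3 * N + 2 * L + 1 ≤ r1 ∧ (∀ y, dn (x ω) y ≤ 3 * N → Q y) ∧
      Lab T ((tE T.V xS q r k).toStop.E ω) (gN T xS ω (eN T xS ω q r k + 1)) (z ω) D (π ω) ∧
      (∀ f ∈ O' ω, f ∈ OE T ((tE T.V xS q r k).toStop.E ω) ∧ D + 1 < dn (z ω) f ∧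
        dn (x ω) f ≤ N) ∧
      (∀ f, dn (x ω) f < κ → f ∈ O' ω) ∧
      (∀ U₀ U₁ : Pt → ℝ, IsPot (O' ω) (bdl T ((tE T.V xS q r k).toStop.E ω) (π ω) 0) U₀ →
        IsPot (O' ω) (bdl T ((tE T.V xS q r k).toStop.E ω) (π ω) 1) U₁ →
        1 / 32 ≤ U₀ (x ω) ∧ 1 / 32 ≤ U₁ (x ω)) ∧
      Seen (OE T ((tE T.V xS q r k).toStop.E ω)) (SideP T xS q r k (!b) ω) q r1 (3 * N) (x ω)) →
    (∀ j, j0 ≤ j → j < j1 → ∀ (S' : Conf → Prop) (x' : Conf → Pt),
      MeasS (tE T.V xS q r k).toStop S' → MeasS (tE T.V xS q r k).toStop x' →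
      (∀ ω ∈ DD T.V, S' ω → S ω ∧ (dn q (x' ω) ≤ 2 * r ∧ Q (x' ω)) ∧
        M * 2 ^ j ≤ dF (OE T ((tE T.V xS q r k).toStop.E ω)) (x' ω) ∧
        dF (OE T ((tE T.V xS q r k).toStop.E ω)) (x' ω) ≤ 5 * M * 2 ^ j) →
      Ex T.V (fun ω => if S' ω then (if VisN T xS ω q r k (x' ω) (2 ^ j) then (1 : ℝ) else 0)
        else 0) ≤ A * Ex T.V (fun ω => if S' ω then Gb T xS q r k b ω (x' ω) else 0) + err j) →
    c0 * Pr T.V (fun ω => S ω ∧ ∃ m, eN T xS ω q r k < m ∧ m < xN T xS ω q r k ∧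
      gN T xS ω m ∈ FB T ((tE T.V xS q r k).toStop.E ω) (z ω) D) ≤
      16 * ∑ j ∈ Finset.Ico j0 j1, (A * (D0 * (M : ℝ) ^ 2) *
        (2 * (((5 * M * 2 ^ j : ℕ) + 1 : ℝ) / ((L : ℝ) + 1)) ^ β) * Pr T.V S +
        (D0 * (M : ℝ) ^ 2) * err j) +
      Ex T.V (fun ω => if S ω then micS T ((tE T.V xS q r k).toStop.E ω) (VisS T xS q r k ω)
        (O' ω) (x ω) (κ / 4) s β else 0) := by
  obtain ⟨c0, hc0, hdet⟩ := det_op hβ hSD
  obtain ⟨D0, hD0, hlm⟩ := layer_mass hβ hSD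
  refine ⟨c0, hc0, D0, hD0, ?_⟩
  intro T xS q r r1 k κ N D d L s M j0 j1 b S x z π O' Q A err hr hx hr1 hκ hA hκN hd hs hM hj0
    hsM hj1 hSm hxm hS hVB
  set τ := (tE T.V xS q r k).toStop with hτ
  set U : Conf → Pt → ℝ := fun ω => pot (Ox T (τ.E ω) (x ω) N) (bump (κ / 4) (x ω)) with hU
  have hκ5 : 5 ≤ κ / 4 := by omega
  have hOf : ∀ ω, (Ox T (τ.E ω) (x ω) N).Finite := fun ω =>
    (oe_finite T (τ.E ω)).subset (Ox_sub _ _ _ _)
  have hUG : ∀ ω, IsGreen (Ox T (τ.E ω) (x ω) N) (bump (κ / 4) (x ω)) (U ω) := fun ω =>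
    pot_spec (hOf ω) _
  have hU0 : ∀ ω y, 0 ≤ U ω y := fun ω => green_nonneg (hOf ω) (hUG ω)
    (fun y _ => bump_nonneg (κ / 4) (x ω) y)
  have hM1 : (1 : ℝ) ≤ M := by
    have : 1 ≤ M := by omega
    exact_mod_cast this
  -- the region is in the box
  have hinB : ∀ ω ∈ DD T.V, S ω → ∀ y ∈ Ox T (τ.E ω) (x ω) N, y ∈ box q (2 * r) := by
    intro ω hω hSω y hy
    obtain ⟨-, -, -, h4, -⟩ := hS ω hω hSω
    have h1 : dn (x ω) y < 3 * N + 1 := hy.2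
    have h2 := dn_tri q (x ω) y
    exact G45.mem_box.2 (by omega)
  have key := op_abs (τ := τ) (S := S)
    (Hit := fun ω => ∃ m, eN T xS ω q r k < m ∧ m < xN T xS ω q r k ∧
      gN T xS ω m ∈ FB T (τ.E ω) (z ω) D) hSm (U := U) (pot_meas hxm N (κ / 4)) hU0
    (G := Gb T xS q r k b) (Vis := VisS T xS q r k) (vis := fun ω y n => VisN T xS ω q r k y n)
    (fun ω _ y n ⟨v, hv, hvn⟩ => by
      obtain ⟨m, h1, h2, rfl⟩ := hv
      exact ⟨m, h1.le, h2, G45.mem_box.2 hvn⟩)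
    (P := fun j ω y => S ω ∧ (dn q y ≤ 2 * r ∧ Q y) ∧ M * 2 ^ j ≤ dF (OE T (τ.E ω)) y ∧
      dF (OE T (τ.E ω)) y ≤ 5 * M * 2 ^ j)
    (fun j => P_meas hSm (fun y => dn q y ≤ 2 * r ∧ Q y) _ _) (M := M) (j0 := j0) (j1 := j1)
    (A := A) hA (W := fun _ => D0 * (M : ℝ) ^ 2) (fun _ => by positivity) (err := err)
    (η := fun j => 2 * (((5 * M * 2 ^ j : ℕ) + 1 : ℝ) / ((L : ℝ) + 1)) ^ β)
    (fun j => by positivity) (B := box q (2 * r)) hVB ?_ ?_ ?_ (c0 := c0)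
    (mic := fun ω => micS T (τ.E ω) (VisS T xS q r k ω) (O' ω) (x ω) (κ / 4) s β) ?_
  · refine key.trans (add_le_add le_rfl (H12.Ex_mono fun ω _ => ?_))
    by_cases h1 : S ω
    · have h0 : 0 ≤ micS T (τ.E ω) (VisS T xS q r k ω) (O' ω) (x ω) (κ / 4) s β := by
        unfold micS
        apply add_nonneg
        · exact Finset.sum_nonneg fun y _ => by split_ifs <;> positivity
        · exact mul_nonneg (by positivity) (Finset.sum_nonneg fun y _ => abs_nonneg _)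
      rw [if_pos h1]
      split_ifs
      · exact le_rfl
      · exact h0
    · rw [if_neg h1, if_neg (fun h => h1 h.1)]
  · -- points of the layers
    intro j _ _ ω hω hSω y hyB hne h1 h2
    obtain ⟨-, -, -, -, h5, -⟩ := hS ω hω hSω
    have hyO : y ∈ Ox T (τ.E ω) (x ω) N := by
      by_contra h
      exact hne ((hUG ω).off y h)
    have h3 : dn (x ω) y < 3 * N + 1 := hyO.2
    exact ⟨hSω, ⟨G45.mem_box.1 hyB, h5 y (by omega)⟩, h1, h2⟩
  · -- mass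
    intro j _ _ ω hω hSω
    have h1 := hlm (oe_finite T (τ.E ω)) (hOf ω) (E4.cpr_inter (Stop.cpr hω) (x ω) (3 * N + 1))
      (Ox_sub T (τ.E ω) (x ω) N) _ (U ω) (fun y _ => bump_nonneg (κ / 4) (x ω) y) (hUG ω) M
      (by omega) j (box q (2 * r)) (hinB ω hω hSω)
    refine h1.trans ?_
    have h2 : ∑ y ∈ (hOf ω).toFinset, bump (κ / 4) (x ω) y ≤ 1 := by
      rw [← bump_sum hκ5 (x ω) (S := (hOf ω).toFinset ∪ box (x ω) (κ / 4))
        Finset.subset_union_right]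
      exact Finset.sum_le_sum_of_subset_of_nonneg Finset.subset_union_left
        (fun y _ _ => bump_nonneg _ _ _)
    calc D0 * (M : ℝ) ^ 2 * ∑ y ∈ (hOf ω).toFinset, bump (κ / 4) (x ω) y
        ≤ D0 * (M : ℝ) ^ 2 * 1 := mul_le_mul_of_nonneg_left h2 (by positivity)
      _ = _ := mul_one _
  · -- harmonic measure
    intro j _ _ ω hω hSω y hyB hne hy5
    obtain ⟨h1, h2, h3, h4, h5, h6, h7, h8, h9, h10⟩ := hS ω hω hSω
    have hk := exc_lt h1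
    have hN := tE_new hω hr hx hk
    obtain ⟨y', hy', hc⟩ := green_conn (hOf ω) (hUG ω) hne
    have hy'κ : dn (x ω) y' ≤ κ / 4 := G45.mem_box.1 (bump_supp hκ5 hy')
    have hxy' : Conn (Ox T (τ.E ω) (x ω) N) (x ω) y' := by
      refine conn_inbox (m := κ / 4) (fun f hf => ?_) hy'κ
      refine ⟨(h7 f (h8 f (by omega))).1, ?_⟩
      show dn (x ω) f < 3 * N + 1
      omega
    have hcon : Conn {y | y ∈ OE T (τ.E ω) ∧ y ∈ box (x ω) (3 * N)} (x ω) y := by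
      refine Conn.mono ?_ (hxy'.trans hc.symm)
      rintro g ⟨g1, g2⟩
      have g3 : dn (x ω) g < 3 * N + 1 := g2
      exact ⟨g1, G45.mem_box.2 (by omega)⟩
    have hsn := sepA_side hN (sepN_iff.1 h2) (!b)
    have h := side_near hβ hSD (G45.exists_notMem (oe_finite T (τ.E ω))) (Stop.cpr hω) hsn
      (H := Gb T xS q r k b ω) (Gb_harm b) (Gb_01 b) (fun a ha hP => Gb_bd b hN ha hP) h10
      (L := L) (by omega) (by omega) hcon
    refine h.trans ?_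
    refine mul_le_mul_of_nonneg_left ?_ (by norm_num)
    refine Real.rpow_le_rpow (by positivity) ?_ hβ.le
    refine div_le_div_of_nonneg_right ?_ (by positivity)
    have : (dF (OE T (τ.E ω)) y : ℝ) ≤ ((5 * M * 2 ^ j : ℕ) : ℝ) := by exact_mod_cast hy5
    linarith
  · -- deterministic part
    intro ω hω hSω hH
    obtain ⟨m, hm1, hm2, hm3⟩ := hH
    obtain ⟨h1, h2, h3, h4, h5, h6, h7, h8, h9, h10⟩ := hS ω hω hSω
    exact hdet (Stop.cpr hω) (exc_conn hω) h6 (exc_link hω hr hx hm1 hm2 hm3) h7 h8 h3 hκ5 h9 hs hM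
      hj0 hsM hj1 (box q (2 * r)) (hinB ω hω hSω)

end Vale.Agent.P155.NT733
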