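import Vale.Agent.P155.NT733.OPAbs
import Vale.Agent.P155.NT276.Far
import Vale.Agent.P155.E4.Mass
import Vale.Agent.P155.S743.Bump
import Vale.Agent.P155.G45.Whitney
import Vale.Agent.P155.G45.Harnack

/-!
# P155, NT, OP1: potential theory (layer weights with decay, mass far from the centre)
-/

namespace Vale.Agent.P155.NT733

open Vale.Agent.P155 Finset T802 T862 NT G45 J E4 H12

open Classical in
/-- **mass of the layers, with decay** (`p` = a wall face at distance `≤ κ` of the source) -/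
theorem layer_mass2 {β : ℝ} (hβ : 0 < β) (hSD : SupDecay 2 β) : ∃ D : ℝ, 0 < D ∧
    ∀ {O O'' : Set Pt} (_ : O.Finite) (hO'' : O''.Finite), CPr O'' → O'' ⊆ O →
    ∀ (φ U : Pt → ℝ), (∀ y ∈ O'', 0 ≤ φ y) → IsGreen O'' φ U → ∀ M : ℕ, 1 ≤ M → ∀ (j : ℕ)
    (B : Finset Pt), (∀ y ∈ O'', y ∈ B) → ∀ (p : Pt) (κ : ℕ), p ∉ O →
    (∀ y, φ y ≠ 0 → dn p y ≤ κ) →
    ∑ y ∈ B, wJ O U M j y ≤
      D * (M : ℝ) ^ 2 * (min 1 ((((κ : ℝ) + 1) / 2 ^ j) ^ β)) * ∑ y ∈ hO''.toFinset, φ y := by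
  obtain ⟨D, hD, hlm⟩ := layer_mass hβ hSD
  refine ⟨2 * D, by positivity, ?_⟩
  intro O O'' hO hO'' hCP h2 φ U hφ hU M hM j B hB p κ hp hκ
  have hM0 : (0 : ℝ) < M := by exact_mod_cast hM
  have hφs : 0 ≤ ∑ y ∈ hO''.toFinset, φ y := Finset.sum_nonneg fun y hy => hφ y (by simpa using hy)
  -- the potential of the layer
  obtain ⟨g, hg⟩ : ∃ g : Pt → ℝ, g = fun y =>
    if M * 2 ^ j ≤ dF O y ∧ dF O y ≤ 5 * M * 2 ^ j then ((4 : ℝ) ^ j)⁻¹ else 0 := ⟨_, rfl⟩
  have hg0 : ∀ y, 0 ≤ g y := by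
    intro y
    rw [hg]
    simp only
    split_ifs <;> positivity
  obtain ⟨v, hv⟩ := exists_green hO'' g
  have hv0 := green_nonneg hO'' hv (fun y _ => hg0 y)
  have hwg : ∀ (U' : Pt → ℝ) y, wJ O U' M j y = g y * U' y := by
    intro U' y
    unfold wJ
    rw [hg]
    simp only
    split_ifs
    · rfl
    · ring
  have hsumB : ∀ U' : Pt → ℝ, (∀ y, y ∉ O'' → U' y = 0) →
      ∑ y ∈ B, wJ O U' M j y = ∑ y ∈ hO''.toFinset, g y * U' y := by
    intro U' hoff
    symm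
    refine (Finset.sum_subset (s₂ := B) ?_ ?_).trans (Finset.sum_congr rfl fun y _ => (hwg U' y).symm)
    · intro y hy
      exact hB y (by simpa using hy)
    · intro y _ hy
      rw [hoff y (by simpa using hy), mul_zero]
  -- sup bound
  have hvM : ∀ y, v y ≤ D * (M : ℝ) ^ 2 := by
    intro y
    by_cases hy : y ∈ O''
    · obtain ⟨G, hG⟩ := exists_green hO'' (fun z => if z = y then (1 : ℝ) else 0)
      have h1 := hlm hO hO'' hCP h2 _ G (fun z _ => by split_ifs <;> norm_num) hG M hM j B hB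
      rw [hsumB G hG.off] at h1
      have h3 := green_symm' hO'' hv hG
      have e1 : ∑ x ∈ hO''.toFinset, v x * (if x = y then (1 : ℝ) else 0) = v y := by
        simp only [mul_ite, mul_one, mul_zero]
        rw [Finset.sum_ite_eq' hO''.toFinset y v, if_pos (by simpa using hy)]
      have e2 : ∑ x ∈ hO''.toFinset, (if x = y then (1 : ℝ) else 0) = 1 := by
        rw [Finset.sum_ite_eq' hO''.toFinset y, if_pos (by simpa using hy)]
      rw [e1] at h3
      rw [e2, mul_one] at h1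
      linarith
    · rw [hv.off y hy]
      positivity
  -- decay
  have h2j : 1 ≤ 2 ^ j := Nat.one_le_two_pow
  have hMj : 2 ^ j ≤ M * 2 ^ j := Nat.le_mul_of_pos_left _ hM
  obtain ⟨L, hL⟩ : ∃ L, L + 1 = M * 2 ^ j := ⟨M * 2 ^ j - 1, by omega⟩
  have hdec : ∀ y, dn p y ≤ κ → v y ≤ 2 * D * (M : ℝ) ^ 2 *
      min 1 ((((κ : ℝ) + 1) / 2 ^ j) ^ β) := by
    intro y hy
    rw [mul_min_of_nonneg _ _ (by positivity)]
    refine le_min ?_ ?_
    · have := hvM y
      have : 0 ≤ D * (M : ℝ) ^ 2 := by positivity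
      linarith
    · rcases Nat.lt_or_ge L (dn p y) with hlt | hge
      · have h1 : (1 : ℝ) ≤ (((κ : ℝ) + 1) / 2 ^ j) ^ β := by
          apply Real.one_le_rpow _ hβ.le
          rw [le_div_iff₀ (by positivity), one_mul]
          have : 2 ^ j ≤ κ + 1 := by omega
          exact_mod_cast this
        have h3 := hvM y
        have h4 : 0 ≤ D * (M : ℝ) ^ 2 := by positivity
        nlinarith
      · have hpO : p ∉ O'' := fun h => hp (h2 h)
        have h := hSD O'' p L (D * (M : ℝ) ^ 2) v (fun r _ => hCP p hpO r) hv.off ?_ ?_ y hge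
        · rw [abs_of_nonneg (hv0 y)] at h
          refine h.trans ?_
          have e1 : ((dn p y : ℝ) + 1) / ((L : ℝ) + 1) ≤ ((κ : ℝ) + 1) / 2 ^ j := by
            have hLr : ((L : ℝ) + 1) = M * 2 ^ j := by exact_mod_cast hL
            have hMjr : (2 : ℝ) ^ j ≤ (L : ℝ) + 1 := by
              rw [hLr]
              exact_mod_cast hMj
            have hyr : (dn p y : ℝ) ≤ κ := by exact_mod_cast hy
            rw [div_le_div_iff₀ (by positivity) (by positivity)]
            have : (0 : ℝ) < 2 ^ j := by positivity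
            nlinarith [Nat.cast_nonneg (α := ℝ) (dn p y)]
          have e2 := Real.rpow_le_rpow (by positivity) e1 hβ.le
          calc 2 * (((dn p y : ℝ) + 1) / ((L : ℝ) + 1)) ^ β * (D * (M : ℝ) ^ 2)
              ≤ 2 * (((κ : ℝ) + 1) / 2 ^ j) ^ β * (D * (M : ℝ) ^ 2) := by gcongr
            _ = _ := by ring
        · intro x hx hxL
          have e := hv.eq x hx
          have e3 : g x = 0 := by
            rw [hg]
            simp only
            rw [if_neg]
            rintro ⟨a, -⟩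
            have b := dF_le (O := O) (x := x) hp
            rw [dn_comm] at b
            omega
          linarith
        · intro x _
          rw [abs_of_nonneg (hv0 x)]
          exact hvM x
  -- symmetry
  rw [hsumB U hU.off]
  have h3 := green_symm' hO'' hU hv
  have h4 : ∑ y ∈ hO''.toFinset, g y * U y = ∑ y ∈ hO''.toFinset, φ y * v y := by
    rw [h3]
    exact Finset.sum_congr rfl fun y _ => mul_comm _ _
  rw [h4, Finset.mul_sum]
  refine Finset.sum_le_sum fun y hy => ?_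
  by_cases h0 : φ y = 0
  · rw [h0]; simp
  · have h5 := hdec y (hκ y h0)
    have h6 := hφ y (by simpa using hy)
    calc φ y * v y ≤ φ y * _ := mul_le_mul_of_nonneg_left h5 h6
      _ = _ := by ring

open Classical in
/-- **mass of the layer function far from the source** -/
theorem far_mass : ∃ γ : ℝ, 0 < γ ∧ γ ≤ 1 ∧ ∃ C : ℝ, 0 ≤ C ∧ ∀ {O : Set Pt} (hO : O.Finite), CPr O →
    ∀ (s κ N : ℕ) (χ φ u : Pt → ℝ) (x p : Pt), 1 ≤ s → s ≤ κ → 8 * κ ≤ N →
    IsCut O s (32 ^ 4) χ → IsGreen O φ u → (∀ y, 0 ≤ φ y) → (∀ y, κ < dn x y → φ y = 0) →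
    ∑ y ∈ hO.toFinset, φ y ≤ 1 → p ∉ O → dn x p ≤ 8 * κ →
    ∀ S : Finset Pt, (∀ y ∈ S, N ≤ dn x y) →
    ∑ y ∈ S, |fL O φ χ u y| ≤ C * ((κ : ℝ) / N) ^ γ := by
  obtain ⟨Cf, hCf, hfar⟩ := NT276.far_le
  obtain ⟨γ, hγ, hγ1, hpm⟩ := pot_meso
  obtain ⟨Cd, hCd, hpm⟩ := hpm 900 (by norm_num)
  refine ⟨γ, hγ, hγ1, Cf * (32 ^ 4 + 1) * (Cd * 18), by positivity, ?_⟩
  intro O hO hCP s κ N χ φ u x p hs hsκ hN hχ hu hφ0 hφs hφ1 hp hpx S hS
  obtain ⟨ρ, hρ⟩ : ∃ ρ, ρ = N / 4 := ⟨_, rfl⟩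
  have hρN : 4 * ρ ≤ N := by omega
  have hκ1 : 1 ≤ κ := by omega
  have hκρ : 2 * κ ≤ ρ := by omega
  have hρ1 : 1 ≤ ρ := by omega
  have hNρ : N ≤ 8 * ρ := by omega
  have hρ0 : (0 : ℝ) < ρ := by exact_mod_cast hρ1
  obtain ⟨v4, hv4⟩ := exists_green hO (fun y => if dn x y ≤ 4 * ρ then ((ρ : ℝ) ^ 2)⁻¹ else 0)
  have h1 := hfar O hO hCP s ρ (32 ^ 4) 0 χ φ u φ (fun _ => 0) v4 x hs (by omega) le_rfl hχ hu
    (fun y hy => hφs y (by omega)) hφ0 (fun y hy => hφs y (by omega)) (fun _ => le_rfl)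
    (fun y => by simp) (fun _ _ => rfl)
    (fun v hv0 _ _ => by
      rw [abs_of_nonneg (Finset.sum_nonneg fun y _ => mul_nonneg (hφ0 y) (hv0 y))]
      refine le_of_eq (Finset.sum_congr rfl fun y _ => ?_)
      ring) hv4 S (fun y hy => hρN.trans (hS y hy))
  refine h1.trans ?_
  rw [add_zero]
  have hκN : (0 : ℝ) ≤ ((κ : ℝ) / N) ^ γ := by positivity
  -- the potential
  obtain ⟨ub, -, -, hdom, -, hdec⟩ := hpm O p (9 * ρ) _ v4 hO hCP hp (by omega) (fun y => by
    have hd0 := dens_nonneg (C0 := 900) (by norm_num) p (9 * ρ) y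
    by_cases hy : dn x y ≤ 4 * ρ
    · rw [if_pos hy, abs_of_nonneg (by positivity)]
      have h3 := dn_tri p x y
      rw [dn_comm p x] at h3
      have h2 := le_dens (C0 := 900) (by norm_num) (p := p) (n0 := 9 * ρ) (by omega) (y := y)
        (by omega)
      refine le_trans ?_ h2
      push_cast
      rw [mul_pow, inv_eq_one_div, div_le_div_iff₀ (by positivity) (by positivity)]
      nlinarith
    · rw [if_neg hy, abs_zero]
      exact hd0) hv4
  have hv4b : ∀ y, φ y ≠ 0 → v4 y ≤ Cd * (18 * ((κ : ℝ) / N) ^ γ) := by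
    intro y hy
    have hxy : dn x y ≤ κ := by
      by_contra hc
      exact hy (hφs y (by omega))
    have hF : dF O y ≤ 9 * κ := by
      have a := dF_le (O := O) (x := y) hp
      have b := dn_tri y x p
      rw [dn_comm y x] at b
      omega
    refine (le_abs_self _).trans ((hdom y).trans ((hdec y).trans ?_))
    refine mul_le_mul_of_nonneg_left ?_ hCd
    have hN0 : (0 : ℝ) < N := by
      have : 0 < N := by omega
      exact_mod_cast this
    have e1 : ((dF O y : ℝ) / ((9 * ρ : ℕ) : ℝ)) ≤ 18 * ((κ : ℝ) / N) := by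
      have a1 : (dF O y : ℝ) ≤ 9 * κ := by exact_mod_cast hF
      have a2 : (N : ℝ) ≤ 8 * ρ := by exact_mod_cast hNρ
      push_cast
      rw [← mul_div_assoc, div_le_div_iff₀ (by positivity) hN0]
      have a3 : (0 : ℝ) ≤ κ := Nat.cast_nonneg _
      nlinarith [Nat.cast_nonneg (α := ℝ) (dF O y)]
    refine (Real.rpow_le_rpow (by positivity) e1 hγ.le).trans ?_
    rw [Real.mul_rpow (by norm_num) (by positivity)]
    refine mul_le_mul_of_nonneg_right ?_ hκN
    calc (18 : ℝ) ^ γ ≤ 18 ^ (1 : ℝ) := Real.rpow_le_rpow_of_exponent_le (by norm_num) hγ1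
      _ = 18 := Real.rpow_one _
  have h5 : ∑ y ∈ hO.toFinset, φ y * v4 y ≤ Cd * (18 * ((κ : ℝ) / N) ^ γ) := by
    calc ∑ y ∈ hO.toFinset, φ y * v4 y
        ≤ ∑ y ∈ hO.toFinset, φ y * (Cd * (18 * ((κ : ℝ) / N) ^ γ)) := by
          refine Finset.sum_le_sum fun y _ => ?_
          by_cases h0 : φ y = 0
          · rw [h0]; simp
          · exact mul_le_mul_of_nonneg_left (hv4b y h0) (hφ0 y)
      _ = (∑ y ∈ hO.toFinset, φ y) * (Cd * (18 * ((κ : ℝ) / N) ^ γ)) := by rw [Finset.sum_mul]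
      _ ≤ 1 * (Cd * (18 * ((κ : ℝ) / N) ^ γ)) :=
          mul_le_mul_of_nonneg_right hφ1 (by positivity)
      _ = _ := one_mul _
  calc Cf * (32 ^ 4 + 1) * ∑ y ∈ hO.toFinset, φ y * v4 y
      ≤ Cf * (32 ^ 4 + 1) * (Cd * (18 * ((κ : ℝ) / N) ^ γ)) :=
        mul_le_mul_of_nonneg_left h5 (by positivity)
    _ = _ := by ring

end Vale.Agent.P155.NT733
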