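import Vale.Agent.P155.NT733.OPMain
import Vale.Agent.P155.NT924.Inner

/-!
# P155, NT: `OP1Q 5` and `OPX` from the visit bound
-/

namespace Vale.Agent.P155.NT733

open Vale.Agent.P155

theorem op1q (hV : NT34.VBP2) : NT924.OP1Q 5 := op1_five hV

end Vale.Agent.P155.NT733
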