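import Vale.Agent.P155.NT733.OPDet
import Vale.Agent.P155.NT862.SideS
import Vale.Agent.P155.NT905.LayH
import Vale.Agent.P155.NT211.Err

/-!
# P155, NT, OP1: the harmonic measure near the wall in a SEP zone; components
-/

namespace Vale.Agent.P155.NT733

open Finset Vale.Agent.P155 G45 S743 NT802 NT276 NT426 NT905 J T802 T862 NT

/-- near the wall, in the part which is joined to `x0`, `H` is small if `x0` sees the side `P` on
which `H` vanishes -/
theorem side_near {β : ℝ} (hβ : 0 < β) (hSD : SupDecay 2 β) {O : Set Pt} (hne : ∃ p, p ∉ O)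
    (hCP : CPr O)
    {P : Pt → Prop} {q x0 : Pt} {r1 d n L : ℕ} {H : Pt → ℝ} (hsep : SepA O P q r1 d)
    (hH : ∀ x ∈ O, lap H x = 0) (h01 : ∀ x, 0 ≤ H x ∧ H x ≤ 1)
    (hHb : ∀ b, b ∉ O → P b → H b = 0)
    (hseen : Seen O P q r1 n x0) (hLd : n + 2 * L + 1 ≤ d)
    (hLr : dn q x0 + n + 2 * L + 1 ≤ r1) {y : Pt}
    (hy : Conn {x | x ∈ O ∧ x ∈ box x0 n} x0 y) :
    H y ≤ 2 * (((dF O y : ℝ) + 1) / ((L : ℝ) + 1)) ^ β := by
  obtain ⟨f', a', cf, hfa, haO, haP⟩ := hseen
  obtain ⟨p, hp, hpy⟩ := exists_dF hne y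
  have hyO : y ∈ O := (Conn.right hy).1
  have hxy : dn x0 y ≤ n := G45.mem_box.1 (Conn.right hy).2
  rcases Nat.lt_or_ge L (dF O y) with hlt | hge
  · have h1 : (1 : ℝ) ≤ (((dF O y : ℝ) + 1) / ((L : ℝ) + 1)) ^ β := by
      apply Real.one_le_rpow _ hβ.le
      rw [le_div_iff₀ (by positivity), one_mul]
      have : (L : ℝ) ≤ dF O y := by exact_mod_cast hlt.le
      linarith
    have := (h01 y).2
    linarith
  · have hpy' : dn p y = dF O y := by rw [G45.dn_comm]; exact hpy
    have h := near_val hSD (H := H) hCP h01 hH hp (R := L) hyO (by omega) (v := 0)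
      ⟨le_rfl, zero_le_one⟩ ?_
    · rw [sub_zero, abs_of_nonneg (h01 y).1, hpy'] at h
      exact h
    · intro z hz hzL w hzw hw
      apply hHb w hw
      -- the connection
      have hsub := Kc_sub (O := O) (p := p) (R := L) hyO (by omega)
      have cB : ∀ g, g ∈ O → dn p g ≤ L → g ∈ {x | x ∈ O ∧ x ∈ box q r1 ∧ x ∈ box x0 d} := by
        intro g hg hgL
        have e1 := G45.dn_tri x0 y g
        have e2 := G45.dn_tri y p g
        have e3 := G45.dn_tri q x0 g
        exact ⟨hg, G45.mem_box.2 (by omega), G45.mem_box.2 (by omega)⟩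
      have c1 : Conn {x | x ∈ O ∧ x ∈ box q r1 ∧ x ∈ box x0 d} y z := by
        refine ⟨cB y hyO (by omega), ?_⟩
        have hz' : Relation.ReflTransGen (fun a b => Adj a b ∧ b ∈ O ∧ dn p b ≤ L) y z := hz
        exact Relation.ReflTransGen.mono (fun a b hab => ⟨hab.1, cB b hab.2.1 hab.2.2⟩) _ _ hz'
      have c2 : Conn {x | x ∈ O ∧ x ∈ box q r1 ∧ x ∈ box x0 d} x0 y := by
        refine Conn.mono ?_ hy
        rintro g ⟨g1, g2⟩
        have e1 := G45.mem_box.1 g2
        have e3 := G45.dn_tri q x0 g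
        exact ⟨g1, G45.mem_box.2 (by omega), G45.mem_box.2 (by omega)⟩
      have c3 : Conn {x | x ∈ O ∧ x ∈ box q r1 ∧ x ∈ box x0 d} x0 f' := by
        refine Conn.mono ?_ cf
        rintro g ⟨g1, g2, g3⟩
        exact ⟨g1, g2, NT802.box_mono (by omega) g3⟩
      exact (hsep x0 f' z (c3.symm.trans (c2.trans c1)) a' w haO hw hfa hzw).1 haP

/-- the nearest wall face is seen -/
theorem seen_some {O : Set Pt} (hne : ∃ p, p ∉ O) {q x0 : Pt} {r1 n : ℕ} (hx0 : x0 ∈ O)
    (hn : dF O x0 ≤ n) (hr : dn q x0 + n ≤ r1) : Seen O (fun _ => True) q r1 n x0 := by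
  obtain ⟨p, hp, hpy⟩ := exists_dF hne x0
  -- a path from `x0` to `p`
  have key : ∀ m : ℕ, ∀ y : Pt, y ∈ O → dn x0 y ≤ n → (y.1 - p.1).natAbs + (y.2 - p.2).natAbs ≤ m →
      dn x0 y ≤ dF O x0 →
      (∀ u : Pt, ((x0.1 ≤ u.1 ∧ u.1 ≤ p.1) ∨ (p.1 ≤ u.1 ∧ u.1 ≤ x0.1)) →
        ((x0.2 ≤ u.2 ∧ u.2 ≤ p.2) ∨ (p.2 ≤ u.2 ∧ u.2 ≤ x0.2)) → dn x0 u ≤ dF O x0) →
      ((x0.1 ≤ y.1 ∧ y.1 ≤ p.1) ∨ (p.1 ≤ y.1 ∧ y.1 ≤ x0.1)) →
      ((x0.2 ≤ y.2 ∧ y.2 ≤ p.2) ∨ (p.2 ≤ y.2 ∧ y.2 ≤ x0.2)) →
      ∃ f' a : Pt, Conn {y | y ∈ O ∧ y ∈ box q r1 ∧ y ∈ box x0 n} y f' ∧ Adj f' a ∧ a ∉ O ∧ True := by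
    intro m
    induction m with
    | zero =>
      intro y hy _ hm _ _ _ _
      exfalso
      have : y = p := by
        apply Prod.ext <;> omega
      rw [this] at hy
      exact hp hy
    | succ m ih =>
      intro y hy hyn hm hyd hbox h1 h2
      have hyS : y ∈ {y | y ∈ O ∧ y ∈ box q r1 ∧ y ∈ box x0 n} := by
        have e := G45.dn_tri q x0 y
        exact ⟨hy, G45.mem_box.2 (by omega), G45.mem_box.2 hyn⟩
      have step : ∀ y' : Pt, Adj y y' → (y'.1 - p.1).natAbs + (y'.2 - p.2).natAbs ≤ m →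
          ((x0.1 ≤ y'.1 ∧ y'.1 ≤ p.1) ∨ (p.1 ≤ y'.1 ∧ y'.1 ≤ x0.1)) →
          ((x0.2 ≤ y'.2 ∧ y'.2 ≤ p.2) ∨ (p.2 ≤ y'.2 ∧ y'.2 ≤ x0.2)) →
          ∃ f' a : Pt, Conn {y | y ∈ O ∧ y ∈ box q r1 ∧ y ∈ box x0 n} y f' ∧ Adj f' a ∧ a ∉ O ∧
            True := by
        intro y' hyy hm' a1 a2
        by_cases hy' : y' ∈ O
        · have hd := hbox y' a1 a2
          obtain ⟨f', a, b1, b2, b3, -⟩ := ih y' hy' (by omega) hm' hd hbox a1 a2
          exact ⟨f', a, (Conn.step hyS b1.1 hyy).trans b1, b2, b3, trivial⟩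
        · exact ⟨y, y', Conn.refl hyS, hyy, hy', trivial⟩
      by_cases hx : y.1 = p.1
      · by_cases hy2 : y.2 = p.2
        · exfalso
          have : y = p := Prod.ext hx hy2
          rw [this] at hy
          exact hp hy
        · rcases lt_or_gt_of_ne hy2 with hlt | hgt
          · exact step (y.1, y.2 + 1) (by unfold Adj; simp) (by simp only; omega)
              (by simp only; omega) (by simp only; omega)
          · exact step (y.1, y.2 - 1) (by unfold Adj; simp) (by simp only; omega)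
              (by simp only; omega) (by simp only; omega)
      · rcases lt_or_gt_of_ne hx with hlt | hgt
        · exact step (y.1 + 1, y.2) (by unfold Adj; simp) (by simp only; omega)
            (by simp only; omega) (by simp only; omega)
        · exact step (y.1 - 1, y.2) (by unfold Adj; simp) (by simp only; omega)
            (by simp only; omega) (by simp only; omega)
  refine key _ x0 hx0 (by rw [G45.dn_self]; omega) le_rfl (by rw [G45.dn_self]; omega) ?_
    (by omega) (by omega)
  intro u h1 h2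
  rw [← hpy, G45.dn_eq, G45.dn_eq]
  omega

open Classical in
/-- a potential is supported on the components of its source -/
theorem green_conn {O : Set Pt} (hO : O.Finite) {φ U : Pt → ℝ} (hU : IsGreen O φ U) {y : Pt}
    (hy : U y ≠ 0) : ∃ y', φ y' ≠ 0 ∧ Conn O y y' := by
  by_contra hcon
  push Not at hcon
  have hyO : y ∈ O := by
    by_contra h
    exact hy (hU.off y h)
  obtain ⟨W, hW⟩ : ∃ W : Pt → ℝ, W = fun w => if Conn O y w then U w else 0 := ⟨_, rfl⟩
  have hWG : IsGreen O (fun _ => 0) W := by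
    constructor
    · intro w hw
      rw [hW]
      simp only
      rw [if_neg (fun h => hw (Conn.right h))]
    · intro w hw
      by_cases hc : Conn O y w
      · have hφ : φ w = 0 := by
          by_contra h
          exact hcon w h hc
        have hn : ∀ w', Adj w w' → W w' = U w' := by
          intro w' hww
          rw [hW]
          simp only
          by_cases h' : w' ∈ O
          · rw [if_pos (hc.trans (Conn.step hw h' hww))]
          · rw [if_neg (fun h => h' (Conn.right h)), hU.off w' h']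
        have hww : W w = U w := by
          rw [hW]
          simp only
          rw [if_pos hc]
        obtain ⟨a1, a2, a3, a4⟩ := adj4 w
        have e := hU.eq w hw
        unfold lap at e ⊢
        rw [hn _ a1, hn _ a2, hn _ a3, hn _ a4, hww]
        rw [e, hφ]
      · have hn : ∀ w', Adj w w' → W w' = 0 := by
          intro w' hww
          rw [hW]
          simp only
          by_cases h' : w' ∈ O
          · rw [if_neg]
            intro h
            exact hc (h.trans (Conn.step h' hw (SW.adj_symm hww)))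
          · rw [if_neg (fun h => h' (Conn.right h))]
        have hww : W w = 0 := by
          rw [hW]
          simp only
          rw [if_neg hc]
        obtain ⟨a1, a2, a3, a4⟩ := adj4 w
        unfold lap
        rw [hn _ a1, hn _ a2, hn _ a3, hn _ a4, hww]
        norm_num
  have h0 := green_unique hO hWG (v := fun _ => 0) ⟨fun _ _ => rfl, fun x _ => by
    rw [lap_const]; norm_num⟩
  have h1 : W y = 0 := by rw [h0]
  rw [hW] at h1
  simp only at h1
  rw [if_pos (Conn.refl hyO)] at h1
  exact hy h1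

/-- a box of free faces is connected -/
theorem conn_inbox {O : Set Pt} {x : Pt} {m : ℕ} (h : ∀ f, dn x f ≤ m → f ∈ O) {y : Pt}
    (hy : dn x y ≤ m) : Conn O x y := by
  -- walk from `y` to `x`
  have key : ∀ k : ℕ, ∀ y : Pt, dn x y ≤ m → (y.1 - x.1).natAbs + (y.2 - x.2).natAbs ≤ k →
      Conn O x y := by
    intro k
    induction k with
    | zero =>
      intro y _ hk
      have : y = x := by apply Prod.ext <;> omega
      rw [this]
      exact Conn.refl (h x (by rw [G45.dn_self]; omega))
    | succ k ih =>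
      intro y hy hk
      have step : ∀ y' : Pt, Adj y' y → dn x y' ≤ m →
          (y'.1 - x.1).natAbs + (y'.2 - x.2).natAbs ≤ k → Conn O x y' → Conn O x y :=
        fun y' h1 h2 _ h3 => h3.trans (Conn.step (h y' h2) (h y hy) h1)
      have hd := hy
      rw [G45.dn_eq] at hd
      by_cases h1 : y.1 = x.1
      · by_cases h2 : y.2 = x.2
        · rw [show y = x from Prod.ext h1 h2]
          exact Conn.refl (h x (by rw [G45.dn_self]; omega))
        · rcases lt_or_gt_of_ne h2 with hlt | hgt
          · have a : dn x (y.1, y.2 + 1) ≤ m := by rw [G45.dn_eq]; simp only; omega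
            have b : ((y.1, y.2 + 1) : Pt).1 = y.1 := rfl
            exact step (y.1, y.2 + 1) (by unfold Adj; simp) a (by simp only; omega)
              (ih _ a (by simp only; omega))
          · have a : dn x (y.1, y.2 - 1) ≤ m := by rw [G45.dn_eq]; simp only; omega
            exact step (y.1, y.2 - 1) (by unfold Adj; simp) a (by simp only; omega)
              (ih _ a (by simp only; omega))
      · rcases lt_or_gt_of_ne h1 with hlt | hgt
        · have a : dn x (y.1 + 1, y.2) ≤ m := by rw [G45.dn_eq]; simp only; omega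
          exact step (y.1 + 1, y.2) (by unfold Adj; simp) a (by simp only; omega)
            (ih _ a (by simp only; omega))
        · have a : dn x (y.1 - 1, y.2) ≤ m := by rw [G45.dn_eq]; simp only; omega
          exact step (y.1 - 1, y.2) (by unfold Adj; simp) a (by simp only; omega)
            (ih _ a (by simp only; omega))
  exact key _ y hy le_rfl

end Vale.Agent.P155.NT733
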