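import Vale.Agent.P155.G45.Basic
import Vale.Agent.P155.L.Nest
import Vale.Agent.P155.L.Expl
import Vale.Agent.P155.HT426.Sym
import Vale.Agent.P155.T211Q.SignCov

/-!
# P155, literal Q1, necessity of `Outer`: blocks (D2) and (D3)
-/

namespace Vale.Agent.P155.NT733

open Finset SW HT L

variable {V : Finset Pt} {ω : Conf}

/-- the loop `L` separates two faces of the box -/
def Cuts (ω : Conf) (L : Set Pt) (z : Pt) (m : ℕ) : Prop :=
  (∃ x ∈ box z m, surr ω L x) ∧ ∃ y ∈ box z m, ¬ surr ω L y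

/-- every loop cutting the box has diameter at most `e`, fewer than `k` loops surround the box -/
def GoodX (k : ℕ) (z : Pt) (m e : ℕ) (ω : Conf) : Prop :=
  (∀ L ∈ Loops ω, Cuts ω L z m → ∀ v ∈ L, ∀ w ∈ L, dn v w ≤ e) ∧
  Set.ncard {L | L ∈ Loops ω ∧ ∀ x ∈ box z m, surr ω L x} < k

theorem cuts_swap (S : Set Pt) (ω : Conf) (A : Set Pt) (z : Pt) (m : ℕ) :
    Cuts (swapOn S ω) A z m ↔ Cuts ω A z m := by
  unfold Cuts
  rw [surr_swap]

theorem goodX_swap (k : ℕ) (z : Pt) (m e : ℕ) (S : Set Pt) (ω : Conf) :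
    GoodX k z m e (swapOn S ω) ↔ GoodX k z m e ω := by
  unfold GoodX
  simp only [loops_swap, cuts_swap, surr_swap]

/-- the faces inside a small loop are near its vertices -/
theorem inside_near (hω : ω ∈ DD V) {A : Set Pt} (hA : A ∈ Loops ω) {e : ℕ}
    (he : ∀ v ∈ A, ∀ w ∈ A, dn v w ≤ e) {f : Pt} (hf : surr ω A f) {v : Pt} (hv : v ∈ A) :
    dn v f ≤ e := by
  obtain ⟨γ, h1, _, h2⟩ := exists_cycle hω hA
  have hin := (h2 f).1 hf
  obtain ⟨⟨j, hj, hjv⟩, ⟨j', hj', hjv'⟩, _, _⟩ := LatCycle.inside_box hin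
  have m1 : ((j, f.2) : Pt) ∈ A := by
    rw [← h1]
    rcases hjv with ⟨i, hi | hi⟩
    · exact ⟨i, hi.1⟩
    · exact ⟨i + 1, hi.2⟩
  have m2 : ((j', f.2) : Pt) ∈ A := by
    rw [← h1]
    rcases hjv' with ⟨i, hi | hi⟩
    · exact ⟨i, hi.1⟩
    · exact ⟨i + 1, hi.2⟩
  have e1 := he v hv _ m1
  have e2 := he v hv _ m2
  rw [G45.dn_le_iff] at e1 e2 ⊢
  simp only at e1 e2
  omega

/-- a Green function in a set contained in a small box -/
theorem green_small {D : Set Pt} (hD : D.Finite) {φ u : Pt → ℝ} (hu : IsGreen D φ u) {A : ℝ}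
    (hA : ∀ y, |φ y| ≤ A) {c : Pt} {e : ℕ} (hDe : ∀ y ∈ D, dn c y ≤ e) (x : Pt) :
    |u x| ≤ A * ((e : ℝ) + 1) ^ 2 := by
  have hA0 : 0 ≤ A := (abs_nonneg _).trans (hA c)
  set v : Pt → ℝ := fun y => A * max (((e : ℝ) + 1) ^ 2 - ((y.1 : ℝ) - c.1) ^ 2) 0 with hv
  have hv0 : ∀ y, 0 ≤ v y := fun y => mul_nonneg hA0 (le_max_right _ _)
  have hval : ∀ y : Pt, |(y.1 : ℝ) - c.1| ≤ e + 1 →
      v y = A * (((e : ℝ) + 1) ^ 2 - ((y.1 : ℝ) - c.1) ^ 2) := by
    intro y hy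
    have : 0 ≤ ((e : ℝ) + 1) ^ 2 - ((y.1 : ℝ) - c.1) ^ 2 := by
      have := sq_le_sq' (by linarith [(abs_le.1 hy).1]) (abs_le.1 hy).2
      linarith
    simp only [hv]
    rw [max_eq_left this]
  have hle : ∀ y, v y ≤ A * ((e : ℝ) + 1) ^ 2 := by
    intro y
    refine mul_le_mul_of_nonneg_left (max_le ?_ (by positivity)) hA0
    have := sq_nonneg ((y.1 : ℝ) - c.1)
    linarith
  clear_value v
  have hlap : ∀ y ∈ D, - lap v y = 2 * A := by
    intro y hy
    have h1 := hDe y hy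
    rw [G45.dn_le_iff] at h1
    have h2 : ((c.1 : ℤ) : ℝ) - e ≤ y.1 := by exact_mod_cast h1.1.1
    have h3 : ((y.1 : ℤ) : ℝ) ≤ c.1 + e := by exact_mod_cast h1.1.2
    unfold lap
    rw [hval (y.1 + 1, y.2) (by push_cast; rw [abs_le]; constructor <;> linarith),
      hval (y.1 - 1, y.2) (by push_cast; rw [abs_le]; constructor <;> linarith),
      hval (y.1, y.2 + 1) (by rw [abs_le]; constructor <;> simp only <;> linarith),
      hval (y.1, y.2 - 1) (by rw [abs_le]; constructor <;> simp only <;> linarith),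
      hval y (by rw [abs_le]; constructor <;> linarith)]
    push_cast
    ring
  refine le_trans ?_ (hle x)
  rw [abs_le]
  constructor
  · have := G45.sub_le_green hD hu (w := fun y => - v y)
      (fun y hy => by rw [G45.lap_neg]; linarith [hlap y hy, (abs_le.1 (hA y)).1])
      (fun y _ => by linarith [hv0 y]) x
    exact this
  · exact G45.green_le_super hD hu (w := v)
      (fun y hy => by linarith [hlap y hy, (abs_le.1 (hA y)).2]) (fun y _ => hv0 y) x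

theorem fits_fin {T : Temp} {R : ℕ} (hT : Skel.Fits T R) (k : ℕ) (ω : Conf) :
    (Ok T k ω).Finite :=
  ((box (0, 0) R).finite_toSet).subset fun _ hx => hT hx.1

open Classical in
/-- **(D2), pointwise**: the Green function on `O^{(k)}` is small on the box -/
theorem green_goodX {T : Temp} {R : ℕ} (hT : Skel.Fits T R) {φ u : Pt → ℝ} {A : ℝ}
    (hA : ∀ y, |φ y| ≤ A) {z : Pt} {m k e : ℕ} (hω : ω ∈ DD T.V) (hg : GoodX k z m e ω)
    (hu : IsGreen (Ok T k ω) φ u) {x : Pt} (hx : x ∈ box z m) :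
    |u x| ≤ A * ((e : ℝ) + 1) ^ 2 := by
  have hA0 : 0 ≤ A := (abs_nonneg _).trans (hA x)
  by_cases hxO : x ∈ Ok T k ω
  swap
  · rw [hu.off x hxO, abs_zero]; positivity
  have hk : 1 ≤ k := by
    have := hg.2
    omega
  obtain ⟨A', hA', hsx, hlev⟩ := (laminar hω).exists_lev hk hxO.2
  have hcut : Cuts ω A' z m := by
    refine ⟨⟨x, hx, hsx⟩, ?_⟩
    by_contra hcon
    push Not at hcon
    have h1 : lev (Loops ω) (intr ω) A' ≤
        Set.ncard {L | L ∈ Loops ω ∧ ∀ x ∈ box z m, surr ω L x} := by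
      refine Set.ncard_le_ncard ?_ ((laminar hω).fin_sub _)
      rintro B ⟨hB, hsub⟩
      exact ⟨hB, fun y hy => hsub (hcon y hy)⟩
    rw [hlev] at h1
    exact absurd hg.2 (not_lt.2 h1)
  have he := hg.1 A' hA' hcut
  obtain ⟨v0, hv0⟩ : A'.Nonempty := by
    obtain ⟨v, _, rfl⟩ := hA'
    exact ⟨v, Relation.ReflTransGen.refl⟩
  set D : Set Pt := {f | f ∈ Ok T k ω ∧ surr ω A' f} with hD
  have hDf : D.Finite := (fits_fin hT k ω).subset fun _ h => h.1
  set u' : Pt → ℝ := fun y => if y ∈ D then u y else 0 with hu'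
  have hnb : ∀ y ∈ D, ∀ y', Adj y y' → u' y' = u y' := by
    intro y hy y' hadj
    simp only [hu']
    split_ifs with h
    · rfl
    · by_cases h' : y' ∈ Ok T k ω
      · exact absurd ⟨h', same_level_adj hω hk hA' hlev hadj hy.2 h'.2⟩ h
      · rw [hu.off y' h']
  have hG : IsGreen D φ u' := by
    constructor
    · intro y hy
      simp only [hu', if_neg hy]
    · intro y hy
      rw [← hu.eq y hy.1]
      unfold lap
      rw [hnb y hy (y.1 + 1, y.2) (by simp [Adj]), hnb y hy (y.1 - 1, y.2) (by simp [Adj]),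
        hnb y hy (y.1, y.2 + 1) (by simp [Adj]), hnb y hy (y.1, y.2 - 1) (by simp [Adj])]
      simp only [hu', if_pos hy]
  have := green_small hDf hG hA (c := v0) (e := e)
    (fun y hy => inside_near hω hA' he hy.2 hv0) x
  have hxD : x ∈ D := ⟨hxO, hsx⟩
  simpa only [hu', if_pos hxD] using this

theorem card_box_le {z : Pt} {m R : ℕ} (hR : 1 ≤ R) (hm : m ≤ R) :
    ((box z m).card : ℝ) ≤ 9 * (R : ℝ) ^ 2 := by
  rw [G45.card_box]
  push_cast
  have h1 : (m : ℝ) ≤ R := by exact_mod_cast hm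
  have h2 : (1 : ℝ) ≤ R := by exact_mod_cast hR
  have h3 : (0 : ℝ) ≤ m := Nat.cast_nonneg m
  nlinarith

/-- **(D2)** -/
theorem pair_goodX {T : Temp} {R : ℕ} (hR : 1 ≤ R) (hT : Skel.Fits T R) {φ u : Pt → ℝ}
    {C0 : ℝ} (hA : ∀ y, |φ y| ≤ C0 / (R : ℝ) ^ 2) {z : Pt} {m k e : ℕ} (hm : m ≤ R)
    (hsupp : ∀ y, y ∉ box z m → φ y = 0) (hω : ω ∈ DD T.V) (hg : GoodX k z m e ω)
    (hu : IsGreen (Ok T k ω) φ u) :
    |pair φ u| ≤ 9 * C0 ^ 2 * ((e : ℝ) + 1) ^ 2 / (R : ℝ) ^ 2 := by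
  have hRr : (1 : ℝ) ≤ R := by exact_mod_cast hR
  unfold pair
  rw [finsum_eq_sum_of_support_subset (s := box z m) _ (by
    intro x hx
    by_contra h
    exact hx (by simp only [hsupp x h, zero_mul]))]
  calc |∑ x ∈ box z m, φ x * u x| ≤ ∑ x ∈ box z m, |φ x * u x| := Finset.abs_sum_le_sum_abs _ _
    _ ≤ ∑ x ∈ box z m, C0 / (R : ℝ) ^ 2 * (C0 / (R : ℝ) ^ 2 * ((e : ℝ) + 1) ^ 2) := by
        refine Finset.sum_le_sum fun x hx => ?_
        rw [abs_mul]
        exact mul_le_mul (hA x) (green_goodX hT hA hω hg hu hx) (abs_nonneg _)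
          ((abs_nonneg _).trans (hA x))
    _ = ((box z m).card : ℝ) * (C0 / (R : ℝ) ^ 2 * (C0 / (R : ℝ) ^ 2 * ((e : ℝ) + 1) ^ 2)) := by
        rw [Finset.sum_const, nsmul_eq_mul]
    _ ≤ 9 * (R : ℝ) ^ 2 * (C0 / (R : ℝ) ^ 2 * (C0 / (R : ℝ) ^ 2 * ((e : ℝ) + 1) ^ 2)) := by
        refine mul_le_mul_of_nonneg_right (card_box_le hR hm) ?_
        have : C0 / (R : ℝ) ^ 2 * (C0 / (R : ℝ) ^ 2 * ((e : ℝ) + 1) ^ 2) =
          (C0 / (R : ℝ) ^ 2) ^ 2 * ((e : ℝ) + 1) ^ 2 := by ring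
        rw [this]; positivity
    _ = 9 * C0 ^ 2 * ((e : ℝ) + 1) ^ 2 / (R : ℝ) ^ 2 := by field_simp

/-- the increment tested against `φ` -/
noncomputable def incr (z : Pt) (m : ℕ) (φ : Pt → ℝ) (j : ℕ) (ω : Conf) : ℝ :=
  ∑ x ∈ box z m, φ x * (T211Q.ic j ω x : ℝ)

theorem hk_sum (ω : Conf) (k : ℕ) (x : Pt) :
    (hk k ω x : ℝ) - hk 0 ω x = ∑ j ∈ Finset.range k, (T211Q.ic j ω x : ℝ) := by
  unfold T211Q.ic
  push_cast
  rw [Finset.sum_range_sub (fun j => (hk j ω x : ℝ))]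

open Classical in
/-- **(D3), pointwise part**: the mass of the pairs under a common loop -/
theorem same_mass {R : ℕ} (hR : 1 ≤ R) {φ : Pt → ℝ} {C0 : ℝ}
    (hA : ∀ y, |φ y| ≤ C0 / (R : ℝ) ^ 2) {z : Pt} {m k e : ℕ} (hm : m ≤ R)
    (hsum : ∑ x ∈ box z m, φ x = 0) (hω : ω ∈ DD V) (hg : GoodX k z m e ω) (j : ℕ) :
    ∑ x ∈ box z m, ∑ y ∈ box z m, φ x * φ y *
      (if T211Q.SameLev (j + 1) ω x y then (1 : ℝ) else 0) ≤
      144 * C0 ^ 2 * ((e : ℝ) + 1) ^ 2 / (R : ℝ) ^ 2 := by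
  have hRr : (1 : ℝ) ≤ R := by exact_mod_cast hR
  by_cases hall : ∃ L ∈ Loops ω, level ω L = j + 1 ∧ ∀ x ∈ box z m, surr ω L x
  · obtain ⟨L, hL, hl, hs⟩ := hall
    have h1 : ∑ x ∈ box z m, ∑ y ∈ box z m, φ x * φ y *
      (if T211Q.SameLev (j + 1) ω x y then (1 : ℝ) else 0) =
        (∑ x ∈ box z m, φ x) * ∑ y ∈ box z m, φ y := by
      rw [Finset.sum_mul_sum]
      refine Finset.sum_congr rfl fun x hx => Finset.sum_congr rfl fun y hy => ?_
      rw [if_pos ⟨L, hL, hl, hs x hx, hs y hy⟩, mul_one]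
    rw [h1, hsum, zero_mul]
    positivity
  · push Not at hall
    have hnear : ∀ x ∈ box z m, ∀ y ∈ box z m, T211Q.SameLev (j + 1) ω x y →
        y ∈ box x (2 * e) := by
      rintro x hx y hy ⟨L, hL, hl, hsx, hsy⟩
      obtain ⟨w, hw, hsw⟩ := hall L hL hl
      have he := hg.1 L hL ⟨⟨x, hx, hsx⟩, w, hw, hsw⟩
      obtain ⟨v0, hv0⟩ : L.Nonempty := by
        obtain ⟨v, _, rfl⟩ := hL
        exact ⟨v, Relation.ReflTransGen.refl⟩
      have a1 := inside_near hω hL he hsx hv0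
      have a2 := inside_near hω hL he hsy hv0
      rw [G45.mem_box]
      have := G45.dn_tri x v0 y
      rw [G45.dn_comm x v0] at this
      omega
    calc ∑ x ∈ box z m, ∑ y ∈ box z m, φ x * φ y *
          (if T211Q.SameLev (j + 1) ω x y then (1 : ℝ) else 0)
        ≤ ∑ x ∈ box z m, ∑ y ∈ box x (2 * e), (C0 / (R : ℝ) ^ 2) ^ 2 := by
          refine Finset.sum_le_sum fun x hx => ?_
          calc ∑ y ∈ box z m, φ x * φ y *
              (if T211Q.SameLev (j + 1) ω x y then (1 : ℝ) else 0)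
              ≤ ∑ y ∈ box z m, (if y ∈ box x (2 * e) then (C0 / (R : ℝ) ^ 2) ^ 2 else 0) := by
                refine Finset.sum_le_sum fun y hy => ?_
                by_cases hs : T211Q.SameLev (j + 1) ω x y
                · rw [if_pos hs, if_pos (hnear x hx y hy hs), mul_one, sq]
                  refine (le_abs_self _).trans ?_
                  rw [abs_mul]
                  exact mul_le_mul (hA x) (hA y) (abs_nonneg _) ((abs_nonneg _).trans (hA x))
                · rw [if_neg hs, mul_zero]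
                  split_ifs
                  · positivity
                  · exact le_rfl
            _ = ∑ y ∈ (box z m).filter (fun y => y ∈ box x (2 * e)), (C0 / (R : ℝ) ^ 2) ^ 2 := by
                rw [Finset.sum_filter]
            _ ≤ ∑ y ∈ box x (2 * e), (C0 / (R : ℝ) ^ 2) ^ 2 := by
                refine Finset.sum_le_sum_of_subset_of_nonneg ?_ (fun _ _ _ => by positivity)
                intro y hy
                exact (Finset.mem_filter.1 hy).2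
      _ = ((box z m).card : ℝ) * (((2 * (2 * e) + 1 : ℕ) : ℝ) ^ 2 * (C0 / (R : ℝ) ^ 2) ^ 2) := by
          simp only [Finset.sum_const, nsmul_eq_mul, G45.card_box]
          push_cast
          ring
      _ ≤ (9 * (R : ℝ) ^ 2) * (16 * ((e : ℝ) + 1) ^ 2 * (C0 / (R : ℝ) ^ 2) ^ 2) := by
          refine mul_le_mul (card_box_le hR hm) ?_ (by positivity) (by positivity)
          refine mul_le_mul_of_nonneg_right ?_ (by positivity)
          push_cast
          have : (0 : ℝ) ≤ e := Nat.cast_nonneg e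
          nlinarith
      _ = 144 * C0 ^ 2 * ((e : ℝ) + 1) ^ 2 / (R : ℝ) ^ 2 := by field_simp; ring

open Classical in
/-- **(D3)**, one level -/
theorem incr_goodX {T : Temp} {R : ℕ} (hR : 1 ≤ R) {φ : Pt → ℝ} {C0 : ℝ}
    (hA : ∀ y, |φ y| ≤ C0 / (R : ℝ) ^ 2) {z : Pt} {m k e : ℕ} (hm : m ≤ R)
    (hsum : ∑ x ∈ box z m, φ x = 0) (j : ℕ) :
    Ex T.V (fun ω => (if GoodX k z m e ω then (1 : ℝ) else 0) * incr z m φ j ω ^ 2) ≤
      144 * C0 ^ 2 * ((e : ℝ) + 1) ^ 2 / (R : ℝ) ^ 2 := by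
  set g : Conf → ℝ := fun ω => if GoodX k z m e ω then (1 : ℝ) else 0 with hg
  have hgs : ∀ ω ∈ DD T.V, ∀ S, g (swapOn S ω) = g ω := by
    intro ω _ S
    simp only [hg, goodX_swap]
  have h1 : Ex T.V (fun ω => g ω * incr z m φ j ω ^ 2) =
      Ex T.V (fun ω => g ω * ∑ x ∈ box z m, ∑ y ∈ box z m, φ x * φ y *
        (if T211Q.SameLev (j + 1) ω x y then (1 : ℝ) else 0)) := by
    have e1 : ∀ ω : Conf, g ω * incr z m φ j ω ^ 2 = ∑ x ∈ box z m, ∑ y ∈ box z m,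
        φ x * φ y * (g ω * ((T211Q.ic j ω x : ℝ) * T211Q.ic j ω y)) := by
      intro ω
      unfold incr
      rw [sq, Finset.sum_mul_sum, Finset.mul_sum]
      refine Finset.sum_congr rfl fun x _ => ?_
      rw [Finset.mul_sum]
      exact Finset.sum_congr rfl fun y _ => by ring
    have e2 : ∀ ω : Conf, g ω * ∑ x ∈ box z m, ∑ y ∈ box z m, φ x * φ y *
        (if T211Q.SameLev (j + 1) ω x y then (1 : ℝ) else 0) = ∑ x ∈ box z m, ∑ y ∈ box z m,
        φ x * φ y * (g ω * (if T211Q.SameLev (j + 1) ω x y then (1 : ℝ) else 0)) := by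
      intro ω
      rw [Finset.mul_sum]
      refine Finset.sum_congr rfl fun x _ => ?_
      rw [Finset.mul_sum]
      exact Finset.sum_congr rfl fun y _ => by ring
    simp only [e1, e2]
    unfold Ex
    congr 1
    rw [Finset.sum_comm]
    rw [Finset.sum_comm (s := DD T.V)]
    refine Finset.sum_congr rfl fun x _ => ?_
    rw [Finset.sum_comm]
    rw [Finset.sum_comm (s := DD T.V)]
    refine Finset.sum_congr rfl fun y _ => ?_
    rw [← Finset.mul_sum, ← Finset.mul_sum, T211Q.sum_cov j x y g hgs]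
  rw [h1]
  set B : ℝ := 144 * C0 ^ 2 * ((e : ℝ) + 1) ^ 2 / (R : ℝ) ^ 2 with hB
  have hB0 : 0 ≤ B := by positivity
  have h2 : ∀ ω ∈ DD T.V, g ω * ∑ x ∈ box z m, ∑ y ∈ box z m, φ x * φ y *
        (if T211Q.SameLev (j + 1) ω x y then (1 : ℝ) else 0) ≤ B := by
    intro ω hω
    simp only [hg]
    split_ifs with h
    · rw [one_mul]
      exact same_mass hR hA hm hsum hω h j
    · rw [zero_mul]; exact hB0
  unfold Ex
  rw [smul_eq_mul]
  have hc : (0 : ℝ) < ((DD T.V).card : ℝ) := by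
    exact_mod_cast Finset.card_pos.2 (K1.dd_nonempty T)
  calc ((DD T.V).card : ℝ)⁻¹ * ∑ ω ∈ DD T.V, (g ω * ∑ x ∈ box z m, ∑ y ∈ box z m, φ x * φ y *
        (if T211Q.SameLev (j + 1) ω x y then (1 : ℝ) else 0))
      ≤ ((DD T.V).card : ℝ)⁻¹ * ∑ ω ∈ DD T.V, B :=
        mul_le_mul_of_nonneg_left (Finset.sum_le_sum h2) (by positivity)
    _ = B := by rw [Finset.sum_const, nsmul_eq_mul]; field_simp

open Classical in
/-- **(D3)** -/
theorem sq_goodX {T : Temp} {R : ℕ} (hR : 1 ≤ R) {φ : Pt → ℝ} {C0 : ℝ}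
    (hA : ∀ y, |φ y| ≤ C0 / (R : ℝ) ^ 2) {z : Pt} {m k e : ℕ} (hm : m ≤ R)
    (hsupp : ∀ y, y ∉ box z m → φ y = 0) (hsum : ∑ x ∈ box z m, φ x = 0) :
    Ex T.V (fun ω => (if GoodX k z m e ω then (1 : ℝ) else 0) *
      (∑ᶠ x : Pt, φ x * ((hk k ω x : ℝ) - hk 0 ω x)) ^ 2) ≤
      144 * C0 ^ 2 * (k : ℝ) ^ 2 * ((e : ℝ) + 1) ^ 2 / (R : ℝ) ^ 2 := by
  set g : Conf → ℝ := fun ω => if GoodX k z m e ω then (1 : ℝ) else 0 with hg
  have hg0 : ∀ ω, 0 ≤ g ω := by
    intro ω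
    simp only [hg]
    split_ifs <;> norm_num
  have h1 : ∀ ω ∈ DD T.V, (∑ᶠ x : Pt, φ x * ((hk k ω x : ℝ) - hk 0 ω x)) =
      ∑ j ∈ Finset.range k, incr z m φ j ω := by
    intro ω hω
    rw [finsum_eq_sum_of_support_subset (s := box z m) _ (by
      intro x hx
      by_contra h
      exact hx (by simp only [hsupp x h, zero_mul]))]
    unfold incr
    rw [Finset.sum_comm]
    refine Finset.sum_congr rfl fun x _ => ?_
    rw [hk_sum ω k x, Finset.mul_sum]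
  have h2 : ∀ ω ∈ DD T.V, g ω * (∑ᶠ x : Pt, φ x * ((hk k ω x : ℝ) - hk 0 ω x)) ^ 2 ≤
      (k : ℝ) * ∑ j ∈ Finset.range k, g ω * incr z m φ j ω ^ 2 := by
    intro ω hω
    rw [h1 ω hω, ← Finset.mul_sum]
    have := sq_sum_le_card_mul_sum_sq (s := Finset.range k) (f := fun j => incr z m φ j ω)
    rw [Finset.card_range] at this
    calc g ω * (∑ j ∈ Finset.range k, incr z m φ j ω) ^ 2
        ≤ g ω * ((k : ℝ) * ∑ j ∈ Finset.range k, incr z m φ j ω ^ 2) :=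
          mul_le_mul_of_nonneg_left this (hg0 ω)
      _ = _ := by ring
  have h3 := fun j => incr_goodX (T := T) (k := k) (e := e) hR hA hm hsum j
  unfold Ex at h3 ⊢
  simp only [smul_eq_mul] at h3 ⊢
  set c : ℝ := ((DD T.V).card : ℝ)⁻¹ with hc
  have hc0 : 0 ≤ c := by positivity
  calc c * ∑ ω ∈ DD T.V, g ω * (∑ᶠ x : Pt, φ x * ((hk k ω x : ℝ) - hk 0 ω x)) ^ 2
      ≤ c * ∑ ω ∈ DD T.V, (k : ℝ) * ∑ j ∈ Finset.range k, g ω * incr z m φ j ω ^ 2 :=
        mul_le_mul_of_nonneg_left (Finset.sum_le_sum h2) hc0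
    _ = (k : ℝ) * ∑ j ∈ Finset.range k, c * ∑ ω ∈ DD T.V, g ω * incr z m φ j ω ^ 2 := by
        rw [← Finset.mul_sum, Finset.sum_comm, Finset.mul_sum]
        rw [Finset.mul_sum, Finset.mul_sum]
        refine Finset.sum_congr rfl fun j _ => ?_
        ring
    _ ≤ (k : ℝ) * ∑ j ∈ Finset.range k, 144 * C0 ^ 2 * ((e : ℝ) + 1) ^ 2 / (R : ℝ) ^ 2 :=
        mul_le_mul_of_nonneg_left (Finset.sum_le_sum fun j _ => h3 j) (Nat.cast_nonneg k)
    _ = 144 * C0 ^ 2 * (k : ℝ) ^ 2 * ((e : ℝ) + 1) ^ 2 / (R : ℝ) ^ 2 := by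
        rw [Finset.sum_const, Finset.card_range, nsmul_eq_mul]
        ring

end Vale.Agent.P155.NT733
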