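import Vale.Agent.P155.NT733.XD
import Vale.Agent.P155.NO801.Def

/-!
# P155, literal Q1, necessity of `Outer`: blocks (D2) and (D3), in the form of the definition file
-/

namespace Vale.Agent.P155.NT733

open Finset

/-- **(D2)** -/
theorem d2 : NO801.D2 := by
  refine ⟨9, by norm_num, ?_⟩
  intro C0 R e T φ u z m k ω _ hR hT hm hA hsupp hω hg hu
  exact pair_goodX hR hT hA hm hsupp hω hg hu

/-- **(D3)** -/
theorem d3 : NO801.D3 := by
  refine ⟨144, by norm_num, ?_⟩
  intro C0 R e T φ z m k _ hR _ hm hA hsupp hsum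
  have hsum' : ∑ x ∈ box z m, φ x = 0 := by
    rw [← hsum, finsum_eq_sum_of_support_subset]
    intro x hx
    by_contra h
    exact hx (hsupp x h)
  exact sq_goodX hR hA hm hsupp hsum'

end Vale.Agent.P155.NT733
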