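import Vale.Agent.P155.U.Key2
import Vale.Agent.P155.U.Sub
import Vale.Agent.P155.U.Gam1
import Vale.Agent.P155.U613.Sep

/-!
# P155 (I1): a countable family of test functions which is uniformly dense in the test functions of
EVERY open set; continuity of the Green energy and of the pairings in the test function
(helper733)
-/

namespace Vale.Agent.P155.NT733

open MeasureTheory Set TopologicalSpace Filter Topology
open Vale.Agent.P155.Uq

/-- finite union of rational discs -/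
noncomputable def wU (I : Finset U.Idx) : Set ℂ := ⋃ i ∈ I, Metric.ball (U.ctr i) (i.2 : ℝ)

theorem isBounded_wU (I : Finset U.Idx) : Bornology.IsBounded (wU I) := by
  unfold wU
  exact (Bornology.isBounded_biUnion_finset I).2 fun i _ => Metric.isBounded_ball

/-- compact subsets of open sets are inside finite unions of rational discs -/
theorem exists_wU {O K : Set ℂ} (hO : IsOpen O) (hK : IsCompact K) (hKO : K ⊆ O) :
    ∃ I : Finset U.Idx, K ⊆ wU I ∧ wU I ⊆ O := by
  have h1 : ∀ p : K, ∃ i : U.Idx, 0 < i.2 ∧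
      Metric.closedBall (U.ctr i) (2 * (i.2 : ℝ)) ⊆ O ∧ (p : ℂ) ∈ Metric.ball (U.ctr i) (i.2 : ℝ) :=
    fun p => U.exists_idx hO (hKO p.2)
  choose f hf0 hfO hfp using h1
  obtain ⟨t, ht⟩ := hK.elim_finite_subcover (fun p : K => Metric.ball (U.ctr (f p)) ((f p).2 : ℝ))
    (fun p => Metric.isOpen_ball) (fun p hp => mem_iUnion.2 ⟨⟨p, hp⟩, hfp ⟨p, hp⟩⟩)
  classical
  refine ⟨t.image f, ?_, ?_⟩
  · intro p hp
    obtain ⟨q, hq, hpq⟩ := mem_iUnion₂.1 (ht hp)
    exact mem_iUnion₂.2 ⟨f q, Finset.mem_image_of_mem f hq, hpq⟩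
  · intro z hz
    obtain ⟨i, hi, hzi⟩ := mem_iUnion₂.1 hz
    obtain ⟨q, hq, rfl⟩ := Finset.mem_image.1 hi
    apply hfO q
    rw [Metric.mem_closedBall]
    rw [Metric.mem_ball] at hzi
    have : (0 : ℝ) < (f q).2 := by exact_mod_cast hf0 q
    linarith

/-- **A countable family of tests which is dense in the tests of every open set.** -/
theorem exists_dense_tests : ∃ e : ℕ → ℂ → ℝ, (∀ n, IsTest univ (e n)) ∧
    ∀ O : Set ℂ, IsOpen O → ∀ φ, IsTest O φ → ∀ ε : ℝ, 0 < ε →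
      ∃ n, IsTest O (e n) ∧ ∀ z, |φ z - e n z| < ε := by
  -- one finite union
  have key : ∀ I : Finset U.Idx, ∃ e : ℕ → ℂ → ℝ, (∀ n, IsTest (wU I) (e n)) ∧
      ∀ φ, IsTest (wU I) φ → ∀ ε : ℝ, 0 < ε → ∃ n, ∀ z, |φ z - e n z| < ε := by
    intro I
    set S : Set C(ℂ, ℝ) := {f | IsTest (wU I) f} with hS
    have hsep : IsSeparable S := by
      have : SeparableSpace S := inferInstance
      exact IsSeparable.of_subtype S
    obtain ⟨c, hcS, hcc, hSc⟩ := hsep.exists_countable_dense_subset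
    have hne : S.Nonempty := ⟨0, U.isTest_zero _⟩
    have hcne : c.Nonempty := by
      by_contra h
      rw [not_nonempty_iff_eq_empty] at h
      rw [h, closure_empty, subset_empty_iff] at hSc
      exact hne.ne_empty hSc
    obtain ⟨x, hx⟩ := hcc.exists_eq_range hcne
    refine ⟨fun n => x n, fun n => hcS (hx ▸ mem_range_self n), ?_⟩
    intro φ hφ ε hε
    obtain ⟨R, hR⟩ := (isBounded_wU I).subset_closedBall 0
    let f : C(ℂ, ℝ) := ⟨φ, hφ.1.continuous⟩
    have hf : f ∈ closure c := hSc (show f ∈ S from hφ)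
    have hcomp : IsCompact (Metric.closedBall (0 : ℂ) R) := isCompact_closedBall _ _
    have hnhds : {g : C(ℂ, ℝ) | ∀ z ∈ Metric.closedBall (0 : ℂ) R, dist (g z) (f z) < ε} ∈ 𝓝 f := by
      have h1 := (ContinuousMap.tendsto_iff_forall_isCompact_tendstoUniformlyOn (F := id)
        (p := 𝓝 f) (f := f)).1 tendsto_id _ hcomp
      rw [Metric.tendstoUniformlyOn_iff] at h1
      filter_upwards [h1 ε hε] with g hg z hz
      have := hg z hz
      rw [dist_comm]
      exact this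
    obtain ⟨g, hg1, hg2⟩ := mem_closure_iff_nhds.1 hf _ hnhds
    rw [hx] at hg2
    obtain ⟨n, rfl⟩ := hg2
    refine ⟨n, fun z => ?_⟩
    have hxn : IsTest (wU I) (x n) := hcS (hx ▸ mem_range_self n)
    by_cases hz : z ∈ Metric.closedBall (0 : ℂ) R
    · have := hg1 z hz
      rw [dist_comm, Real.dist_eq] at this
      exact this
    · show |φ z - x n z| < ε
      have hzW : z ∉ wU I := fun h => hz (hR h)
      have h1 : φ z = 0 := by
        by_contra h
        exact hzW (hφ.2.2 (subset_tsupport φ h))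
      have h2 : x n z = 0 := by
        by_contra h
        exact hzW (hxn.2.2 (subset_tsupport _ h))
      rw [h1, h2, sub_zero, abs_zero]
      exact hε
  choose e he hed using key
  obtain ⟨q, hq⟩ := exists_surjective_nat (Finset U.Idx × ℕ)
  refine ⟨fun n => e (q n).1 (q n).2, fun n => ?_, ?_⟩
  · have h := he (q n).1 (q n).2
    exact ⟨h.1, h.2.1, subset_univ _⟩
  · intro O hO φ hφ ε hε
    obtain ⟨I, hI1, hI2⟩ := exists_wU hO hφ.2.1 hφ.2.2
    obtain ⟨m, hm⟩ := hed I φ ⟨hφ.1, hφ.2.1, hI1⟩ ε hε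
    obtain ⟨n, hn⟩ := hq (I, m)
    refine ⟨n, ?_, ?_⟩
    · have h := he (q n).1 (q n).2
      refine ⟨h.1, h.2.1, h.2.2.trans ?_⟩
      rw [hn]
      exact hI2
    · intro z
      show |φ z - e (q n).1 (q n).2 z| < ε
      rw [hn]
      exact hm z

theorem int_mul_test {f v : ℂ → ℝ} (hf : Continuous f) {U : Set ℂ} (hv : IsTest U v) :
    Integrable (fun z => f z * v z) :=
  (hf.mul hv.1.continuous).integrable_of_hasCompactSupport hv.2.1.mul_left

theorem dval_scale {U : Set ℂ} (hb : Bornology.IsBounded U) {ψ : ℂ → ℝ} {B : ℝ}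
    (hψc : Continuous ψ) (hψ : ∀ z, |ψ z| ≤ B) {v : ℂ → ℝ} (hv : IsTest U v) {a : ℝ} (ha : 0 < a) :
    2 * (∫ z, ψ z * v z) - a * ∫ z, ‖fderiv ℝ v z‖ ^ 2 ≤ greenEnergy U ψ / a := by
  have h1 := Vale.Agent.P155.U.dval_le hb hψc.aestronglyMeasurable hψ (Gam.test_smul hv a)
  have e1 : ∫ z, ψ z * (a * v z) = a * ∫ z, ψ z * v z := by
    rw [← integral_const_mul]
    exact integral_congr_ae (Eventually.of_forall fun z => by ring)
  have e2 : ∫ z, ‖fderiv ℝ (fun z => a * v z) z‖ ^ 2 = a ^ 2 * ∫ z, ‖fderiv ℝ v z‖ ^ 2 := by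
    rw [← integral_const_mul]
    refine integral_congr_ae (Eventually.of_forall fun z => ?_)
    have hd : DifferentiableAt ℝ v z := (hv.1.differentiable (by simp)) z
    simp only
    rw [fderiv_const_mul hd, norm_smul, mul_pow, Real.norm_eq_abs, sq_abs]
  rw [e1, e2] at h1
  rw [le_div_iff₀ ha]
  nlinarith [h1]

/-- Young inequality for the Green energy -/
theorem green_young {U : Set ℂ} (hb : Bornology.IsBounded U) {φ ψ : ℂ → ℝ} (hφ : Continuous φ)
    (hψ : Continuous ψ) {B : ℝ} (hψB : ∀ z, |ψ z| ≤ B) (hφB : ∀ z, |φ z - ψ z| ≤ B)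
    {s : ℝ} (hs : 0 < s) :
    greenEnergy U φ ≤
      (1 + s) * greenEnergy U ψ + (1 + 1 / s) * greenEnergy U (fun z => φ z - ψ z) := by
  refine Vale.Agent.P155.U.greenEnergy_le fun v hv => ?_
  have hc : Continuous (fun z => φ z - ψ z) := hφ.sub hψ
  have h1 := dval_scale hb hψ hψB hv (a := 1 / (1 + s)) (by positivity)
  have h2 := dval_scale hb hc hφB hv (a := s / (1 + s)) (by positivity)
  have e1 : ∫ z, φ z * v z = (∫ z, ψ z * v z) + ∫ z, (φ z - ψ z) * v z := by
    rw [← integral_add (int_mul_test hψ hv) (int_mul_test hc hv)]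
    exact integral_congr_ae (Eventually.of_forall fun z => by ring)
  have hs1 : (1 : ℝ) + s ≠ 0 := by positivity
  have e2 : greenEnergy U ψ / (1 / (1 + s)) = (1 + s) * greenEnergy U ψ := by
    field_simp
  have e3 : greenEnergy U (fun z => φ z - ψ z) / (s / (1 + s)) =
      (1 + 1 / s) * greenEnergy U (fun z => φ z - ψ z) := by
    field_simp
    ring
  rw [e2] at h1
  rw [e3] at h2
  have e4 : (1 / (1 + s)) * (∫ z, ‖fderiv ℝ v z‖ ^ 2) + s / (1 + s) * (∫ z, ‖fderiv ℝ v z‖ ^ 2) =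
      ∫ z, ‖fderiv ℝ v z‖ ^ 2 := by
    field_simp
  rw [e1]
  linarith

/-- Lipschitz continuity of the Green energy in the sup norm -/
theorem green_diff {U : Set ℂ} {R B δ : ℝ} (hR : 0 < R) (hU : ∀ z ∈ U, ‖z‖ < R) {φ ψ : ℂ → ℝ}
    (hφ : IsTest (Metric.ball 0 R) φ) (hψ : IsTest (Metric.ball 0 R) ψ) (hφB : ∀ z, |φ z| ≤ B)
    (hψB : ∀ z, |ψ z| ≤ B) (hδ : 0 < δ) (hd : ∀ z, |φ z - ψ z| ≤ δ) :
    |greenEnergy U φ - greenEnergy U ψ| ≤ 160 * R ^ 4 * (B ^ 2 * δ + δ ^ 2 + δ) := by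
  have hb : Bornology.IsBounded U :=
    Metric.isBounded_ball.subset (fun z hz => by simpa using hU z hz : U ⊆ Metric.ball 0 R)
  have hzero : ∀ {f : ℂ → ℝ}, IsTest (Metric.ball 0 R) f → ∀ z, R ≤ ‖z‖ → f z = 0 := by
    intro f hf z hz
    by_contra h
    have := hf.2.2 (subset_tsupport f h)
    rw [mem_ball_zero_iff] at this
    linarith
  have hB0 : 0 ≤ B := (abs_nonneg _).trans (hφB 0)
  have g1 := UK.greenEnergy_sup hR hU hφB (hzero hφ)
  have g2 := UK.greenEnergy_sup hR hU hψB (hzero hψ)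
  have g3 := UK.greenEnergy_sup (φ := fun z => φ z - ψ z) hR hU hd
    (fun z hz => by rw [hzero hφ z hz, hzero hψ z hz, sub_zero])
  have g4 := UK.greenEnergy_sup (φ := fun z => ψ z - φ z) hR hU
    (fun z => by rw [abs_sub_comm]; exact hd z)
    (fun z hz => by rw [hzero hφ z hz, hzero hψ z hz, sub_zero])
  have hd' : ∀ z, |φ z - ψ z| ≤ max B δ := fun z => (hd z).trans (le_max_right _ _)
  have hd'' : ∀ z, |ψ z - φ z| ≤ max B δ := fun z => by rw [abs_sub_comm]; exact hd' z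
  have y1 := green_young hb hφ.1.continuous hψ.1.continuous
    (fun z => (hψB z).trans (le_max_left B δ)) hd' hδ
  have y2 := green_young hb hψ.1.continuous hφ.1.continuous
    (fun z => (hφB z).trans (le_max_left B δ)) hd'' hδ
  have k1 : (1 + 1 / δ) * (160 * (R ^ 2 * δ) ^ 2) = 160 * R ^ 4 * (δ ^ 2 + δ) := by
    field_simp
  have hδ1 : 0 ≤ 1 + 1 / δ := by positivity
  have k3 := (mul_le_mul_of_nonneg_left g3 hδ1).trans_eq k1
  have k4 := (mul_le_mul_of_nonneg_left g4 hδ1).trans_eq k1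
  have k5 := mul_le_mul_of_nonneg_left g1 hδ.le
  have k6 := mul_le_mul_of_nonneg_left g2 hδ.le
  rw [abs_le]
  constructor
  · nlinarith [y2, k4, k5]
  · nlinarith [y1, k3, k6]

end Vale.Agent.P155.NT733
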