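import Vale.Agent.P155.NT733.YM

/-!
# P155, block SPL: connectedness of the splice
-/

namespace Vale.Agent.P155.NT733.YC

open MeasureTheory Filter Topology TopologicalSpace Vale.Agent.P155 Vale.Agent.P155.Uq

/-- The splice of two connected sets along the frontier of `V` is connected. -/
theorem conn_spl {V K K' : Set ℂ} (hV : IsOpen V) (hK : IsConnected K) (hKc : IsClosed K)
    (hfK : frontier V ⊆ K) (hne : (frontier V).Nonempty) (hK' : IsConnected K')
    (hK'c : IsClosed K') (hf' : frontier V ⊆ K') : IsConnected ((K \ V) ∪ K') := by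
  refine ⟨hK'.nonempty.mono Set.subset_union_right, ?_⟩
  have hdc : IsClosed (K \ V) := hKc.sdiff hV
  rw [isPreconnected_closed_iff]
  -- the key claim
  have key : ∀ A B : Set ℂ, IsClosed A → IsClosed B → (K \ V) ∪ K' ⊆ A ∪ B →
      (((K \ V) ∪ K') ∩ B).Nonempty → ¬ (((K \ V) ∪ K') ∩ (A ∩ B)).Nonempty → ¬ K' ⊆ A := by
    intro A B hA hB hAB hSB hno hKA
    have hsub : K ⊆ (closure V ∪ A) ∪ ((K \ V) ∩ B) := by
      intro x hx
      by_cases hxV : x ∈ V
      · exact Or.inl (Or.inl (subset_closure hxV))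
      · rcases hAB (Or.inl ⟨hx, hxV⟩) with h | h
        · exact Or.inl (Or.inr h)
        · exact Or.inr ⟨⟨hx, hxV⟩, h⟩
    have h1 : (K ∩ (closure V ∪ A)).Nonempty := by
      obtain ⟨x, hx⟩ := hne
      exact ⟨x, hfK hx, Or.inl (frontier_subset_closure hx)⟩
    have h2 : (K ∩ ((K \ V) ∩ B)).Nonempty := by
      obtain ⟨x, hx, hxB⟩ := hSB
      rcases hx with hx | hx
      · exact ⟨x, hx.1, hx, hxB⟩
      · exact absurd ⟨x, Or.inr hx, hKA hx, hxB⟩ hno
    obtain ⟨x, hxK, hxA, hxB⟩ := (isPreconnected_closed_iff.1 hK.isPreconnected)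
      (closure V ∪ A) ((K \ V) ∩ B) (isClosed_closure.union hA) (hdc.inter hB) hsub h1 h2
    rcases hxA with hxA | hxA
    · have : x ∈ frontier V := by
        rw [hV.frontier_eq]
        exact ⟨hxA, hxB.1.2⟩
      exact hno ⟨x, Or.inl hxB.1, hKA (hf' this), hxB.2⟩
    · exact hno ⟨x, Or.inl hxB.1, hxA, hxB.2⟩
  intro A B hA hB hAB hSA hSB
  by_contra hno
  have hK'sub : K' ⊆ A ∨ K' ⊆ B := by
    by_contra h
    push Not at h
    obtain ⟨h1, h2⟩ := h
    have hsub : K' ⊆ A ∪ B := fun x hx => hAB (Or.inr hx)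
    obtain ⟨x, hx, hxA⟩ := Set.not_subset.1 h1
    obtain ⟨y, hy, hyB⟩ := Set.not_subset.1 h2
    have hxB : x ∈ B := (hsub hx).resolve_left hxA
    have hyA : y ∈ A := (hsub hy).resolve_right hyB
    obtain ⟨w, hw, hwAB⟩ := (isPreconnected_closed_iff.1 hK'.isPreconnected) A B hA hB hsub
      ⟨y, hy, hyA⟩ ⟨x, hx, hxB⟩
    exact hno ⟨w, Or.inr hw, hwAB⟩
  rcases hK'sub with h | h
  · exact key A B hA hB hAB hSB hno h
  · refine key B A hB hA (by rwa [Set.union_comm B A]) hSA ?_ h
    rwa [Set.inter_comm B A]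

/-- the frontier of a component is contained in the frontier of the open set -/
theorem frontier_comp_sub {O : Set ℂ} (hO : IsOpen O) (z : ℂ) :
    frontier (connectedComponentIn O z) ⊆ frontier O := by
  have hV : IsOpen (connectedComponentIn O z) := hO.connectedComponentIn
  intro x hx
  rw [hV.frontier_eq] at hx
  rw [hO.frontier_eq]
  refine ⟨closure_mono (connectedComponentIn_subset O z) hx.1, fun hxO => hx.2 ?_⟩
  -- the component of `x` is an open neighbourhood, it meets the component of `z`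
  have hVx : IsOpen (connectedComponentIn O x) := hO.connectedComponentIn
  have hxx : x ∈ connectedComponentIn O x := mem_connectedComponentIn hxO
  obtain ⟨y, hy1, hy2⟩ := mem_closure_iff.1 hx.1 _ hVx hxx
  rw [connectedComponentIn_eq hy2, ← connectedComponentIn_eq hy1]
  exact hxx

/-- `frontier V` is nonempty for bounded nonempty open `V`. -/
theorem frontier_nonempty {V : Set ℂ} (hb : Bornology.IsBounded V) (hne : V.Nonempty) :
    (frontier V).Nonempty := by
  rw [nonempty_frontier_iff]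
  refine ⟨hne, ?_⟩
  rintro rfl
  exact NormedSpace.unbounded_univ ℝ ℂ hb

/-- **conn of SPL** -/
theorem conn_spl_ae {O V : Set ℂ} (hO : IsOpen O) (hb : Bornology.IsBounded O)
    (hV : ∃ z ∈ O, V = connectedComponentIn O z) {Θ Θ' : Type} [MeasurableSpace Θ]
    [MeasurableSpace Θ'] {P : Measure Θ} {P' : Measure Θ'} [SFinite P] [SFinite P']
    {G : ℕ → Θ → NonemptyCompacts ℂ} {H : ℕ → Θ → (ℂ → ℝ) → ℝ}
    {G' : ℕ → Θ' → NonemptyCompacts ℂ} {H' : ℕ → Θ' → (ℂ → ℝ) → ℝ}
    (h : IsSignedCarpets P O G H) (h' : IsSignedCarpets P' V G' H') :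
    ∀ᵐ x ∂(P.prod P'), ∀ k,
      IsConnected (toNC (((G k x.1 : Set ℂ) \ V) ∪ (G' k x.2 : Set ℂ)) : Set ℂ) := by
  obtain ⟨z, hz, rfl⟩ := hV
  have hVo : IsOpen (connectedComponentIn O z) := hO.connectedComponentIn
  have hne : (frontier (connectedComponentIn O z)).Nonempty :=
    frontier_nonempty (hb.subset (connectedComponentIn_subset O z))
      ⟨z, mem_connectedComponentIn hz⟩
  have hfr := frontier_comp_sub hO z
  -- the frontiers are in all carpets
  have e1 : ∀ᵐ x ∂P, ∀ k, frontier O ⊆ (G k x : Set ℂ) ∧ IsConnected (G k x : Set ℂ) := by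
    filter_upwards [h.zero, h.mono, h.conn] with x h0 h1 h2 k
    refine ⟨?_, h2 k⟩
    have : ∀ k, (G 0 x : Set ℂ) ⊆ G k x := by
      intro k
      induction k with
      | zero => exact subset_rfl
      | succ n ih => exact ih.trans (h1 n).1
    rw [← h0.1]
    exact this k
  have e2 : ∀ᵐ x ∂P', ∀ k, frontier (connectedComponentIn O z) ⊆ (G' k x : Set ℂ) ∧
      IsConnected (G' k x : Set ℂ) := by
    filter_upwards [h'.zero, h'.mono, h'.conn] with x h0 h1 h2 k
    refine ⟨?_, h2 k⟩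
    have : ∀ k, (G' 0 x : Set ℂ) ⊆ G' k x := by
      intro k
      induction k with
      | zero => exact subset_rfl
      | succ n ih => exact ih.trans (h1 n).1
    rw [← h0.1]
    exact this k
  have f1 : ∀ᵐ x ∂(P.prod P'), ∀ k, frontier O ⊆ (G k x.1 : Set ℂ) ∧
      IsConnected (G k x.1 : Set ℂ) := Measure.quasiMeasurePreserving_fst.ae e1
  have f2 : ∀ᵐ x ∂(P.prod P'), ∀ k, frontier (connectedComponentIn O z) ⊆ (G' k x.2 : Set ℂ) ∧
      IsConnected (G' k x.2 : Set ℂ) := Measure.quasiMeasurePreserving_snd.ae e2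
  filter_upwards [f1, f2] with x h1 h2 k
  rw [YM.toNC_coe (((G k x.1).isCompact.diff hVo).union (G' k x.2).isCompact)
    ((G' k x.2).nonempty.mono Set.subset_union_right)]
  exact conn_spl hVo (h1 k).2 (G k x.1).isCompact.isClosed (hfr.trans (h1 k).1) hne (h2 k).2
    (G' k x.2).isCompact.isClosed (h2 k).1

end Vale.Agent.P155.NT733.YC
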