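import Vale.Agent.P155.U.CplLoc
import Vale.Agent.P155.NO801.YI

/-!
# P155, block (MEAS): Borel measurability of `K ↦ K ∩ C`, of the splice and of `rst V`
-/

namespace Vale.Agent.P155.NT733.YM

open MeasureTheory Filter Topology TopologicalSpace Vale.Agent.P155 Vale.Agent.P155.Uq

/-- Measurability of maps into `NonemptyCompacts ℂ` through the hitting events of open sets. -/
theorem meas_of_hit {X : Type*} [MeasurableSpace X] {f : X → NonemptyCompacts ℂ}
    (h : ∀ U : Set ℂ, IsOpen U → MeasurableSet {x | ((f x : Set ℂ) ∩ U).Nonempty}) :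
    Measurable f := by
  let e : NonemptyCompacts ℂ → (ℕ → ℝ) := fun K n => Metric.infDist (denseSeq ℂ n) (K : Set ℂ)
  have he : Continuous e := continuous_pi fun n => cont_infDist_nc _
  have hinj : Function.Injective e := by
    intro K K' hKK
    have h1 : (fun q => Metric.infDist q (K : Set ℂ)) = fun q => Metric.infDist q (K' : Set ℂ) :=
      DenseRange.equalizer (denseRange_denseSeq ℂ) (Metric.continuous_infDist_pt _)
        (Metric.continuous_infDist_pt _) (funext fun n => congrFun hKK n)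
    apply SetLike.coe_injective
    ext q
    rw [K.isCompact.isClosed.mem_iff_infDist_zero K.nonempty,
      K'.isCompact.isClosed.mem_iff_infDist_zero K'.nonempty, congrFun h1 q]
  have hemb : MeasurableEmbedding e := he.measurableEmbedding hinj
  rw [← hemb.measurable_comp_iff]
  apply measurable_pi_lambda
  intro n
  apply measurable_of_Iio
  intro r
  have : (fun x => (e ∘ f) x n) ⁻¹' Set.Iio r =
      {x | ((f x : Set ℂ) ∩ Metric.ball (denseSeq ℂ n) r).Nonempty} := by
    ext x
    simp only [Set.mem_preimage, Function.comp_apply, Set.mem_Iio, e,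
      Metric.infDist_lt_iff (f x).nonempty, Set.mem_ofPred_eq]
    constructor
    · rintro ⟨y, hy, hd⟩
      exact ⟨y, hy, by rwa [Metric.mem_ball, dist_comm]⟩
    · rintro ⟨y, hy, hd⟩
      exact ⟨y, hy, by rwa [Metric.mem_ball, dist_comm] at hd⟩
  rw [this]
  exact h _ Metric.isOpen_ball

theorem meas_hit_closed {F : Set ℂ} (hF : IsClosed F) :
    MeasurableSet {K : NonemptyCompacts ℂ | ((K : Set ℂ) ∩ F).Nonempty} :=
  (NonemptyCompacts.isClosed_inter_nonempty_of_isClosed hF).measurableSet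

theorem meas_hit_open {U : Set ℂ} (hU : IsOpen U) :
    MeasurableSet {K : NonemptyCompacts ℂ | ((K : Set ℂ) ∩ U).Nonempty} :=
  (NonemptyCompacts.isOpen_inter_nonempty_of_isOpen hU).measurableSet

theorem meas_hit_cap {C U : Set ℂ} (hC : IsClosed C) (hU : IsOpen U) :
    MeasurableSet {K : NonemptyCompacts ℂ | ((K : Set ℂ) ∩ (C ∩ U)).Nonempty} := by
  obtain ⟨F, hF, -, hFU, -⟩ := hU.exists_iUnion_isClosed
  have : {K : NonemptyCompacts ℂ | ((K : Set ℂ) ∩ (C ∩ U)).Nonempty} =
      ⋃ n, {K : NonemptyCompacts ℂ | ((K : Set ℂ) ∩ (C ∩ F n)).Nonempty} := by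
    ext K
    simp only [Set.mem_ofPred_eq, Set.mem_iUnion]
    constructor
    · rintro ⟨x, hx, hxC, hxU⟩
      rw [← hFU] at hxU
      obtain ⟨n, hn⟩ := Set.mem_iUnion.1 hxU
      exact ⟨n, x, hx, hxC, hn⟩
    · rintro ⟨n, x, hx, hxC, hn⟩
      exact ⟨x, hx, hxC, by rw [← hFU]; exact Set.mem_iUnion.2 ⟨n, hn⟩⟩
  rw [this]
  exact MeasurableSet.iUnion fun n => meas_hit_closed (hC.inter (hF n))

/-- `K ∩ C` (junk value if it is empty) -/
noncomputable def cap (C : Set ℂ) (K : NonemptyCompacts ℂ) : NonemptyCompacts ℂ :=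
  toNC ((K : Set ℂ) ∩ C)

theorem toNC_coe {S : Set ℂ} (h : IsCompact S) (h' : S.Nonempty) : (toNC S : Set ℂ) = S := by
  unfold toNC
  rw [dif_pos ⟨h, h'⟩]
  rfl

theorem toNC_junk {S : Set ℂ} (h : ¬ (IsCompact S ∧ S.Nonempty)) : (toNC S : Set ℂ) = {0} := by
  unfold toNC
  rw [dif_neg h]
  rfl

theorem cap_coe {C : Set ℂ} (hC : IsClosed C) {K : NonemptyCompacts ℂ}
    (h : ((K : Set ℂ) ∩ C).Nonempty) : (cap C K : Set ℂ) = (K : Set ℂ) ∩ C :=
  toNC_coe (K.isCompact.inter_right hC) h

theorem cap_junk {C : Set ℂ} {K : NonemptyCompacts ℂ}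
    (h : ¬ ((K : Set ℂ) ∩ C).Nonempty) : (cap C K : Set ℂ) = {0} :=
  toNC_junk fun h' => h h'.2

/-- **`K ↦ K ∩ C` is Borel** -/
theorem measurable_cap {C : Set ℂ} (hC : IsClosed C) : Measurable (cap C) := by
  apply meas_of_hit
  intro U hU
  have : {K : NonemptyCompacts ℂ | ((cap C K : Set ℂ) ∩ U).Nonempty} =
      ({K : NonemptyCompacts ℂ | ((K : Set ℂ) ∩ C).Nonempty} ∩
        {K : NonemptyCompacts ℂ | ((K : Set ℂ) ∩ (C ∩ U)).Nonempty}) ∪
      ({K : NonemptyCompacts ℂ | ((K : Set ℂ) ∩ C).Nonempty}ᶜ ∩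
        {K : NonemptyCompacts ℂ | (0 : ℂ) ∈ U}) := by
    ext K
    by_cases hK : ((K : Set ℂ) ∩ C).Nonempty
    · simp [hK, cap_coe hC hK, Set.inter_assoc]
    · simp [hK, cap_junk hK]
  rw [this]
  exact ((meas_hit_closed hC).inter (meas_hit_cap hC hU)).union
    ((meas_hit_closed hC).compl.inter (MeasurableSet.const _))

/-- the splice: `K` outside of `V`, `K'` inside -/
noncomputable def spl (V : Set ℂ) (K K' : NonemptyCompacts ℂ) : NonemptyCompacts ℂ :=
  toNC (((K : Set ℂ) \ V) ∪ (K' : Set ℂ))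

theorem spl_coe {V : Set ℂ} (hV : IsOpen V) (K K' : NonemptyCompacts ℂ) :
    (spl V K K' : Set ℂ) = ((K : Set ℂ) \ V) ∪ (K' : Set ℂ) :=
  toNC_coe ((K.isCompact.diff hV).union K'.isCompact) (K'.nonempty.mono Set.subset_union_right)

/-- **the splice is Borel** -/
theorem measurable_spl {V : Set ℂ} (hV : IsOpen V) :
    Measurable (fun p : NonemptyCompacts ℂ × NonemptyCompacts ℂ => spl V p.1 p.2) := by
  apply meas_of_hit
  intro U hU
  have : {p : NonemptyCompacts ℂ × NonemptyCompacts ℂ | ((spl V p.1 p.2 : Set ℂ) ∩ U).Nonempty} =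
      (Prod.fst ⁻¹' {K : NonemptyCompacts ℂ | ((K : Set ℂ) ∩ (Vᶜ ∩ U)).Nonempty}) ∪
      (Prod.snd ⁻¹' {K : NonemptyCompacts ℂ | ((K : Set ℂ) ∩ U).Nonempty}) := by
    ext p
    simp only [Set.mem_ofPred_eq, spl_coe hV, Set.mem_union, Set.mem_preimage, Set.union_inter_distrib_right,
      Set.union_nonempty, Set.sdiff_eq, Set.inter_assoc]
  rw [this]
  exact (measurable_fst (meas_hit_cap hV.isClosed_compl hU)).union
    (measurable_snd (meas_hit_open hU))

/-- Measurability of the splice, for functions. -/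
theorem meas_spl {X : Type*} [MeasurableSpace X] {V : Set ℂ} (hV : IsOpen V)
    {f g : X → NonemptyCompacts ℂ} (hf : Measurable f) (hg : Measurable g) :
    Measurable (fun x => toNC (((f x : Set ℂ) \ V) ∪ (g x : Set ℂ))) := by
  change Measurable (fun x => spl V (f x) (g x))
  have h := Measurable.comp (measurable_spl hV) (Measurable.prodMk hf hg)
  have he : (fun x => spl V (f x) (g x)) =
      (fun p : NonemptyCompacts ℂ × NonemptyCompacts ℂ => spl V p.1 p.2) ∘
        (fun x => (f x, g x)) := rfl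
  rw [he]
  exact h

theorem rst_eq (V : Set ℂ) (s : NO801.Y.SQ) (k : ℕ) :
    NO801.Y.rst V s k = cap (closure V) (s (k + 1)) := by
  apply SetLike.coe_injective
  by_cases h : ((s (k + 1) : Set ℂ) ∩ closure V).Nonempty
  · rw [cap_coe isClosed_closure h]
    unfold NO801.Y.rst
    rw [dif_pos h]
    rfl
  · rw [cap_junk h]
    unfold NO801.Y.rst
    rw [dif_neg h]
    rfl

/-- **`rst V` is Borel** -/
theorem measurable_rst (V : Set ℂ) : Measurable (NO801.Y.rst V) := by
  apply measurable_pi_lambda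
  intro k
  have : (fun s => NO801.Y.rst V s k) = fun s => cap (closure V) (s (k + 1)) :=
    funext fun s => rst_eq V s k
  rw [this]
  exact (measurable_cap isClosed_closure).comp (measurable_pi_apply (k + 1))

/-- the sequence of the carpets off `V` -/
noncomputable def off (V : Set ℂ) (s : NO801.Y.SQ) : NO801.Y.SQ := fun k => cap Vᶜ (s k)

theorem measurable_off {V : Set ℂ} (hV : IsOpen V) : Measurable (off V) :=
  measurable_pi_lambda _ fun k =>
    (measurable_cap hV.isClosed_compl).comp (measurable_pi_apply k)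

end Vale.Agent.P155.NT733.YM
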